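import Claimed.Agent.R286.Tool.ConvOrder

/-!
# ROW 286, TOOLBOX (order O1 of helper136), owner helper151: THE CONVOLUTION COMPETITOR      (vocabulary free, 0 sorry)

LL07, proof of `bud:envelope` (l.1185-1230): "convolve the fraction `θ` of `ν` with the symmetric uniform kernel of radius `σ`".
* `tlAvg σ N`   the symmetric uniform average;  `tl_151_avg_sub` (increments), `_avg_mono`, `_avg_lip`, `_avg_const`, `_avg_continuous`, `_integral_avg`.
* `tlW σ N = avg P - P` (`P` = primitive of `N`): Hermite-Hadamard defect; `0 ≤ W ≤ σ (N(x+σ) - N(x-σ))`, `∫_s^T (N - avg N) = W s - W T`, `∫ W ≤ 2σ² (avg N b - avg N a)`.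
* `tl_151_first_moment`   triangle Fubini.      `tl_151_exists_inv`   continuous + strictly increasing ⇒ inverse pair.      `tl_151_second_moment`.
* `tlNu al k A B`   distribution function of `ν|[A,B]`, `ν = law - k dr`;      `tlComp al k A B σ θ = al + θ (avg ν - ν)`   THE COMPETITOR.
* **`tl_151_competitor`** (last theorem): all properties at once.  `TlCH` = its hypotheses as a structure, `TlCH.floor' .cap' .comp_eq .hcx .hmean .penalty .r_eq .r_mem_band` = the single properties.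
-/

set_option autoImplicit false

open MeasureTheory Set Filter Topology intervalIntegral

namespace Claimed.Agent.R286

noncomputable section

/-- symmetric uniform average of radius `σ` -/
def tlAvg (σ : ℝ) (N : ℝ → ℝ) (t : ℝ) : ℝ := (2 * σ)⁻¹ * ∫ y in (t - σ)..(t + σ), N y

/-- the primitive from `0` -/
def tlPrim (N : ℝ → ℝ) (x : ℝ) : ℝ := ∫ y in (0 : ℝ)..x, N y

theorem tl_151_eqns_cite : True := by
  have := @tlAvg.eq_1
  have := @tlPrim.eq_1
  trivial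

theorem tl_151_ii_add {N : ℝ → ℝ} (hN : ∀ a b, IntervalIntegrable N volume a b) (c a b : ℝ) :
    IntervalIntegrable (fun t => N (t + c)) volume a b := by
  have := (hN (a + c) (b + c)).comp_add_right c
  simpa using this

theorem tl_151_ii_sub {N : ℝ → ℝ} (hN : ∀ a b, IntervalIntegrable N volume a b) (c a b : ℝ) :
    IntervalIntegrable (fun t => N (t - c)) volume a b := by
  have := (hN (a - c) (b - c)).comp_sub_right c
  simpa using this

theorem tl_151_ii_add_left {N : ℝ → ℝ} (hN : ∀ a b, IntervalIntegrable N volume a b) (c a b : ℝ) :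
    IntervalIntegrable (fun t => N (c + t)) volume a b := by
  have := (hN (a + c) (b + c)).comp_add_left c
  simpa using this

/-- increments of the average -/
theorem tl_151_avg_sub {σ : ℝ} {N : ℝ → ℝ} (hN : ∀ a b, IntervalIntegrable N volume a b)
    (r1 r2 : ℝ) :
    tlAvg σ N r2 - tlAvg σ N r1 = (2 * σ)⁻¹ * ∫ t in r1..r2, (N (t + σ) - N (t - σ)) := by
  unfold tlAvg
  rw [← mul_sub]
  congr 1
  have i1 : IntervalIntegrable (fun t => N (t + σ)) volume r1 r2 := tl_151_ii_add hN σ r1 r2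
  have i2 : IntervalIntegrable (fun t => N (t - σ)) volume r1 r2 := tl_151_ii_sub hN σ r1 r2
  rw [intervalIntegral.integral_sub i1 i2, intervalIntegral.integral_comp_add_right,
    intervalIntegral.integral_comp_sub_right,
    intervalIntegral.integral_interval_sub_interval_comm (hN _ _) (hN _ _) (hN _ _),
    intervalIntegral.integral_symm (r1 - σ) (r2 - σ), intervalIntegral.integral_symm (r1 + σ) (r2 + σ)]
  ring

/-- the average as an average of translates -/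
theorem tl_151_avg_shift (σ : ℝ) (N : ℝ → ℝ) (t : ℝ) :
    tlAvg σ N t = (2 * σ)⁻¹ * ∫ y in (-σ)..σ, N (t + y) := by
  unfold tlAvg
  rw [intervalIntegral.integral_comp_add_left]
  congr 2

theorem tl_151_avg_const {σ : ℝ} (hσ : 0 < σ) {N : ℝ → ℝ} {t c : ℝ}
    (h : ∀ y ∈ Icc (t - σ) (t + σ), N y = c) : tlAvg σ N t = c := by
  unfold tlAvg
  have h1 : ∫ y in (t - σ)..(t + σ), N y = ∫ _y in (t - σ)..(t + σ), c := by
    refine intervalIntegral.integral_congr fun y hy => ?_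
    rw [uIcc_of_le (by linarith)] at hy
    exact h y hy
  rw [h1, intervalIntegral.integral_const, smul_eq_mul]
  field_simp
  ring

theorem tl_151_avg_mono {σ : ℝ} (hσ : 0 < σ) {N : ℝ → ℝ} (hN : Monotone N) :
    Monotone (tlAvg σ N) := by
  intro r1 r2 h12
  have h := tl_151_avg_sub (σ := σ) (fun a b => hN.intervalIntegrable) r1 r2
  have h2 : 0 ≤ ∫ t in r1..r2, (N (t + σ) - N (t - σ)) :=
    intervalIntegral.integral_nonneg h12 fun t _ => sub_nonneg.2 (hN (by linarith))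
  have h3 : 0 ≤ (2 * σ)⁻¹ * ∫ t in r1..r2, (N (t + σ) - N (t - σ)) := by positivity
  linarith

/-- a Lipschitz bound passes to the average -/
theorem tl_151_avg_lip {σ : ℝ} (hσ : 0 < σ) {N : ℝ → ℝ} (hN : ∀ a b, IntervalIntegrable N volume a b)
    {M : ℝ} (hM : ∀ x y, x ≤ y → N y - N x ≤ M * (y - x)) {r1 r2 : ℝ} (h12 : r1 ≤ r2) :
    tlAvg σ N r2 - tlAvg σ N r1 ≤ M * (r2 - r1) := by
  rw [tl_151_avg_shift, tl_151_avg_shift, ← mul_sub]
  have i1 : IntervalIntegrable (fun y => N (r2 + y)) volume (-σ) σ := tl_151_ii_add_left hN r2 _ _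
  have i2 : IntervalIntegrable (fun y => N (r1 + y)) volume (-σ) σ := tl_151_ii_add_left hN r1 _ _
  rw [← intervalIntegral.integral_sub i1 i2]
  have h1 : ∫ y in (-σ)..σ, (N (r2 + y) - N (r1 + y)) ≤ ∫ _y in (-σ)..σ, M * (r2 - r1) := by
    refine intervalIntegral.integral_mono_on (by linarith) (i1.sub i2) intervalIntegrable_const ?_
    intro y _
    have := hM (r1 + y) (r2 + y) (by linarith)
    linarith
  rw [intervalIntegral.integral_const, smul_eq_mul] at h1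
  have h2 : (2 * σ)⁻¹ * ∫ y in (-σ)..σ, (N (r2 + y) - N (r1 + y))
      ≤ (2 * σ)⁻¹ * ((σ - -σ) * (M * (r2 - r1))) := mul_le_mul_of_nonneg_left h1 (by positivity)
  have h3 : (2 * σ)⁻¹ * ((σ - -σ) * (M * (r2 - r1))) = M * (r2 - r1) := by
    field_simp
    ring
  linarith

theorem tl_151_prim_sub {N : ℝ → ℝ} (hN : ∀ a b, IntervalIntegrable N volume a b) (x y : ℝ) :
    tlPrim N y - tlPrim N x = ∫ t in x..y, N t := by
  unfold tlPrim
  exact intervalIntegral.integral_interval_sub_left (hN _ _) (hN _ _)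

theorem tl_151_prim_continuous {N : ℝ → ℝ} (hN : ∀ a b, IntervalIntegrable N volume a b) :
    Continuous (tlPrim N) := by
  unfold tlPrim
  exact intervalIntegral.continuous_primitive hN 0

/-- the integral of the average is the increment of the average of the primitive -/
theorem tl_151_integral_avg {σ : ℝ} {N : ℝ → ℝ} (hN : ∀ a b, IntervalIntegrable N volume a b)
    (s T : ℝ) :
    ∫ t in s..T, tlAvg σ N t = tlAvg σ (tlPrim N) T - tlAvg σ (tlPrim N) s := by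
  rw [tl_151_avg_sub (fun a b => (tl_151_prim_continuous hN).intervalIntegrable a b)]
  unfold tlAvg
  rw [intervalIntegral.integral_const_mul]
  congr 1
  refine intervalIntegral.integral_congr fun t _ => ?_
  exact (tl_151_prim_sub hN _ _).symm

/-- the defect `W = avg P - P` of the primitive (Hermite-Hadamard) -/
def tlW (σ : ℝ) (N : ℝ → ℝ) (x : ℝ) : ℝ := tlAvg σ (tlPrim N) x - tlPrim N x

theorem tl_151_eqns_cite2 : True := by
  have := @tlW.eq_1
  trivial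

theorem tl_151_avg_continuous {σ : ℝ} {N : ℝ → ℝ} (hN : ∀ a b, IntervalIntegrable N volume a b) :
    Continuous (tlAvg σ N) := by
  have h : tlAvg σ N = fun t => (2 * σ)⁻¹ * (tlPrim N (t + σ) - tlPrim N (t - σ)) := by
    funext t
    rw [tl_151_prim_sub hN]
    rfl
  rw [h]
  have := tl_151_prim_continuous hN
  fun_prop

theorem tl_151_integral_sub_avg {σ : ℝ} {N : ℝ → ℝ} (hN : ∀ a b, IntervalIntegrable N volume a b)
    (s T : ℝ) : ∫ t in s..T, (N t - tlAvg σ N t) = tlW σ N s - tlW σ N T := by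
  rw [intervalIntegral.integral_sub (hN _ _) ((tl_151_avg_continuous hN).intervalIntegrable _ _),
    tl_151_integral_avg hN, ← tl_151_prim_sub hN]
  unfold tlW
  ring

theorem tl_151_W_eq {σ : ℝ} (hσ : 0 < σ) {N : ℝ → ℝ} (hN : ∀ a b, IntervalIntegrable N volume a b)
    (x : ℝ) : tlW σ N x = (2 * σ)⁻¹ * ∫ y in (-σ)..σ, (∫ t in x..(x + y), N t) := by
  unfold tlW
  rw [tl_151_avg_shift]
  have hc := tl_151_prim_continuous hN
  have i1 : IntervalIntegrable (fun y => tlPrim N (x + y)) volume (-σ) σ :=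
    (hc.comp (continuous_const.add continuous_id)).intervalIntegrable _ _
  have e1 : ∫ y in (-σ)..σ, (∫ t in x..(x + y), N t)
      = (∫ y in (-σ)..σ, tlPrim N (x + y)) - (σ - -σ) * tlPrim N x := by
    rw [← smul_eq_mul, ← intervalIntegral.integral_const,
      ← intervalIntegral.integral_sub i1 intervalIntegrable_const]
    refine intervalIntegral.integral_congr fun y _ => ?_
    exact (tl_151_prim_sub hN _ _).symm
  rw [e1]
  field_simp
  ring


theorem tl_151_mono_int_bounds {N : ℝ → ℝ} (hN : Monotone N) {a b : ℝ} (hab : a ≤ b) :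
    (b - a) * N a ≤ ∫ t in a..b, N t ∧ ∫ t in a..b, N t ≤ (b - a) * N b := by
  constructor
  · have := intervalIntegral.integral_mono_on (μ := volume) hab (intervalIntegrable_const (c := N a))
      hN.intervalIntegrable fun t ht => hN ht.1
    rwa [intervalIntegral.integral_const, smul_eq_mul] at this
  · have := intervalIntegral.integral_mono_on (μ := volume) hab hN.intervalIntegrable
      (intervalIntegrable_const (c := N b)) fun t ht => hN ht.2
    rwa [intervalIntegral.integral_const, smul_eq_mul] at this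

theorem tl_151_I_bounds {σ : ℝ} {N : ℝ → ℝ} (hN : Monotone N) (x : ℝ) {y : ℝ}
    (hy : y ∈ Icc (-σ) σ) :
    y * N x ≤ ∫ t in x..(x + y), N t ∧
      ∫ t in x..(x + y), N t ≤ y * N x + σ * (N (x + σ) - N (x - σ)) := by
  have hσ : 0 ≤ σ := by
    have := hy.1.trans hy.2
    linarith
  have o1 : N (x - σ) ≤ N x := hN (by linarith)
  have o2 : N x ≤ N (x + σ) := hN (by linarith)
  rcases le_total 0 y with h0 | h0
  · obtain ⟨b1, b2⟩ := tl_151_mono_int_bounds hN (a := x) (b := x + y) (by linarith)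
    have o3 : N (x + y) ≤ N (x + σ) := hN (by linarith [hy.2])
    constructor
    · nlinarith
    · have e1 : (x + y - x) * N (x + y) ≤ y * N (x + σ) := by
        have : x + y - x = y := by ring
        rw [this]; exact mul_le_mul_of_nonneg_left o3 h0
      have e2 : y * (N (x + σ) - N x) ≤ σ * (N (x + σ) - N (x - σ)) :=
        mul_le_mul hy.2 (by linarith) (by linarith) hσ
      nlinarith
  · obtain ⟨b1, b2⟩ := tl_151_mono_int_bounds hN (a := x + y) (b := x) (by linarith)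
    rw [intervalIntegral.integral_symm]
    have o3 : N (x - σ) ≤ N (x + y) := hN (by linarith [hy.1])
    constructor
    · nlinarith
    · have e1 : (-y) * N (x - σ) ≤ (x - (x + y)) * N (x + y) := by
        have : x - (x + y) = -y := by ring
        rw [this]; exact mul_le_mul_of_nonneg_left o3 (by linarith)
      have e2 : (-y) * (N x - N (x - σ)) ≤ σ * (N (x + σ) - N (x - σ)) :=
        mul_le_mul (by linarith [hy.1]) (by linarith) (by linarith) hσ
      nlinarith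

theorem tl_151_I_ii {N : ℝ → ℝ} (hN : ∀ a b, IntervalIntegrable N volume a b) (x a b : ℝ) :
    IntervalIntegrable (fun y => ∫ t in x..(x + y), N t) volume a b := by
  have h : (fun y => ∫ t in x..(x + y), N t) = fun y => tlPrim N (x + y) - tlPrim N x := by
    funext y; exact (tl_151_prim_sub hN _ _).symm
  rw [h]
  have := tl_151_prim_continuous hN
  exact (by fun_prop : Continuous fun y => tlPrim N (x + y) - tlPrim N x).intervalIntegrable _ _

theorem tl_151_W_nonneg {σ : ℝ} (hσ : 0 < σ) {N : ℝ → ℝ} (hN : Monotone N) (x : ℝ) :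
    0 ≤ tlW σ N x := by
  have hI : ∀ a b, IntervalIntegrable N volume a b := fun a b => hN.intervalIntegrable
  rw [tl_151_W_eq hσ hI]
  have h1 : ∫ y in (-σ)..σ, y * N x ≤ ∫ y in (-σ)..σ, (∫ t in x..(x + y), N t) :=
    intervalIntegral.integral_mono_on (by linarith)
      ((continuous_id.mul continuous_const).intervalIntegrable _ _) (tl_151_I_ii hI x _ _)
      fun y hy => (tl_151_I_bounds hN x hy).1
  have h2 : ∫ y in (-σ)..σ, y * N x = 0 := by
    rw [intervalIntegral.integral_mul_const, integral_id]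
    ring
  rw [h2] at h1
  positivity

theorem tl_151_W_le {σ : ℝ} (hσ : 0 < σ) {N : ℝ → ℝ} (hN : Monotone N) (x : ℝ) :
    tlW σ N x ≤ σ * (N (x + σ) - N (x - σ)) := by
  have hI : ∀ a b, IntervalIntegrable N volume a b := fun a b => hN.intervalIntegrable
  rw [tl_151_W_eq hσ hI]
  have h1 : ∫ y in (-σ)..σ, (∫ t in x..(x + y), N t)
      ≤ ∫ y in (-σ)..σ, (y * N x + σ * (N (x + σ) - N (x - σ))) :=
    intervalIntegral.integral_mono_on (by linarith) (tl_151_I_ii hI x _ _)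
      (((continuous_id.mul continuous_const).add continuous_const).intervalIntegrable _ _)
      fun y hy => (tl_151_I_bounds hN x hy).2
  have h2 : ∫ y in (-σ)..σ, (y * N x + σ * (N (x + σ) - N (x - σ)))
      = (2 * σ) * (σ * (N (x + σ) - N (x - σ))) := by
    rw [intervalIntegral.integral_add (f := fun y => y * N x)
      ((continuous_id.mul continuous_const).intervalIntegrable _ _)
      intervalIntegrable_const, intervalIntegral.integral_mul_const, integral_id,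
      intervalIntegral.integral_const, smul_eq_mul]
    ring
  rw [h2] at h1
  have h3 := mul_le_mul_of_nonneg_left h1 (by positivity : 0 ≤ (2 * σ)⁻¹)
  have h4 : (2 * σ)⁻¹ * ((2 * σ) * (σ * (N (x + σ) - N (x - σ)))) = σ * (N (x + σ) - N (x - σ)) := by
    field_simp
  linarith

theorem tl_151_W_zero {σ : ℝ} (hσ : 0 < σ) {N : ℝ → ℝ} (hN : Monotone N) {x : ℝ}
    (h : N (x - σ) = N (x + σ)) : tlW σ N x = 0 := by
  have h1 := tl_151_W_nonneg hσ hN x
  have h2 := tl_151_W_le hσ hN x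
  rw [h] at h2
  simp at h2
  linarith

theorem tl_151_W_continuous {σ : ℝ} {N : ℝ → ℝ} (hN : ∀ a b, IntervalIntegrable N volume a b) :
    Continuous (tlW σ N) := by
  have h1 := tl_151_prim_continuous hN
  have h2 := tl_151_avg_continuous (σ := σ) (N := tlPrim N) fun a b => h1.intervalIntegrable a b
  unfold tlW
  fun_prop

/-- the total defect -/
theorem tl_151_W_integral_le {σ : ℝ} (hσ : 0 < σ) {N : ℝ → ℝ} (hN : Monotone N) {a b : ℝ}
    (hab : a ≤ b) :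
    ∫ s in a..b, tlW σ N s ≤ 2 * σ ^ 2 * (tlAvg σ N b - tlAvg σ N a) := by
  have hI : ∀ a b, IntervalIntegrable N volume a b := fun a b => hN.intervalIntegrable
  have h1 : ∫ s in a..b, tlW σ N s ≤ ∫ s in a..b, σ * (N (s + σ) - N (s - σ)) :=
    intervalIntegral.integral_mono_on hab ((tl_151_W_continuous hI).intervalIntegrable _ _)
      (((tl_151_ii_add hI σ a b).sub (tl_151_ii_sub hI σ a b)).const_mul σ)
      fun s _ => tl_151_W_le hσ hN s
  rw [intervalIntegral.integral_const_mul] at h1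
  rw [tl_151_avg_sub hI]
  have h2 : 2 * σ ^ 2 * ((2 * σ)⁻¹ * ∫ t in a..b, (N (t + σ) - N (t - σ)))
      = σ * ∫ t in a..b, (N (t + σ) - N (t - σ)) := by
    field_simp
  rw [h2]
  exact h1

/-- triangle Fubini: first moment of a mean zero function through its upper tails -/
theorem tl_151_first_moment {a b : ℝ} (hab : a ≤ b) {D : ℝ → ℝ}
    (hD : IntervalIntegrable D volume a b) (h0 : ∫ t in a..b, D t = 0) :
    ∫ t in a..b, t * D t = ∫ s in a..b, (∫ t in s..b, D t) := by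
  have hid : TlInv a b a b (fun t => t) (fun u => u) :=
    ⟨hab, fun _ _ _ _ h => h, rfl, rfl, fun _ h => h, fun _ _ => rfl, fun _ _ => rfl⟩
  have h1 := tl_151_layer hid hD
  have hsub : ∀ s ∈ Icc a b, IntervalIntegrable D volume a s ∧ IntervalIntegrable D volume s b := by
    intro s hs
    exact ⟨hD.mono_set (uIcc_subset_uIcc_left (by rw [uIcc_of_le hab]; exact hs)),
      hD.mono_set (uIcc_subset_uIcc_right (by rw [uIcc_of_le hab]; exact hs))⟩
  have e1 : ∫ u in a..b, (∫ t in a..u, D t) = - ∫ s in a..b, (∫ t in s..b, D t) := by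
    rw [← intervalIntegral.integral_neg]
    refine intervalIntegral.integral_congr fun u hu => ?_
    rw [uIcc_of_le hab] at hu
    have := intervalIntegral.integral_add_adjacent_intervals (hsub u hu).1 (hsub u hu).2
    linarith
  have htD : IntervalIntegrable (fun t => t * D t) volume a b :=
    hD.continuousOn_mul continuousOn_id
  have e2 : ∫ t in a..b, D t * (b - t) = b * (∫ t in a..b, D t) - ∫ t in a..b, t * D t := by
    rw [← intervalIntegral.integral_const_mul, ← intervalIntegral.integral_sub (hD.const_mul b) htD]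
    refine intervalIntegral.integral_congr fun t _ => ?_
    ring
  rw [e1, e2, h0] at h1
  linarith


/-- clamp to `[A,B]` -/
def tlCl (A B t : ℝ) : ℝ := max A (min t B)

/-- the distribution function of the part `ν` (law minus floor) of the old law carried by `[A,B]` -/
def tlNu (al k : ℝ → ℝ) (A B t : ℝ) : ℝ :=
  al (tlCl A B t) - al A - ∫ y in A..(tlCl A B t), k y

/-- the competitor: the fraction `θ` of `ν|[A,B]` is convolved with the uniform kernel of radius `σ` -/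
def tlComp (al k : ℝ → ℝ) (A B σ θ t : ℝ) : ℝ :=
  al t + θ * (tlAvg σ (tlNu al k A B) t - tlNu al k A B t)

theorem tl_151_eqns_cite3 : True := by
  have := @tlCl.eq_1
  have := @tlNu.eq_1
  have := @tlComp.eq_1
  trivial

theorem tl_151_cl_mem {A B : ℝ} (hAB : A ≤ B) (t : ℝ) : tlCl A B t ∈ Icc A B :=
  ⟨le_max_left _ _, max_le hAB (min_le_right _ _)⟩

theorem tl_151_cl_mono (A B : ℝ) : Monotone (tlCl A B) := fun _ _ h =>
  max_le_max le_rfl (min_le_min h le_rfl)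

theorem tl_151_cl_of_le {A B t : ℝ} (ht : t ≤ A) : tlCl A B t = A :=
  max_eq_left ((min_le_left _ _).trans ht)

theorem tl_151_cl_of_ge {A B t : ℝ} (hAB : A ≤ B) (ht : B ≤ t) : tlCl A B t = B := by
  unfold tlCl
  rw [min_eq_right ht, max_eq_right hAB]

theorem tl_151_cl_of_mem {A B t : ℝ} (ht : t ∈ Icc A B) : tlCl A B t = t := by
  unfold tlCl
  rw [min_eq_left ht.2, max_eq_right ht.1]

theorem tl_151_cl_sub_le (A B : ℝ) {s t : ℝ} (hst : s ≤ t) : tlCl A B t - tlCl A B s ≤ t - s := by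
  unfold tlCl
  simp only [max_def, min_def]
  split_ifs <;> linarith

section nu

variable {ρ0 ρ1 : ℝ} {al k : ℝ → ℝ} {A B : ℝ}

theorem tl_151_k_ii (hk : IntervalIntegrable k volume ρ0 ρ1) (hρ : ρ0 ≤ ρ1) {a b : ℝ}
    (ha : a ∈ Icc ρ0 ρ1) (hb : b ∈ Icc ρ0 ρ1) : IntervalIntegrable k volume a b :=
  hk.mono_set (by rw [uIcc_of_le hρ]; exact uIcc_subset_Icc ha hb)

theorem tl_151_nu_sub (hk : IntervalIntegrable k volume ρ0 ρ1) (hA : ρ0 ≤ A) (hAB : A ≤ B)
    (hB : B ≤ ρ1) (s t : ℝ) :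
    tlNu al k A B t - tlNu al k A B s
      = al (tlCl A B t) - al (tlCl A B s) - ∫ y in (tlCl A B s)..(tlCl A B t), k y := by
  have hρ : ρ0 ≤ ρ1 := hA.trans (hAB.trans hB)
  have hsub : ∀ x ∈ Icc A B, x ∈ Icc ρ0 ρ1 := fun x hx => ⟨hA.trans hx.1, hx.2.trans hB⟩
  have hAI : A ∈ Icc ρ0 ρ1 := hsub A (left_mem_Icc.2 hAB)
  have := intervalIntegral.integral_interval_sub_left
    (tl_151_k_ii hk hρ hAI (hsub _ (tl_151_cl_mem hAB t)))
    (tl_151_k_ii hk hρ hAI (hsub _ (tl_151_cl_mem hAB s)))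
  unfold tlNu
  linarith

theorem tl_151_nu_mono (hk : IntervalIntegrable k volume ρ0 ρ1) (hA : ρ0 ≤ A) (hAB : A ≤ B)
    (hB : B ≤ ρ1)
    (lo : ∀ r1 r2 : ℝ, ρ0 ≤ r1 → r1 ≤ r2 → r2 ≤ ρ1 → ∫ t in r1..r2, k t ≤ al r2 - al r1) :
    Monotone (tlNu al k A B) := by
  intro s t hst
  have h1 := tl_151_nu_sub (al := al) hk hA hAB hB s t
  have h2 := lo _ _ (hA.trans (tl_151_cl_mem hAB s).1) (tl_151_cl_mono A B hst)
    ((tl_151_cl_mem hAB t).2.trans hB)
  linarith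

theorem tl_151_nu_of_le {t : ℝ} (ht : t ≤ A) : tlNu al k A B t = 0 := by
  unfold tlNu
  rw [tl_151_cl_of_le ht]
  simp

theorem tl_151_nu_of_ge (hAB : A ≤ B) {t : ℝ} (ht : B ≤ t) :
    tlNu al k A B t = tlNu al k A B B := by
  unfold tlNu
  rw [tl_151_cl_of_ge hAB ht, tl_151_cl_of_ge hAB le_rfl]

theorem tl_151_nu_lip (hk : IntervalIntegrable k volume ρ0 ρ1) (hA : ρ0 ≤ A) (hAB : A ≤ B)
    (hB : B ≤ ρ1) (hk0 : ∀ t ∈ Icc ρ0 ρ1, 0 ≤ k t) {M : ℝ} (hM : 0 ≤ M)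
    (hi : ∀ r1 r2 : ℝ, ρ0 ≤ r1 → r1 ≤ r2 → r2 ≤ ρ1 → al r2 - al r1 ≤ M * (r2 - r1))
    (s t : ℝ) (hst : s ≤ t) : tlNu al k A B t - tlNu al k A B s ≤ M * (t - s) := by
  have h1 := tl_151_nu_sub (al := al) hk hA hAB hB s t
  have hc := tl_151_cl_mono A B hst
  have h2 := hi _ _ (hA.trans (tl_151_cl_mem hAB s).1) hc ((tl_151_cl_mem hAB t).2.trans hB)
  have h3 : 0 ≤ ∫ y in (tlCl A B s)..(tlCl A B t), k y :=
    intervalIntegral.integral_nonneg hc fun y hy =>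
      hk0 y ⟨(hA.trans (tl_151_cl_mem hAB s).1).trans hy.1, hy.2.trans ((tl_151_cl_mem hAB t).2.trans hB)⟩
  have h4 := mul_le_mul_of_nonneg_left (tl_151_cl_sub_le A B hst) hM
  linarith

/-- the increments of `ν` are at most those of the law minus the floor -/
theorem tl_151_nu_le_inc (hk : IntervalIntegrable k volume ρ0 ρ1) (hA : ρ0 ≤ A) (hAB : A ≤ B)
    (hB : B ≤ ρ1)
    (lo : ∀ r1 r2 : ℝ, ρ0 ≤ r1 → r1 ≤ r2 → r2 ≤ ρ1 → ∫ t in r1..r2, k t ≤ al r2 - al r1)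
    {r1 r2 : ℝ} (h0 : ρ0 ≤ r1) (h12 : r1 ≤ r2) (h1 : r2 ≤ ρ1) :
    tlNu al k A B r2 - tlNu al k A B r1 ≤ al r2 - al r1 - ∫ t in r1..r2, k t := by
  have hρ : ρ0 ≤ ρ1 := hA.trans (hAB.trans hB)
  have base := lo r1 r2 h0 h12 h1
  rcases le_total r2 A with hc1 | hc1
  · rw [tl_151_nu_of_le hc1, tl_151_nu_of_le (h12.trans hc1)]
    linarith
  rcases le_total B r1 with hc2 | hc2
  · rw [tl_151_nu_of_ge hAB hc2, tl_151_nu_of_ge hAB (hc2.trans h12)]
    linarith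
  have e := tl_151_nu_sub (al := al) hk hA hAB hB r1 r2
  set c1 := tlCl A B r1 with hc1d
  set c2 := tlCl A B r2 with hc2d
  have a1 : r1 ≤ c1 := by
    rw [hc1d]; unfold tlCl; rw [min_eq_left hc2]; exact le_max_right _ _
  have a2 : c2 ≤ r2 := by
    rw [hc2d]; unfold tlCl; exact max_le hc1 (min_le_left _ _)
  have a3 : c1 ≤ c2 := tl_151_cl_mono A B h12
  have m1 : r1 ∈ Icc ρ0 ρ1 := ⟨h0, h12.trans h1⟩
  have m2 : r2 ∈ Icc ρ0 ρ1 := ⟨h0.trans h12, h1⟩
  have m3 : c1 ∈ Icc ρ0 ρ1 := ⟨h0.trans a1, (a3.trans a2).trans h1⟩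
  have m4 : c2 ∈ Icc ρ0 ρ1 := ⟨(h0.trans a1).trans a3, a2.trans h1⟩
  have l1 := lo r1 c1 h0 a1 m3.2
  have l2 := lo c2 r2 m4.1 a2 h1
  have s1 := intervalIntegral.integral_add_adjacent_intervals (tl_151_k_ii hk hρ m1 m3)
    (tl_151_k_ii hk hρ m3 m4)
  have s2 := intervalIntegral.integral_add_adjacent_intervals (tl_151_k_ii hk hρ m1 m4)
    (tl_151_k_ii hk hρ m4 m2)
  linarith

end nu

/-- a continuous strictly increasing function on an interval is half of an inverse pair -/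
theorem tl_151_exists_inv {ρ0 ρ1 : ℝ} (hρ : ρ0 ≤ ρ1) {al : ℝ → ℝ}
    (hs : StrictMonoOn al (Icc ρ0 ρ1)) (hc : ContinuousOn al (Icc ρ0 ρ1)) :
    ∃ r : ℝ → ℝ, TlInv ρ0 ρ1 (al ρ0) (al ρ1) al r := by
  have hsurj : ∀ u ∈ Icc (al ρ0) (al ρ1), ∃ t ∈ Icc ρ0 ρ1, al t = u := fun u hu =>
    intermediate_value_Icc hρ hc hu
  refine ⟨Function.invFunOn al (Icc ρ0 ρ1), hρ, hs.monotoneOn, rfl, rfl, ?_, ?_, ?_⟩
  · intro u hu
    exact (Function.invFunOn_pos (hsurj u hu)).1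
  · intro u hu
    exact (Function.invFunOn_pos (hsurj u hu)).2
  · intro t ht
    have h1 := Function.invFunOn_pos (f := al) (s := Icc ρ0 ρ1) (b := al t) ⟨t, ht, rfl⟩
    exact hs.injOn h1.1 ht h1.2

theorem TlInv.r_sq_ii {ρ0 ρ1 u0 u1 : ℝ} {al r : ℝ → ℝ} (h : TlInv ρ0 ρ1 u0 u1 al r) :
    IntervalIntegrable (fun u => r u ^ 2) volume u0 u1 := by
  have hm : MonotoneOn (fun u => (r u - ρ0) ^ 2) (Icc u0 u1) := fun u hu v hv huv =>
    pow_le_pow_left₀ (by linarith [(h.r_mem u hu).1]) (by linarith [h.r_mono hu hv huv]) 2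
  have h1 : IntervalIntegrable (fun u => (r u - ρ0) ^ 2) volume u0 u1 :=
    (hm.mono (by rw [uIcc_of_le h.hu])).intervalIntegrable
  have h2 := h.r_intervalIntegrable (left_mem_Icc.2 h.hu) (right_mem_Icc.2 h.hu)
  have h3 := (h1.add (h2.const_mul (2 * ρ0))).sub (intervalIntegrable_const (c := ρ0 ^ 2))
  have e : (fun u => r u ^ 2) = fun u => (r u - ρ0) ^ 2 + 2 * ρ0 * r u - ρ0 ^ 2 := by
    funext u; ring
  rw [e]
  exact h3

/-- the second moment of the quantile through the inverse quantile -/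
theorem tl_151_second_moment {ρ0 ρ1 u0 u1 : ℝ} {al r : ℝ → ℝ} (h : TlInv ρ0 ρ1 u0 u1 al r) :
    ∫ u in u0..u1, r u ^ 2 = (u1 - u0) * ρ0 ^ 2 + ∫ t in ρ0..ρ1, 2 * t * (u1 - al t) := by
  have hw : IntervalIntegrable (fun t : ℝ => 2 * t) volume ρ0 ρ1 :=
    (continuous_const.mul continuous_id).intervalIntegrable _ _
  have h1 := tl_151_layer h hw
  have e1 : ∫ u in u0..u1, (∫ t in ρ0..(r u), 2 * t) = ∫ u in u0..u1, (r u ^ 2 - ρ0 ^ 2) := by
    refine intervalIntegral.integral_congr fun u _ => ?_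
    rw [intervalIntegral.integral_const_mul, integral_id]
    ring
  rw [e1, intervalIntegral.integral_sub h.r_sq_ii intervalIntegrable_const,
    intervalIntegral.integral_const, smul_eq_mul] at h1
  linarith


/-- the hypotheses of the convolution competitor -/
structure TlCH (ρ0 ρ1 u0 u1 : ℝ) (al r k : ℝ → ℝ) (A B σ θ M c0 : ℝ) : Prop where
  inv : TlInv ρ0 ρ1 u0 u1 al r
  hσ : 0 < σ
  hA : ρ0 ≤ A - σ
  hAB : A + σ ≤ B - σ
  hB : B + σ ≤ ρ1
  hθ0 : 0 ≤ θ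
  hθ1 : θ ≤ 1
  hc0 : 0 ≤ c0
  hk : IntervalIntegrable k volume ρ0 ρ1
  hk0 : ∀ t ∈ Icc ρ0 ρ1, 0 < k t
  lo : ∀ r1 r2 : ℝ, ρ0 ≤ r1 → r1 ≤ r2 → r2 ≤ ρ1 → ∫ t in r1..r2, k t ≤ al r2 - al r1
  hi : ∀ r1 r2 : ℝ, ρ0 ≤ r1 → r1 ≤ r2 → r2 ≤ ρ1 → al r2 - al r1 ≤ M * (r2 - r1)
  hmass : ∀ t ∈ Icc (A + σ) (B - σ),
    c0 * (2 * σ) ≤ al (t + σ) - al (t - σ) - ∫ y in (t - σ)..(t + σ), k y

namespace TlCH

variable {ρ0 ρ1 u0 u1 : ℝ} {al r k : ℝ → ℝ} {A B σ θ M c0 : ℝ}

theorem hA' (H : TlCH ρ0 ρ1 u0 u1 al r k A B σ θ M c0) : ρ0 ≤ A := by linarith [H.hA, H.hσ]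
theorem hAB' (H : TlCH ρ0 ρ1 u0 u1 al r k A B σ θ M c0) : A ≤ B := by linarith [H.hAB, H.hσ]
theorem hB' (H : TlCH ρ0 ρ1 u0 u1 al r k A B σ θ M c0) : B ≤ ρ1 := by linarith [H.hB, H.hσ]

theorem hM (H : TlCH ρ0 ρ1 u0 u1 al r k A B σ θ M c0) : 0 ≤ M := by
  have h1 := H.hi ρ0 ρ1 le_rfl H.inv.hρ le_rfl
  have h2 := H.inv.mono (left_mem_Icc.2 H.inv.hρ) (right_mem_Icc.2 H.inv.hρ) H.inv.hρ
  have h3 : 0 < ρ1 - ρ0 := by linarith [H.hA, H.hAB, H.hB, H.hσ]
  by_contra hcon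
  have : M * (ρ1 - ρ0) < 0 := mul_neg_of_neg_of_pos (not_le.1 hcon) h3
  linarith

theorem nu_mono (H : TlCH ρ0 ρ1 u0 u1 al r k A B σ θ M c0) : Monotone (tlNu al k A B) :=
  tl_151_nu_mono H.hk H.hA' H.hAB' H.hB' H.lo

theorem nu_ii (H : TlCH ρ0 ρ1 u0 u1 al r k A B σ θ M c0) (a b : ℝ) :
    IntervalIntegrable (tlNu al k A B) volume a b := H.nu_mono.intervalIntegrable

theorem comp_sub (al k : ℝ → ℝ) (A B σ θ r1 r2 : ℝ) :
    tlComp al k A B σ θ r2 - tlComp al k A B σ θ r1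
      = (al r2 - al r1) - θ * (tlNu al k A B r2 - tlNu al k A B r1)
        + θ * (tlAvg σ (tlNu al k A B) r2 - tlAvg σ (tlNu al k A B) r1) := by
  unfold tlComp
  ring

/-- the window mass of `ν` -/
theorem window (H : TlCH ρ0 ρ1 u0 u1 al r k A B σ θ M c0) (t : ℝ) :
    c0 * (Icc (A + σ) (B - σ)).indicator (fun _ => (1 : ℝ)) t
      ≤ (2 * σ)⁻¹ * (tlNu al k A B (t + σ) - tlNu al k A B (t - σ)) := by
  have hσ := H.hσ
  by_cases ht : t ∈ Icc (A + σ) (B - σ)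
  · rw [indicator_of_mem ht, mul_one]
    have h1 := tl_151_nu_sub (al := al) H.hk H.hA' H.hAB' H.hB' (t - σ) (t + σ)
    rw [tl_151_cl_of_mem (⟨by linarith [ht.1], by linarith [ht.2]⟩ : t + σ ∈ Icc A B),
      tl_151_cl_of_mem (⟨by linarith [ht.1], by linarith [ht.2]⟩ : t - σ ∈ Icc A B)] at h1
    rw [h1]
    have h2 := H.hmass t ht
    rw [le_inv_mul_iff₀ (by positivity)]
    linarith
  · rw [indicator_of_notMem ht, mul_zero]
    have := H.nu_mono (by linarith : t - σ ≤ t + σ)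
    have h3 : 0 ≤ tlNu al k A B (t + σ) - tlNu al k A B (t - σ) := by linarith
    positivity

theorem ind_ii (a b c d : ℝ) :
    IntervalIntegrable ((Icc c d).indicator (fun _ => (1 : ℝ))) volume a b := by
  rw [intervalIntegrable_iff]
  exact (integrableOn_const (by simp)).indicator measurableSet_Icc

theorem avg_inc_lower (H : TlCH ρ0 ρ1 u0 u1 al r k A B σ θ M c0) {r1 r2 : ℝ} (h12 : r1 ≤ r2) :
    ∫ t in r1..r2, c0 * (Icc (A + σ) (B - σ)).indicator (fun _ => (1 : ℝ)) t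
      ≤ tlAvg σ (tlNu al k A B) r2 - tlAvg σ (tlNu al k A B) r1 := by
  rw [tl_151_avg_sub H.nu_ii, ← intervalIntegral.integral_const_mul]
  exact intervalIntegral.integral_mono_on h12 ((ind_ii _ _ _ _).const_mul c0)
    (((tl_151_ii_add H.nu_ii σ r1 r2).sub (tl_151_ii_sub H.nu_ii σ r1 r2)).const_mul _)
    fun t _ => H.window t

theorem floor' (H : TlCH ρ0 ρ1 u0 u1 al r k A B σ θ M c0) {r1 r2 : ℝ} (h0 : ρ0 ≤ r1)
    (h12 : r1 ≤ r2) (h1 : r2 ≤ ρ1) :
    ∫ t in r1..r2, (k t + θ * c0 * (Icc (A + σ) (B - σ)).indicator (fun _ => (1 : ℝ)) t)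
      ≤ tlComp al k A B σ θ r2 - tlComp al k A B σ θ r1 := by
  have hkI := tl_151_k_ii H.hk H.inv.hρ (⟨h0, h12.trans h1⟩ : r1 ∈ Icc ρ0 ρ1)
    (⟨h0.trans h12, h1⟩ : r2 ∈ Icc ρ0 ρ1)
  rw [intervalIntegral.integral_add hkI ((ind_ii _ _ _ _).const_mul _), comp_sub]
  have e1 : ∫ t in r1..r2, θ * c0 * (Icc (A + σ) (B - σ)).indicator (fun _ => (1 : ℝ)) t
      = θ * ∫ t in r1..r2, c0 * (Icc (A + σ) (B - σ)).indicator (fun _ => (1 : ℝ)) t := by
    rw [← intervalIntegral.integral_const_mul]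
    refine intervalIntegral.integral_congr fun t _ => ?_
    ring
  rw [e1]
  have h2 := mul_le_mul_of_nonneg_left (H.avg_inc_lower h12) H.hθ0
  have h3 := tl_151_nu_le_inc H.hk H.hA' H.hAB' H.hB' H.lo h0 h12 h1
  have h4 : 0 ≤ tlNu al k A B r2 - tlNu al k A B r1 := sub_nonneg.2 (H.nu_mono h12)
  have h5 : θ * (tlNu al k A B r2 - tlNu al k A B r1) ≤ tlNu al k A B r2 - tlNu al k A B r1 := by
    nlinarith [H.hθ1]
  linarith

theorem floor_old (H : TlCH ρ0 ρ1 u0 u1 al r k A B σ θ M c0) {r1 r2 : ℝ} (h0 : ρ0 ≤ r1)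
    (h12 : r1 ≤ r2) (h1 : r2 ≤ ρ1) :
    ∫ t in r1..r2, k t ≤ tlComp al k A B σ θ r2 - tlComp al k A B σ θ r1 := by
  rw [comp_sub]
  have h2 : 0 ≤ θ * (tlAvg σ (tlNu al k A B) r2 - tlAvg σ (tlNu al k A B) r1) :=
    mul_nonneg H.hθ0 (sub_nonneg.2 (tl_151_avg_mono H.hσ H.nu_mono h12))
  have h3 := tl_151_nu_le_inc H.hk H.hA' H.hAB' H.hB' H.lo h0 h12 h1
  have h4 : 0 ≤ tlNu al k A B r2 - tlNu al k A B r1 := sub_nonneg.2 (H.nu_mono h12)
  have h5 : θ * (tlNu al k A B r2 - tlNu al k A B r1) ≤ tlNu al k A B r2 - tlNu al k A B r1 := by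
    nlinarith [H.hθ1]
  linarith

theorem cap' (H : TlCH ρ0 ρ1 u0 u1 al r k A B σ θ M c0) {r1 r2 : ℝ} (h0 : ρ0 ≤ r1)
    (h12 : r1 ≤ r2) (h1 : r2 ≤ ρ1) :
    tlComp al k A B σ θ r2 - tlComp al k A B σ θ r1 ≤ (1 + θ) * M * (r2 - r1) := by
  rw [comp_sub]
  have h2 := H.hi r1 r2 h0 h12 h1
  have h3 : 0 ≤ θ * (tlNu al k A B r2 - tlNu al k A B r1) :=
    mul_nonneg H.hθ0 (sub_nonneg.2 (H.nu_mono h12))
  have h4 := tl_151_avg_lip H.hσ H.nu_ii
    (tl_151_nu_lip H.hk H.hA' H.hAB' H.hB' (fun t ht => (H.hk0 t ht).le) H.hM H.hi) h12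
  have h5 := mul_le_mul_of_nonneg_left h4 H.hθ0
  nlinarith

theorem comp_eq (H : TlCH ρ0 ρ1 u0 u1 al r k A B σ θ M c0) {t : ℝ}
    (ht : t ≤ A - σ ∨ B + σ ≤ t) : tlComp al k A B σ θ t = al t := by
  unfold tlComp
  rcases ht with ht | ht
  · rw [tl_151_avg_const H.hσ (c := 0) fun y hy => tl_151_nu_of_le (by linarith [hy.2]),
      tl_151_nu_of_le (by linarith [H.hσ])]
    simp
  · rw [tl_151_avg_const H.hσ (c := tlNu al k A B B)
        fun y hy => tl_151_nu_of_ge H.hAB' (by linarith [hy.1]),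
      tl_151_nu_of_ge (t := t) H.hAB' (by linarith [H.hσ])]
    simp

theorem strictMono (H : TlCH ρ0 ρ1 u0 u1 al r k A B σ θ M c0) :
    StrictMonoOn (tlComp al k A B σ θ) (Icc ρ0 ρ1) := by
  intro x hx y hy hxy
  have h1 := H.floor_old hx.1 hxy.le hy.2
  have h2 : 0 < ∫ t in x..y, k t :=
    intervalIntegral.intervalIntegral_pos_of_pos_on (tl_151_k_ii H.hk H.inv.hρ hx hy)
      (fun t ht => H.hk0 t ⟨hx.1.trans ht.1.le, ht.2.le.trans hy.2⟩) hxy
  linarith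

theorem continuousOn (H : TlCH ρ0 ρ1 u0 u1 al r k A B σ θ M c0) :
    ContinuousOn (tlComp al k A B σ θ) (Icc ρ0 ρ1) := by
  have hK : 0 ≤ (1 + θ) * M := mul_nonneg (by linarith [H.hθ0]) H.hM
  have hL : LipschitzOnWith ((1 + θ) * M).toNNReal (tlComp al k A B σ θ) (Icc ρ0 ρ1) := by
    refine LipschitzOnWith.of_dist_le_mul fun x hx y hy => ?_
    rw [Real.coe_toNNReal _ hK, Real.dist_eq, Real.dist_eq]
    rcases le_total x y with hxy | hxy
    · have h1 := H.cap' hx.1 hxy hy.2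
      have h2 := H.strictMono.monotoneOn hx hy hxy
      rw [abs_sub_comm, abs_of_nonneg (by linarith), abs_sub_comm, abs_of_nonneg (by linarith)]
      exact h1
    · have h1 := H.cap' hy.1 hxy hx.2
      have h2 := H.strictMono.monotoneOn hy hx hxy
      rw [abs_of_nonneg (by linarith), abs_of_nonneg (by linarith)]
      exact h1
  exact hL.continuousOn

theorem W_right (H : TlCH ρ0 ρ1 u0 u1 al r k A B σ θ M c0) : tlW σ (tlNu al k A B) ρ1 = 0 := by
  apply tl_151_W_zero H.hσ H.nu_mono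
  rw [tl_151_nu_of_ge (t := ρ1 - σ) H.hAB' (by linarith [H.hB]),
    tl_151_nu_of_ge (t := ρ1 + σ) H.hAB' (by linarith [H.hB, H.hσ])]

theorem W_left (H : TlCH ρ0 ρ1 u0 u1 al r k A B σ θ M c0) : tlW σ (tlNu al k A B) ρ0 = 0 := by
  apply tl_151_W_zero H.hσ H.nu_mono
  rw [tl_151_nu_of_le (t := ρ0 - σ) (by linarith [H.hA, H.hσ]),
    tl_151_nu_of_le (t := ρ0 + σ) (by linarith [H.hA])]

theorem diff_ii (H : TlCH ρ0 ρ1 u0 u1 al r k A B σ θ M c0) (a b : ℝ) :
    IntervalIntegrable (fun t => tlNu al k A B t - tlAvg σ (tlNu al k A B) t) volume a b :=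
  (H.nu_ii a b).sub ((tl_151_avg_continuous H.nu_ii).intervalIntegrable a b)

/-- upper tails of `al - al'` -/
theorem tail_eq (H : TlCH ρ0 ρ1 u0 u1 al r k A B σ θ M c0) (s : ℝ) :
    ∫ t in s..ρ1, θ * (tlNu al k A B t - tlAvg σ (tlNu al k A B) t)
      = θ * tlW σ (tlNu al k A B) s := by
  rw [intervalIntegral.integral_const_mul, tl_151_integral_sub_avg H.nu_ii, H.W_right, sub_zero]

theorem comp_eq_sub (al k : ℝ → ℝ) (A B σ θ t : ℝ) :
    tlComp al k A B σ θ t = al t - θ * (tlNu al k A B t - tlAvg σ (tlNu al k A B) t) := by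
  unfold tlComp
  ring

theorem integral_comp (H : TlCH ρ0 ρ1 u0 u1 al r k A B σ θ M c0) {s : ℝ} (hs : s ∈ Icc ρ0 ρ1) :
    ∫ t in s..ρ1, tlComp al k A B σ θ t
      = (∫ t in s..ρ1, al t) - θ * tlW σ (tlNu al k A B) s := by
  simp only [comp_eq_sub]
  rw [intervalIntegral.integral_sub
    (H.inv.al_intervalIntegrable hs (right_mem_Icc.2 H.inv.hρ)) ((H.diff_ii _ _).const_mul θ),
    H.tail_eq]

end TlCH


namespace TlCH

variable {ρ0 ρ1 u0 u1 : ℝ} {al r k : ℝ → ℝ} {A B σ θ M c0 : ℝ}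

theorem exists_inv (H : TlCH ρ0 ρ1 u0 u1 al r k A B σ θ M c0) :
    ∃ r' : ℝ → ℝ, TlInv ρ0 ρ1 u0 u1 (tlComp al k A B σ θ) r' := by
  obtain ⟨r', hr'⟩ := tl_151_exists_inv H.inv.hρ H.strictMono H.continuousOn
  rw [H.comp_eq (Or.inl H.hA), H.comp_eq (Or.inr H.hB), H.inv.al0, H.inv.al1] at hr'
  exact ⟨r', hr'⟩

theorem hcx (H : TlCH ρ0 ρ1 u0 u1 al r k A B σ θ M c0) {s : ℝ} (hs : s ∈ Icc ρ0 ρ1) :
    ∫ t in s..ρ1, tlComp al k A B σ θ t ≤ ∫ t in s..ρ1, al t := by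
  rw [H.integral_comp hs]
  have := mul_nonneg H.hθ0 (tl_151_W_nonneg H.hσ H.nu_mono s)
  linarith

theorem hmean (H : TlCH ρ0 ρ1 u0 u1 al r k A B σ θ M c0) :
    ∫ t in ρ0..ρ1, tlComp al k A B σ θ t = ∫ t in ρ0..ρ1, al t := by
  rw [H.integral_comp (left_mem_Icc.2 H.inv.hρ), H.W_left]
  simp

theorem nuB_le (H : TlCH ρ0 ρ1 u0 u1 al r k A B σ θ M c0) : tlNu al k A B B ≤ al B - al A := by
  unfold tlNu
  rw [tl_151_cl_of_ge H.hAB' le_rfl]
  have : 0 ≤ ∫ y in A..B, k y := intervalIntegral.integral_nonneg H.hAB' fun y hy =>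
    (H.hk0 y ⟨H.hA'.trans hy.1, hy.2.trans H.hB'⟩).le
  linarith

/-- the price in the second moment -/
theorem penalty (H : TlCH ρ0 ρ1 u0 u1 al r k A B σ θ M c0) {r' : ℝ → ℝ}
    (h' : TlInv ρ0 ρ1 u0 u1 (tlComp al k A B σ θ) r') :
    ∫ u in u0..u1, (r' u ^ 2 - r u ^ 2) ≤ 4 * θ * σ ^ 2 * (al B - al A) := by
  set N := tlNu al k A B with hN
  have h0I : ρ0 ∈ Icc ρ0 ρ1 := left_mem_Icc.2 H.inv.hρ
  have h1I : ρ1 ∈ Icc ρ0 ρ1 := right_mem_Icc.2 H.inv.hρ
  rw [intervalIntegral.integral_sub h'.r_sq_ii H.inv.r_sq_ii, tl_151_second_moment h',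
    tl_151_second_moment H.inv]
  set D : ℝ → ℝ := fun t => θ * (N t - tlAvg σ N t) with hD
  have hDi : IntervalIntegrable D volume ρ0 ρ1 := (H.diff_ii _ _).const_mul θ
  have hD0 : ∫ t in ρ0..ρ1, D t = 0 := by
    rw [hD, H.tail_eq, H.W_left, mul_zero]
  have i1 : IntervalIntegrable (fun t => 2 * t * (u1 - tlComp al k A B σ θ t)) volume ρ0 ρ1 :=
    (intervalIntegrable_const.sub (h'.al_intervalIntegrable h0I h1I)).continuousOn_mul
      (continuous_const.mul continuous_id).continuousOn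
  have i2 : IntervalIntegrable (fun t => 2 * t * (u1 - al t)) volume ρ0 ρ1 :=
    (intervalIntegrable_const.sub (H.inv.al_intervalIntegrable h0I h1I)).continuousOn_mul
      (continuous_const.mul continuous_id).continuousOn
  have e1 : (∫ t in ρ0..ρ1, 2 * t * (u1 - tlComp al k A B σ θ t))
      - ∫ t in ρ0..ρ1, 2 * t * (u1 - al t) = 2 * ∫ t in ρ0..ρ1, t * D t := by
    rw [← intervalIntegral.integral_sub i1 i2, ← intervalIntegral.integral_const_mul]
    refine intervalIntegral.integral_congr fun t _ => ?_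
    simp only [comp_eq_sub, hD]
    ring
  have e2 := tl_151_first_moment H.inv.hρ hDi hD0
  have e3 : ∫ s in ρ0..ρ1, (∫ t in s..ρ1, D t) = θ * ∫ s in ρ0..ρ1, tlW σ N s := by
    rw [← intervalIntegral.integral_const_mul]
    refine intervalIntegral.integral_congr fun s _ => ?_
    exact H.tail_eq s
  have e4 := tl_151_W_integral_le H.hσ H.nu_mono H.inv.hρ
  have a1 : tlAvg σ N ρ1 = N B :=
    tl_151_avg_const H.hσ fun y hy => tl_151_nu_of_ge H.hAB' (by linarith [hy.1, H.hB])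
  have a0 : tlAvg σ N ρ0 = 0 :=
    tl_151_avg_const H.hσ fun y hy => tl_151_nu_of_le (by linarith [hy.2, H.hA])
  rw [a1, a0, sub_zero] at e4
  have e5 := H.nuB_le
  have e6 : 2 * σ ^ 2 * N B ≤ 2 * σ ^ 2 * (al B - al A) :=
    mul_le_mul_of_nonneg_left e5 (by positivity)
  have e7 := mul_le_mul_of_nonneg_left (e4.trans e6) H.hθ0
  have : (u1 - u0) * ρ0 ^ 2 + (∫ t in ρ0..ρ1, 2 * t * (u1 - tlComp al k A B σ θ t))
      - ((u1 - u0) * ρ0 ^ 2 + ∫ t in ρ0..ρ1, 2 * t * (u1 - al t))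
      = 2 * (θ * ∫ s in ρ0..ρ1, tlW σ N s) := by
    rw [← e3, ← e2, ← e1]; ring
  rw [this]
  linarith

theorem r_eq (H : TlCH ρ0 ρ1 u0 u1 al r k A B σ θ M c0) {r' : ℝ → ℝ}
    (h' : TlInv ρ0 ρ1 u0 u1 (tlComp al k A B σ θ) r') {u : ℝ} (hu : u ∈ Icc u0 u1)
    (hr : r u ≤ A - σ ∨ B + σ ≤ r u) : r' u = r u := by
  have h1 := h'.r_al (r u) (H.inv.r_mem u hu)
  rwa [H.comp_eq hr, H.inv.al_r u hu] at h1

theorem r_mem_band (H : TlCH ρ0 ρ1 u0 u1 al r k A B σ θ M c0) {r' : ℝ → ℝ}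
    (h' : TlInv ρ0 ρ1 u0 u1 (tlComp al k A B σ θ) r') {u : ℝ} (hu : u ∈ Icc u0 u1)
    (hr : r u ∈ Icc (A - σ) (B + σ)) : r' u ∈ Icc (A - σ) (B + σ) := by
  have hl : A - σ ∈ Icc ρ0 ρ1 := ⟨H.hA, by linarith [H.hAB, H.hB, H.hσ]⟩
  have hrr : B + σ ∈ Icc ρ0 ρ1 := ⟨by linarith [H.hA, H.hAB, H.hσ], H.hB⟩
  have hru := H.inv.r_mem u hu
  constructor
  · -- `al' (A - σ) = al (A - σ) ≤ al (r u) = u`
    have h1 : al (A - σ) ≤ u := by
      have := H.inv.mono hl hru hr.1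
      rwa [H.inv.al_r u hu] at this
    have h2 := h'.r_mono (h'.al_mem hl) hu (by rw [H.comp_eq (Or.inl le_rfl)]; exact h1)
    rwa [h'.r_al _ hl] at h2
  · have h1 : u ≤ al (B + σ) := by
      have := H.inv.mono hru hrr hr.2
      rwa [H.inv.al_r u hu] at this
    have h2 := h'.r_mono hu (h'.al_mem hrr) (by rw [H.comp_eq (Or.inr le_rfl)]; exact h1)
    rwa [h'.r_al _ hrr] at h2

end TlCH

/-- **THE CONVOLUTION COMPETITOR** (LL07, proof of Lemma `bud:envelope`, first two paragraphs; vocabulary free).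
Old inverse pair `(al, r)` with integrated floor `k > 0` and constant cap `M`; the fraction `θ` of `ν = law - k dr` on `[A,B]` is convolved with
the uniform kernel of radius `σ`; every window `[t-σ,t+σ] ⊆ [A,B]` carries `ν`-mass `≥ 2 σ c0`.  Then `tlComp al k A B σ θ` is the inverse quantile of a
pair with floor `k + θ c0 1_[A+σ,B-σ]`, cap `(1+θ) M`, unchanged off `(A-σ,B+σ)`; it dominates the old law in convex order, hence
`∫ S (r' - r) ≥ 0` for EVERY monotone `S`; the second moment grows by at most `4 θ σ² (al B - al A)`. -/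
theorem tl_151_competitor {ρ0 ρ1 u0 u1 : ℝ} {al r k : ℝ → ℝ} (h : TlInv ρ0 ρ1 u0 u1 al r)
    {A B σ θ M c0 : ℝ} (hσ : 0 < σ) (hA : ρ0 ≤ A - σ) (hAB : A + σ ≤ B - σ) (hB : B + σ ≤ ρ1)
    (hθ0 : 0 ≤ θ) (hθ1 : θ ≤ 1) (hc0 : 0 ≤ c0)
    (hk : IntervalIntegrable k volume ρ0 ρ1) (hk0 : ∀ t ∈ Icc ρ0 ρ1, 0 < k t)
    (lo : ∀ r1 r2 : ℝ, ρ0 ≤ r1 → r1 ≤ r2 → r2 ≤ ρ1 → ∫ t in r1..r2, k t ≤ al r2 - al r1)
    (hi : ∀ r1 r2 : ℝ, ρ0 ≤ r1 → r1 ≤ r2 → r2 ≤ ρ1 → al r2 - al r1 ≤ M * (r2 - r1))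
    (hmass : ∀ t ∈ Icc (A + σ) (B - σ),
      c0 * (2 * σ) ≤ al (t + σ) - al (t - σ) - ∫ y in (t - σ)..(t + σ), k y) :
    ∃ r' : ℝ → ℝ, TlInv ρ0 ρ1 u0 u1 (tlComp al k A B σ θ) r' ∧
      (∀ r1 r2 : ℝ, ρ0 ≤ r1 → r1 ≤ r2 → r2 ≤ ρ1 →
        ∫ t in r1..r2, (k t + θ * c0 * (Icc (A + σ) (B - σ)).indicator (fun _ => (1 : ℝ)) t)
          ≤ tlComp al k A B σ θ r2 - tlComp al k A B σ θ r1) ∧
      (∀ r1 r2 : ℝ, ρ0 ≤ r1 → r1 ≤ r2 → r2 ≤ ρ1 →
        tlComp al k A B σ θ r2 - tlComp al k A B σ θ r1 ≤ (1 + θ) * M * (r2 - r1)) ∧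
      (∀ t, t ≤ A - σ ∨ B + σ ≤ t → tlComp al k A B σ θ t = al t) ∧
      (∀ u ∈ Icc u0 u1, (r u ≤ A - σ ∨ B + σ ≤ r u) → r' u = r u) ∧
      (∀ u ∈ Icc u0 u1, r u ∈ Icc (A - σ) (B + σ) → r' u ∈ Icc (A - σ) (B + σ)) ∧
      (∀ S : ℝ → ℝ, MonotoneOn S (Icc u0 u1) → 0 ≤ ∫ u in u0..u1, S u * (r' u - r u)) ∧
      (∫ u in u0..u1, (r' u ^ 2 - r u ^ 2)) ≤ 4 * θ * σ ^ 2 * (al B - al A) := by
  have H : TlCH ρ0 ρ1 u0 u1 al r k A B σ θ M c0 :=
    ⟨h, hσ, hA, hAB, hB, hθ0, hθ1, hc0, hk, hk0, lo, hi, hmass⟩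
  obtain ⟨r', h'⟩ := H.exists_inv
  refine ⟨r', h', fun r1 r2 a b c => H.floor' a b c, fun r1 r2 a b c => H.cap' a b c,
    fun t ht => H.comp_eq ht, fun u hu hr => H.r_eq h' hu hr, fun u hu hr => H.r_mem_band h' hu hr,
    fun S hS => tl_151_pair h h' (fun s hs => H.hcx hs) H.hmean hS, H.penalty h'⟩

end

end Claimed.Agent.R286
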