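import Mathlib

/-!
# Row 286 toolbox: Danskin / envelope lemmas (helper12)

Vocabulary free.  `F : ℝ → K → ℝ` is an objective depending on a real parameter `lam`,
`A : Set K` the admissible class (independent of `lam`), `V : ℝ → ℝ` the value function on the
parameter set `I`.

* `Tl12Value F A V I` : `V lam = min_{r ∈ A} F lam r` for `lam ∈ I` (lower bound + attained).
* `tl_12_value_of_compact` : existence (compact class, continuous objective).
* `tl_12_lipschitz`, `tl_12_lipschitz_of_deriv`, `tl_12_mono` : regularity of `V`.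
* `tl_12_deriv_eq` : at a differentiability point of `V`, ANY minimiser `r` with
  `F (·) r` differentiable has `∂F = V'`   (LL 07, "envelope common to all minimisers").
* `tl_12_deriv_le_of_frequently`, `tl_12_deriv_le_right`, `tl_12_deriv_ge_left`,
  `tl_12_deriv_le_liminf`, `tl_12_deriv_le_limsup` : one sided forms (PE Lemma 3.1: an old
  minimiser is a competitor for a positive increment of the strength).
* `tl_12_integrated`, `tl_12_integrated_log` : `V l1 - V l0 ≤ ∫ g`.
* `tl_12_ae_all_min` : ONE null set for all minimisers.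
* `tl_12_majorant` : the common measurable majorant (`Z` of LL (C13)).
* `tl_12_good_point` : a parameter outside a null set where a function is at most its average.
-/

open Set Filter Topology MeasureTheory
open scoped NNReal

namespace Claimed.Agent.R286

variable {K : Type*}

/-- `V` is the value function of `F` over the class `A`, for parameters in `I`. -/
structure Tl12Value (F : ℝ → K → ℝ) (A : Set K) (V : ℝ → ℝ) (I : Set ℝ) : Prop where
  le : ∀ lam ∈ I, ∀ r ∈ A, V lam ≤ F lam r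
  att : ∀ lam ∈ I, ∃ r ∈ A, F lam r = V lam

/-- The set of minimisers at `lam`. -/
def tl12Argmin (F : ℝ → K → ℝ) (A : Set K) (V : ℝ → ℝ) (lam : ℝ) : Set K :=
  {r | r ∈ A ∧ F lam r = V lam}

/-- The canonical value function. -/
noncomputable def tl12Val (F : ℝ → K → ℝ) (A : Set K) (lam : ℝ) : ℝ := sInf (F lam '' A)

theorem Tl12Value.mono {F : ℝ → K → ℝ} {A : Set K} {V : ℝ → ℝ} {I J : Set ℝ}
    (h : Tl12Value F A V I) (hJ : J ⊆ I) : Tl12Value F A V J :=
  ⟨fun lam hl => h.le lam (hJ hl), fun lam hl => h.att lam (hJ hl)⟩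

theorem Tl12Value.argmin_nonempty {F : ℝ → K → ℝ} {A : Set K} {V : ℝ → ℝ} {I : Set ℝ}
    (h : Tl12Value F A V I) {lam : ℝ} (hl : lam ∈ I) : (tl12Argmin F A V lam).Nonempty := by
  obtain ⟨r, hr, e⟩ := h.att lam hl
  exact ⟨r, hr, e⟩

/-- Two value functions agree. -/
theorem Tl12Value.unique {F : ℝ → K → ℝ} {A : Set K} {V W : ℝ → ℝ} {I : Set ℝ}
    (h : Tl12Value F A V I) (h' : Tl12Value F A W I) {lam : ℝ} (hl : lam ∈ I) :
    V lam = W lam := by
  obtain ⟨r, hr, e⟩ := h.att lam hl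
  obtain ⟨r', hr', e'⟩ := h'.att lam hl
  apply le_antisymm
  · rw [← e']; exact h.le lam hl r' hr'
  · rw [← e]; exact h'.le lam hl r hr

/-- Existence of the value function: compact class, continuous objective. -/
theorem tl_12_value_of_compact [TopologicalSpace K] {F : ℝ → K → ℝ} {A : Set K} {I : Set ℝ}
    (hA : IsCompact A) (hne : A.Nonempty) (hF : ∀ lam ∈ I, ContinuousOn (F lam) A) :
    Tl12Value F A (tl12Val F A) I := by
  have key : ∀ lam ∈ I, ∃ r ∈ A, IsMinOn (F lam) A r ∧ tl12Val F A lam = F lam r := by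
    intro lam hl
    obtain ⟨r, hr, hmin⟩ := hA.exists_isMinOn hne (hF lam hl)
    refine ⟨r, hr, hmin, ?_⟩
    have hlow : ∀ y ∈ F lam '' A, F lam r ≤ y := by
      rintro y ⟨s, hs, rfl⟩
      exact hmin hs
    apply le_antisymm
    · exact csInf_le ⟨F lam r, hlow⟩ ⟨r, hr, rfl⟩
    · exact le_csInf ⟨F lam r, r, hr, rfl⟩ hlow
  constructor
  · intro lam hl s hs
    obtain ⟨r, _, hmin, e⟩ := key lam hl
    rw [e]; exact hmin hs
  · intro lam hl
    obtain ⟨r, hr, _, e⟩ := key lam hl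
    exact ⟨r, hr, e.symm⟩

/-- The basic comparison: an old minimiser is a competitor. -/
theorem Tl12Value.sub_le {F : ℝ → K → ℝ} {A : Set K} {V : ℝ → ℝ} {I : Set ℝ}
    (h : Tl12Value F A V I) {lam mu : ℝ} (hm : mu ∈ I) {r : K} (hr : r ∈ A)
    (hmin : F lam r = V lam) : V mu - V lam ≤ F mu r - F lam r := by
  have := h.le mu hm r hr
  linarith

/-- The value function is Lipschitz if the frozen objectives are, uniformly. -/
theorem tl_12_lipschitz {F : ℝ → K → ℝ} {A : Set K} {V : ℝ → ℝ} {I : Set ℝ} {L : ℝ≥0}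
    (h : Tl12Value F A V I) (hL : ∀ r ∈ A, LipschitzOnWith L (fun lam => F lam r) I) :
    LipschitzOnWith L V I := by
  refine LipschitzOnWith.of_le_add_mul L ?_
  intro x hx y hy
  obtain ⟨r, hr, e⟩ := h.att y hy
  have h1 := h.sub_le hx hr e
  have h2 := (lipschitzOnWith_iff_dist_le_mul.mp (hL r hr)) x hx y hy
  rw [Real.dist_eq] at h2
  have h3 := le_abs_self (F x r - F y r)
  linarith

/-- Lipschitz bound from a uniform bound of the frozen derivatives. -/
theorem tl_12_lipschitz_of_deriv {F : ℝ → K → ℝ} {dF : ℝ → K → ℝ} {A : Set K} {V : ℝ → ℝ}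
    {I : Set ℝ} {L : ℝ≥0} (h : Tl12Value F A V I) (hI : Convex ℝ I)
    (hd : ∀ r ∈ A, ∀ lam ∈ I, HasDerivWithinAt (fun l => F l r) (dF lam r) I lam)
    (hb : ∀ r ∈ A, ∀ lam ∈ I, |dF lam r| ≤ L) : LipschitzOnWith L V I := by
  refine tl_12_lipschitz h (fun r hr => ?_)
  refine hI.lipschitzOnWith_of_nnnorm_hasDerivWithin_le (f' := fun lam => dF lam r) (hd r hr) ?_
  intro lam hl
  have := hb r hr lam hl
  rw [← NNReal.coe_le_coe, coe_nnnorm, Real.norm_eq_abs]
  exact this

/-- Monotone frozen objectives give a monotone value function. -/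
theorem tl_12_mono {F : ℝ → K → ℝ} {A : Set K} {V : ℝ → ℝ} {I : Set ℝ}
    (h : Tl12Value F A V I) (hm : ∀ r ∈ A, MonotoneOn (fun lam => F lam r) I) :
    MonotoneOn V I := by
  intro x hx y hy hxy
  obtain ⟨r, hr, e⟩ := h.att y hy
  calc V x ≤ F x r := h.le x hx r hr
    _ ≤ F y r := hm r hr hx hy hxy
    _ = V y := e

/-- A common lower bound passes to the value function. -/
theorem tl_12_lower {F : ℝ → K → ℝ} {A : Set K} {V : ℝ → ℝ} {I : Set ℝ}
    (h : Tl12Value F A V I) {lam c : ℝ} (hl : lam ∈ I) (hc : ∀ r ∈ A, c ≤ F lam r) :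
    c ≤ V lam := by
  obtain ⟨r, hr, e⟩ := h.att lam hl
  rw [← e]; exact hc r hr

/-- **Envelope identity.**  At a differentiability point of `V`, any minimiser whose frozen
objective is differentiable has the same derivative. -/
theorem tl_12_deriv_eq {F : ℝ → K → ℝ} {A : Set K} {V : ℝ → ℝ} {I : Set ℝ}
    (h : Tl12Value F A V I) {lam v d : ℝ} (hI : I ∈ 𝓝 lam) (hV : HasDerivAt V v lam)
    {r : K} (hr : r ∈ A) (hmin : F lam r = V lam)
    (hF : HasDerivAt (fun l => F l r) d lam) : d = v := by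
  have hloc : IsLocalMin (fun l => F l r - V l) lam := by
    filter_upwards [hI] with mu hmu
    have := h.le mu hmu r hr
    simp only [hmin, sub_self]
    linarith
  have := hloc.hasDerivAt_eq_zero (hF.sub hV)
  linarith

/-- One sided form, weakest hypothesis: the increment of the frozen objective is at most
`d * δ` for arbitrarily small `δ > 0`. -/
theorem tl_12_deriv_le_of_frequently {F : ℝ → K → ℝ} {A : Set K} {V : ℝ → ℝ} {I : Set ℝ}
    (h : Tl12Value F A V I) {lam v d : ℝ} (hI : I ∈ 𝓝[>] lam) (hV : HasDerivAt V v lam)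
    {r : K} (hr : r ∈ A) (hmin : F lam r = V lam)
    (hF : ∃ᶠ δ in 𝓝[>] (0 : ℝ), F (lam + δ) r - F lam r ≤ d * δ) : v ≤ d := by
  have ht := hV.tendsto_slope_zero_right
  refine le_of_tendsto_of_frequently ht ?_
  have hpos : ∀ᶠ δ in 𝓝[>] (0 : ℝ), 0 < δ := eventually_mem_nhdsWithin
  have hin : ∀ᶠ δ in 𝓝[>] (0 : ℝ), lam + δ ∈ I := by
    have hmap : Tendsto (fun δ : ℝ => lam + δ) (𝓝[>] 0) (𝓝[>] lam) := by
      refine tendsto_nhdsWithin_of_tendsto_nhds_of_eventually_within _ ?_ ?_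
      · have : Tendsto (fun δ : ℝ => lam + δ) (𝓝 0) (𝓝 (lam + 0)) :=
          tendsto_const_nhds.add tendsto_id
        rw [add_zero] at this
        exact this.mono_left nhdsWithin_le_nhds
      · filter_upwards [hpos] with δ hδ
        simp only [mem_Ioi]; linarith
    exact hmap hI
  refine (hF.and_eventually (hpos.and hin)).mono ?_
  rintro δ ⟨h1, h2, h3⟩
  have h4 := h.sub_le h3 hr hmin
  rw [smul_eq_mul, inv_mul_le_iff₀ h2]
  linarith

/-- Right derivative of the frozen objective. -/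
theorem tl_12_deriv_le_right {F : ℝ → K → ℝ} {A : Set K} {V : ℝ → ℝ} {I : Set ℝ}
    (h : Tl12Value F A V I) {lam v d : ℝ} (hI : I ∈ 𝓝[>] lam) (hV : HasDerivAt V v lam)
    {r : K} (hr : r ∈ A) (hmin : F lam r = V lam)
    (hF : HasDerivWithinAt (fun l => F l r) d (Ioi lam) lam) : v ≤ d := by
  refine le_of_forall_pos_le_add (fun ε hε => ?_)
  refine tl_12_deriv_le_of_frequently h hI hV hr hmin (Eventually.frequently ?_)
  have hs : Tendsto (slope (fun l => F l r) lam) (𝓝[>] lam) (𝓝 d) := by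
    have := hasDerivWithinAt_iff_tendsto_slope.mp hF
    have e : Ioi lam \ {lam} = Ioi lam := by
      ext x; simp only [Set.mem_sdiff, mem_Ioi, mem_singleton_iff]
      exact ⟨fun hx => hx.1, fun hx => ⟨hx, ne_of_gt hx⟩⟩
    rwa [e] at this
  have hpos : ∀ᶠ δ in 𝓝[>] (0 : ℝ), 0 < δ := eventually_mem_nhdsWithin
  have hmap : Tendsto (fun δ : ℝ => lam + δ) (𝓝[>] 0) (𝓝[>] lam) := by
    refine tendsto_nhdsWithin_of_tendsto_nhds_of_eventually_within _ ?_ ?_
    · have : Tendsto (fun δ : ℝ => lam + δ) (𝓝 0) (𝓝 (lam + 0)) :=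
        tendsto_const_nhds.add tendsto_id
      rw [add_zero] at this
      exact this.mono_left nhdsWithin_le_nhds
    · filter_upwards [hpos] with δ hδ
      simp only [mem_Ioi]; linarith
  have hev := (hs.comp hmap).eventually (gt_mem_nhds (by linarith : d < d + ε))
  filter_upwards [hev, hpos] with δ h1 h2
  simp only [Function.comp, slope, vsub_eq_sub, add_sub_cancel_left, smul_eq_mul] at h1
  rw [inv_mul_lt_iff₀ h2] at h1
  linarith

/-- Left derivative of the frozen objective. -/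
theorem tl_12_deriv_ge_left {F : ℝ → K → ℝ} {A : Set K} {V : ℝ → ℝ} {I : Set ℝ}
    (h : Tl12Value F A V I) {lam v d : ℝ} (hI : I ∈ 𝓝[<] lam) (hV : HasDerivAt V v lam)
    {r : K} (hr : r ∈ A) (hmin : F lam r = V lam)
    (hF : HasDerivWithinAt (fun l => F l r) d (Iio lam) lam) : d ≤ v := by
  -- reflect the parameter
  have h' : Tl12Value (fun l s => F (-l) s) A (fun l => V (-l)) (Neg.neg ⁻¹' I) :=
    ⟨fun l hl => h.le (-l) hl, fun l hl => h.att (-l) hl⟩
  have hI' : (Neg.neg ⁻¹' I) ∈ 𝓝[>] (-lam) := by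
    have hmap : Tendsto (fun l : ℝ => -l) (𝓝[>] (-lam)) (𝓝[<] lam) := by
      refine tendsto_nhdsWithin_of_tendsto_nhds_of_eventually_within _ ?_ ?_
      · have : Tendsto (fun l : ℝ => -l) (𝓝 (-lam)) (𝓝 (- -lam)) := tendsto_id.neg
        rw [neg_neg] at this
        exact this.mono_left nhdsWithin_le_nhds
      · filter_upwards [self_mem_nhdsWithin] with l hl
        simp only [mem_Ioi, mem_Iio] at hl ⊢; linarith
    exact hmap hI
  have hV' : HasDerivAt (fun l => V (-l)) (-v) (-lam) := by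
    have hV2 : HasDerivAt V v (- -lam) := by rwa [neg_neg]
    have := hV2.comp (-lam) (hasDerivAt_neg (-lam))
    have e : (V ∘ Neg.neg) = fun l => V (-l) := rfl
    rw [e, mul_neg_one] at this
    exact this
  have hF' : HasDerivWithinAt (fun l => F (-l) r) (-d) (Ioi (-lam)) (-lam) := by
    have hF2 : HasDerivWithinAt (fun l => F l r) d (Iio lam) (- -lam) := by rwa [neg_neg]
    have := hF2.comp (-lam) ((hasDerivAt_neg (-lam)).hasDerivWithinAt (s := Ioi (-lam))) (by
        intro l hl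
        simp only [mem_Ioi, mem_Iio] at hl ⊢; linarith)
    have e : ((fun l => F l r) ∘ Neg.neg) = fun l => F (-l) r := rfl
    rw [e, mul_neg_one] at this
    exact this
  have := tl_12_deriv_le_right h' hI' hV' hr (by simpa using hmin) hF'
  linarith

/-- `V' ≤ liminf` of the right difference quotients of the frozen objective (in `EReal`). -/
theorem tl_12_deriv_le_liminf {F : ℝ → K → ℝ} {A : Set K} {V : ℝ → ℝ} {I : Set ℝ}
    (h : Tl12Value F A V I) {lam v : ℝ} (hI : I ∈ 𝓝[>] lam) (hV : HasDerivAt V v lam)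
    {r : K} (hr : r ∈ A) (hmin : F lam r = V lam) :
    (v : EReal) ≤ liminf (fun δ : ℝ => (((F (lam + δ) r - F lam r) / δ : ℝ) : EReal))
      (𝓝[>] 0) := by
  refine le_of_forall_lt (fun c hc => ?_)
  -- `c < v`: eventually the quotient is `> c`
  obtain ⟨q, hcq, hqv⟩ := EReal.lt_iff_exists_real_btwn.mp hc
  have hqv' : q < v := by exact_mod_cast hqv
  refine lt_of_lt_of_le hcq ?_
  refine le_liminf_of_le (by isBoundedDefault) ?_
  have ht := hV.tendsto_slope_zero_right
  have hpos : ∀ᶠ δ in 𝓝[>] (0 : ℝ), 0 < δ := eventually_mem_nhdsWithin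
  have hin : ∀ᶠ δ in 𝓝[>] (0 : ℝ), lam + δ ∈ I := by
    have hmap : Tendsto (fun δ : ℝ => lam + δ) (𝓝[>] 0) (𝓝[>] lam) := by
      refine tendsto_nhdsWithin_of_tendsto_nhds_of_eventually_within _ ?_ ?_
      · have : Tendsto (fun δ : ℝ => lam + δ) (𝓝 0) (𝓝 (lam + 0)) :=
          tendsto_const_nhds.add tendsto_id
        rw [add_zero] at this
        exact this.mono_left nhdsWithin_le_nhds
      · filter_upwards [hpos] with δ hδ
        simp only [mem_Ioi]; linarith
    exact hmap hI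
  filter_upwards [ht.eventually (lt_mem_nhds hqv'), hpos, hin] with δ h1 h2 h3
  have h4 := h.sub_le h3 hr hmin
  rw [smul_eq_mul, lt_inv_mul_iff₀ h2] at h1
  have : q ≤ (F (lam + δ) r - F lam r) / δ := by
    rw [le_div_iff₀ h2]; linarith
  exact_mod_cast this

/-- `V' ≤ limsup` of the right difference quotients of the frozen objective (in `EReal`). -/
theorem tl_12_deriv_le_limsup {F : ℝ → K → ℝ} {A : Set K} {V : ℝ → ℝ} {I : Set ℝ}
    (h : Tl12Value F A V I) {lam v : ℝ} (hI : I ∈ 𝓝[>] lam) (hV : HasDerivAt V v lam)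
    {r : K} (hr : r ∈ A) (hmin : F lam r = V lam) :
    (v : EReal) ≤ limsup (fun δ : ℝ => (((F (lam + δ) r - F lam r) / δ : ℝ) : EReal))
      (𝓝[>] 0) :=
  (tl_12_deriv_le_liminf h hI hV hr hmin).trans (liminf_le_limsup)

/-! ### Integrated forms -/

/-- Reparametrisation of the parameter. -/
theorem Tl12Value.comp {F : ℝ → K → ℝ} {A : Set K} {V : ℝ → ℝ} {I J : Set ℝ}
    (h : Tl12Value F A V I) {φ : ℝ → ℝ} (hφ : MapsTo φ J I) :
    Tl12Value (fun t => F (φ t)) A (fun t => V (φ t)) J :=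
  ⟨fun t ht => h.le (φ t) (hφ ht), fun t ht => h.att (φ t) (hφ ht)⟩

/-- Adding a term independent of `r`. -/
theorem Tl12Value.add_const {F : ℝ → K → ℝ} {A : Set K} {V : ℝ → ℝ} {I : Set ℝ}
    (h : Tl12Value F A V I) (ρ : ℝ → ℝ) :
    Tl12Value (fun l r => F l r + ρ l) A (fun l => V l + ρ l) I :=
  ⟨fun l hl r hr => by have := h.le l hl r hr; linarith,
   fun l hl => by
    obtain ⟨r, hr, e⟩ := h.att l hl
    exact ⟨r, hr, by simp only [e]⟩⟩

theorem tl_12_ae_Ioo (l0 l1 : ℝ) : ∀ᵐ x : ℝ, x ∈ Icc l0 l1 → x ∈ Ioo l0 l1 := by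
  have h0 : ∀ᵐ x : ℝ, x ≠ l0 := by
    have : ({l0}ᶜ : Set ℝ) ∈ ae (volume : Measure ℝ) :=
      compl_mem_ae_iff.mpr (measure_singleton l0)
    exact this
  have h1 : ∀ᵐ x : ℝ, x ≠ l1 := by
    have : ({l1}ᶜ : Set ℝ) ∈ ae (volume : Measure ℝ) :=
      compl_mem_ae_iff.mpr (measure_singleton l1)
    exact this
  filter_upwards [h0, h1] with x hx0 hx1 hx
  exact ⟨lt_of_le_of_ne hx.1 (Ne.symm hx0), lt_of_le_of_ne hx.2 hx1⟩

/-- **Integrated Danskin inequality.**  `g` is any integrable majorant such that for almost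
every parameter SOME minimiser has right increments `≤ g lam * δ` for arbitrarily small `δ`. -/
theorem tl_12_integrated {F : ℝ → K → ℝ} {A : Set K} {V : ℝ → ℝ} {l0 l1 : ℝ} {L : ℝ≥0}
    (hle : l0 ≤ l1) (h : Tl12Value F A V (Icc l0 l1)) (hLip : LipschitzOnWith L V (Icc l0 l1))
    {g : ℝ → ℝ} (hg : IntervalIntegrable g volume l0 l1)
    (hd : ∀ᵐ lam : ℝ, lam ∈ Ioo l0 l1 → ∃ r ∈ A, F lam r = V lam ∧
      ∃ᶠ δ in 𝓝[>] (0 : ℝ), F (lam + δ) r - F lam r ≤ g lam * δ) :
    V l1 - V l0 ≤ ∫ lam in l0..l1, g lam := by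
  have hac : AbsolutelyContinuousOnInterval V l0 l1 := by
    apply LipschitzOnWith.absolutelyContinuousOnInterval (K := L)
    rwa [uIcc_of_le hle]
  rw [← hac.integral_deriv_eq_sub]
  refine intervalIntegral.integral_mono_ae_restrict hle hac.intervalIntegrable_deriv hg ?_
  rw [Filter.EventuallyLE, ae_restrict_iff' measurableSet_Icc]
  filter_upwards [hd, hac.ae_differentiableAt, tl_12_ae_Ioo l0 l1] with lam h1 h2 h3 h4
  have hoo := h3 h4
  obtain ⟨r, hr, hmin, hfreq⟩ := h1 hoo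
  have hdiff := (h2 (by rwa [uIcc_of_le hle])).hasDerivAt
  exact tl_12_deriv_le_of_frequently h
    (mem_nhdsWithin_of_mem_nhds (Icc_mem_nhds hoo.1 hoo.2)) hdiff hr hmin hfreq

/-- Integrated form with right derivatives of the frozen objectives. -/
theorem tl_12_integrated_right {F : ℝ → K → ℝ} {dF : ℝ → K → ℝ} {A : Set K} {V : ℝ → ℝ}
    {l0 l1 : ℝ} {L : ℝ≥0}
    (hle : l0 ≤ l1) (h : Tl12Value F A V (Icc l0 l1)) (hLip : LipschitzOnWith L V (Icc l0 l1))
    {g : ℝ → ℝ} (hg : IntervalIntegrable g volume l0 l1)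
    (hd : ∀ᵐ lam : ℝ, lam ∈ Ioo l0 l1 → ∃ r ∈ A, F lam r = V lam ∧
      HasDerivWithinAt (fun l => F l r) (dF lam r) (Ioi lam) lam ∧ dF lam r ≤ g lam) :
    V l1 - V l0 ≤ ∫ lam in l0..l1, g lam := by
  have hac : AbsolutelyContinuousOnInterval V l0 l1 := by
    apply LipschitzOnWith.absolutelyContinuousOnInterval (K := L)
    rwa [uIcc_of_le hle]
  rw [← hac.integral_deriv_eq_sub]
  refine intervalIntegral.integral_mono_ae_restrict hle hac.intervalIntegrable_deriv hg ?_
  rw [Filter.EventuallyLE, ae_restrict_iff' measurableSet_Icc]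
  filter_upwards [hd, hac.ae_differentiableAt, tl_12_ae_Ioo l0 l1] with lam h1 h2 h3 h4
  have hoo := h3 h4
  obtain ⟨r, hr, hmin, hder, hle'⟩ := h1 hoo
  have hdiff := (h2 (by rwa [uIcc_of_le hle])).hasDerivAt
  exact (tl_12_deriv_le_right h
    (mem_nhdsWithin_of_mem_nhds (Icc_mem_nhds hoo.1 hoo.2)) hdiff hr hmin hder).trans hle'

/-- Constant majorant. -/
theorem tl_12_integrated_const {F : ℝ → K → ℝ} {A : Set K} {V : ℝ → ℝ} {l0 l1 G : ℝ} {L : ℝ≥0}
    (hle : l0 ≤ l1) (h : Tl12Value F A V (Icc l0 l1)) (hLip : LipschitzOnWith L V (Icc l0 l1))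
    (hd : ∀ᵐ lam : ℝ, lam ∈ Ioo l0 l1 → ∃ r ∈ A, F lam r = V lam ∧
      ∃ᶠ δ in 𝓝[>] (0 : ℝ), F (lam + δ) r - F lam r ≤ G * δ) :
    V l1 - V l0 ≤ G * (l1 - l0) := by
  have := tl_12_integrated (g := fun _ => G) hle h hLip intervalIntegrable_const hd
  simpa [mul_comm] using this

theorem tl_12_exp_lipschitz (b : ℝ) :
    LipschitzOnWith (Real.exp b).toNNReal Real.exp (Iic b) := by
  refine (convex_Iic b).lipschitzOnWith_of_nnnorm_hasDerivWithin_le (f' := Real.exp)
    (fun x _ => (Real.hasDerivAt_exp x).hasDerivWithinAt) ?_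
  intro x hx
  rw [← NNReal.coe_le_coe, coe_nnnorm, Real.norm_eq_abs, abs_of_pos (Real.exp_pos _),
    Real.coe_toNNReal _ (Real.exp_pos _).le]
  exact Real.exp_le_exp.mpr hx

/-- **Integrated form per unit `log lam`** (PE Lemma 3.1): increments along `lam ↦ lam e^δ`. -/
theorem tl_12_integrated_log {F : ℝ → K → ℝ} {A : Set K} {V : ℝ → ℝ} {l0 l1 : ℝ} {L : ℝ≥0}
    (h0 : 0 < l0) (hle : l0 ≤ l1) (h : Tl12Value F A V (Icc l0 l1))
    (hLip : LipschitzOnWith L V (Icc l0 l1))
    {g : ℝ → ℝ} (hg : IntervalIntegrable (fun t => g (Real.exp t)) volume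
      (Real.log l0) (Real.log l1))
    (hd : ∀ lam ∈ Ioo l0 l1, ∃ r ∈ A, F lam r = V lam ∧
      ∃ᶠ δ in 𝓝[>] (0 : ℝ), F (lam * Real.exp δ) r - F lam r ≤ g lam * δ) :
    V l1 - V l0 ≤ ∫ t in (Real.log l0)..(Real.log l1), g (Real.exp t) := by
  have h1 : 0 < l1 := lt_of_lt_of_le h0 hle
  have hlog : Real.log l0 ≤ Real.log l1 := Real.log_le_log h0 hle
  have hmaps : MapsTo Real.exp (Icc (Real.log l0) (Real.log l1)) (Icc l0 l1) := by
    intro t ht
    constructor
    · rw [← Real.exp_log h0]; exact Real.exp_le_exp.mpr ht.1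
    · rw [← Real.exp_log h1]; exact Real.exp_le_exp.mpr ht.2
  have hval := h.comp hmaps
  have hLip' : LipschitzOnWith (L * (Real.exp (Real.log l1)).toNNReal)
      (fun t => V (Real.exp t)) (Icc (Real.log l0) (Real.log l1)) :=
    hLip.comp ((tl_12_exp_lipschitz (Real.log l1)).mono (fun t ht => ht.2)) hmaps
  have := tl_12_integrated (g := fun t => g (Real.exp t)) hlog hval hLip' hg
    (ae_of_all _ (fun t ht => by
      have hoo : Real.exp t ∈ Ioo l0 l1 := by
        constructor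
        · rw [← Real.exp_log h0]; exact Real.exp_lt_exp.mpr ht.1
        · rw [← Real.exp_log h1]; exact Real.exp_lt_exp.mpr ht.2
      obtain ⟨r, hr, hmin, hf⟩ := hd _ hoo
      refine ⟨r, hr, hmin, ?_⟩
      simpa only [Real.exp_add] using hf))
  simpa only [Real.exp_log h0, Real.exp_log h1] using this

/-- **One null set for all minimisers** (LL 07): outside the non differentiability set of the
single function `V`, every minimiser has `∂F = V'`. -/
theorem tl_12_ae_all_min {F : ℝ → K → ℝ} {dF : ℝ → K → ℝ} {A : Set K} {V : ℝ → ℝ}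
    {l0 l1 : ℝ} {L : ℝ≥0}
    (hle : l0 ≤ l1) (h : Tl12Value F A V (Icc l0 l1)) (hLip : LipschitzOnWith L V (Icc l0 l1))
    (hF : ∀ r ∈ A, ∀ lam ∈ Ioo l0 l1, HasDerivAt (fun l => F l r) (dF lam r) lam) :
    ∀ᵐ lam : ℝ, lam ∈ Ioo l0 l1 → ∀ r ∈ A, F lam r = V lam → dF lam r = deriv V lam := by
  have hac : AbsolutelyContinuousOnInterval V l0 l1 := by
    apply LipschitzOnWith.absolutelyContinuousOnInterval (K := L)
    rwa [uIcc_of_le hle]
  filter_upwards [hac.ae_differentiableAt] with lam h2 hoo r hr hmin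
  have hdiff := (h2 (by rw [uIcc_of_le hle]; exact Ioo_subset_Icc_self hoo)).hasDerivAt
  exact tl_12_deriv_eq h (Icc_mem_nhds hoo.1 hoo.2) hdiff hr hmin (hF r hr lam hoo)

/-- **The common measurable majorant** (LL 07, Lemma "envelope common to all minimisers").
`Rr = V + ρ` is the restored value; if at every minimiser `c * N ≤ ∂F + ρ'`, then the single
function `deriv Rr` bounds `c * N lam r` for almost every `lam` and ALL minimisers `r`, it is
measurable, integrable, and its integral is `Rr l1 - Rr l0`. -/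
theorem tl_12_majorant {F : ℝ → K → ℝ} {dF : ℝ → K → ℝ} {A : Set K} {V ρ dρ : ℝ → ℝ}
    {N : ℝ → K → ℝ} {l0 l1 c : ℝ} {L L' : ℝ≥0}
    (hle : l0 ≤ l1) (h : Tl12Value F A V (Icc l0 l1)) (hLip : LipschitzOnWith L V (Icc l0 l1))
    (hρL : LipschitzOnWith L' ρ (Icc l0 l1))
    (hρ : ∀ lam ∈ Ioo l0 l1, HasDerivAt ρ (dρ lam) lam)
    (hF : ∀ r ∈ A, ∀ lam ∈ Ioo l0 l1, HasDerivAt (fun l => F l r) (dF lam r) lam)
    (hN : ∀ lam ∈ Ioo l0 l1, ∀ r ∈ A, F lam r = V lam → c * N lam r ≤ dF lam r + dρ lam) :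
    Measurable (deriv (fun l => V l + ρ l)) ∧
    IntervalIntegrable (deriv (fun l => V l + ρ l)) volume l0 l1 ∧
    (∫ lam in l0..l1, deriv (fun l => V l + ρ l) lam) = (V l1 + ρ l1) - (V l0 + ρ l0) ∧
    ∀ᵐ lam : ℝ, lam ∈ Ioo l0 l1 → ∀ r ∈ A, F lam r = V lam →
      c * N lam r ≤ deriv (fun l => V l + ρ l) lam := by
  have hacV : AbsolutelyContinuousOnInterval V l0 l1 := by
    apply LipschitzOnWith.absolutelyContinuousOnInterval (K := L)
    rwa [uIcc_of_le hle]
  have hacρ : AbsolutelyContinuousOnInterval ρ l0 l1 := by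
    apply LipschitzOnWith.absolutelyContinuousOnInterval (K := L')
    rwa [uIcc_of_le hle]
  have hac : AbsolutelyContinuousOnInterval (fun l => V l + ρ l) l0 l1 := hacV.add hacρ
  refine ⟨measurable_deriv _, hac.intervalIntegrable_deriv, hac.integral_deriv_eq_sub, ?_⟩
  filter_upwards [hacV.ae_differentiableAt] with lam h2 hoo r hr hmin
  have hdiff := (h2 (by rw [uIcc_of_le hle]; exact Ioo_subset_Icc_self hoo)).hasDerivAt
  have e1 := tl_12_deriv_eq h (Icc_mem_nhds hoo.1 hoo.2) hdiff hr hmin (hF r hr lam hoo)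
  have e2 : deriv (fun l => V l + ρ l) lam = deriv V lam + dρ lam :=
    (hdiff.add (hρ lam hoo)).deriv
  rw [e2, ← e1]
  exact hN lam hoo r hr hmin

/-- The explicit majorant `Z² = 1 + Rr' / (c s)` of LL (C13): `N ≤ s Z²` for all minimisers,
`Z² ≥ 1`, and the integral of `Z²` is explicit. -/
theorem tl_12_Zsq {F : ℝ → K → ℝ} {dF : ℝ → K → ℝ} {A : Set K} {V ρ dρ : ℝ → ℝ}
    {N : ℝ → K → ℝ} {l0 l1 c s : ℝ} {L L' : ℝ≥0} (hc : 0 < c) (hs : 0 < s)
    (hle : l0 ≤ l1) (h : Tl12Value F A V (Icc l0 l1)) (hLip : LipschitzOnWith L V (Icc l0 l1))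
    (hρL : LipschitzOnWith L' ρ (Icc l0 l1))
    (hρ : ∀ lam ∈ Ioo l0 l1, HasDerivAt ρ (dρ lam) lam)
    (hF : ∀ r ∈ A, ∀ lam ∈ Ioo l0 l1, HasDerivAt (fun l => F l r) (dF lam r) lam)
    (hN0 : ∀ lam r, 0 ≤ N lam r)
    (hN : ∀ lam ∈ Ioo l0 l1, ∀ r ∈ A, F lam r = V lam → c * N lam r ≤ dF lam r + dρ lam) :
    ∃ Zsq : ℝ → ℝ, Measurable Zsq ∧ IntervalIntegrable Zsq volume l0 l1 ∧
      (∫ lam in l0..l1, Zsq lam)
        = (l1 - l0) + ((V l1 + ρ l1) - (V l0 + ρ l0)) / (c * s) ∧
      (∀ᵐ lam : ℝ, lam ∈ Ioo l0 l1 → 1 ≤ Zsq lam) ∧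
      ∀ᵐ lam : ℝ, lam ∈ Ioo l0 l1 → ∀ r ∈ A, F lam r = V lam → N lam r ≤ s * Zsq lam := by
  obtain ⟨hm, hi, hint, hae⟩ := tl_12_majorant hle h hLip hρL hρ hF hN
  have hcs : 0 < c * s := mul_pos hc hs
  refine ⟨fun lam => 1 + deriv (fun l => V l + ρ l) lam / (c * s),
    measurable_const.add (hm.div_const _), intervalIntegrable_const.add (hi.div_const _), ?_, ?_, ?_⟩
  · rw [intervalIntegral.integral_add intervalIntegrable_const (hi.div_const _),
      intervalIntegral.integral_div, hint]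
    simp
  · filter_upwards [hae] with lam h1 hoo
    obtain ⟨r, hr, hmin⟩ := h.att lam (Ioo_subset_Icc_self hoo)
    have h2 := h1 hoo r hr hmin
    have h3 : 0 ≤ deriv (fun l => V l + ρ l) lam := le_trans (mul_nonneg hc.le (hN0 lam r)) h2
    have : 0 ≤ deriv (fun l => V l + ρ l) lam / (c * s) := div_nonneg h3 hcs.le
    linarith
  · filter_upwards [hae] with lam h1 hoo r hr hmin
    have h2 := h1 hoo r hr hmin
    have h3 : s * (1 + deriv (fun l => V l + ρ l) lam / (c * s))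
        = s + deriv (fun l => V l + ρ l) lam / c := by
      field_simp
    rw [h3]
    have h4 : N lam r ≤ deriv (fun l => V l + ρ l) lam / c := by
      rw [le_div_iff₀ hc]; linarith
    linarith

/-- A parameter in `(a,b)`, outside a prescribed null set, where `φ` is at most its average. -/
theorem tl_12_good_point {φ : ℝ → ℝ} {a b : ℝ} (hab : a < b)
    (hφ : IntervalIntegrable φ volume a b) {Nn : Set ℝ} (hN : volume Nn = 0) :
    ∃ t ∈ Ioo a b, t ∉ Nn ∧ φ t ≤ (∫ x in a..b, φ x) / (b - a) := by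
  have hμ : (volume.restrict (Ioc a b) : Measure ℝ) ≠ 0 := by
    intro h0
    have : (volume.restrict (Ioc a b) : Measure ℝ) univ = 0 := by rw [h0]; simp
    rw [Measure.restrict_apply_univ, Real.volume_Ioc, ENNReal.ofReal_eq_zero] at this
    linarith
  have hint : Integrable φ (volume.restrict (Ioc a b)) :=
    (intervalIntegrable_iff_integrableOn_Ioc_of_le hab.le).mp hφ
  have hnull : (volume.restrict (Ioc a b) : Measure ℝ) (Nn ∪ (Ioo a b)ᶜ) = 0 := by
    refine measure_union_null ?_ ?_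
    · exact le_antisymm ((Measure.restrict_apply_le _ _).trans hN.le) zero_le
    · rw [Measure.restrict_apply (measurableSet_Ioo.compl)]
      have : (Ioo a b)ᶜ ∩ Ioc a b ⊆ {b} := by
        intro x hx
        simp only [mem_inter_iff, mem_compl_iff, mem_Ioo, mem_Ioc, not_and, not_lt] at hx
        exact le_antisymm hx.2.2 (hx.1 hx.2.1)
      exact measure_mono_null this (by simp)
  obtain ⟨t, ht, hle⟩ := exists_notMem_null_le_average hμ hint hnull
  simp only [mem_union, mem_compl_iff, not_or, not_not] at ht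
  refine ⟨t, ht.2, ht.1, ?_⟩
  rw [average_eq, smul_eq_mul, measureReal_def, Measure.restrict_apply_univ, Real.volume_Ioc,
    ENNReal.toReal_ofReal (by linarith), ← intervalIntegral.integral_of_le hab.le] at hle
  rw [div_eq_inv_mul]
  exact hle

end Claimed.Agent.R286
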