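import Claimed.Agent.R286.Tool.Box252

/-!
# Row 286 (S0533) TOOLBOX: the abstract density box, part 2: DENSITIES      (owner helper252; prefix `tl_252_`)

On top of `Tool/Box252.lean`.
* `TlBox.ac`, `TlBox.integral_deriv`, `TlBox.ae_deriv`: a box member is absolutely continuous, `∫ deriv al = al t - al s`,  and  `k ≤ deriv al ≤ M ∘ al`  a.e.
* `tl_252_of_density`, `tl_252_of_ae_deriv`: the converse (a.e. constraints on a density / on a Lipschitz function  ⇒  integrated form).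
* `TlBox.integral_comp_deriv`  : `∫ x in s..t, deriv al x • h (al x) = ∫ u in al s..al t, h u`   for EVERY `h` (no measurability hypothesis).
* `TlQ.integral_comp`          : `∫ w in u..v, g (r w) = ∫ x in r u..r v, deriv al x • g x`       for EVERY `g`.
* `TlBox.M_ge`, `TlBox.cap`, `TlBox.travel_le` (travel time / barrier by the cap flow), `tl_252_nonempty_iff`.
-/

set_option autoImplicit false

namespace Claimed.Agent.R286

open MeasureTheory Set Filter Topology

noncomputable section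

section density

variable {k M : ℝ → ℝ} {r0 r1 u0 u1 kmin Mmax : ℝ} {al r : ℝ → ℝ}

theorem TlBox.ac (B : TlBox k M r0 r1 u0 u1 al) (O : TlOk k M r0 r1 u0 u1 kmin Mmax) :
    AbsolutelyContinuousOnInterval al r0 r1 := by
  apply LipschitzOnWith.absolutelyContinuousOnInterval (K := Real.toNNReal Mmax)
  rw [uIcc_of_le O.r01]
  exact B.lipschitzOn O

theorem TlBox.ac_sub (B : TlBox k M r0 r1 u0 u1 al) (O : TlOk k M r0 r1 u0 u1 kmin Mmax) {s t : ℝ}
    (hs : r0 ≤ s) (hst : s ≤ t) (ht : t ≤ r1) : AbsolutelyContinuousOnInterval al s t :=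
  (B.ac O).mono (by rw [uIcc_of_le hst, uIcc_of_le O.r01]; exact Icc_subset_Icc hs ht)

/-- **FTC for a box member** -/
theorem TlBox.integral_deriv (B : TlBox k M r0 r1 u0 u1 al) (O : TlOk k M r0 r1 u0 u1 kmin Mmax) {s t : ℝ}
    (hs : r0 ≤ s) (hst : s ≤ t) (ht : t ≤ r1) : ∫ x in s..t, deriv al x = al t - al s :=
  (B.ac_sub O hs hst ht).integral_deriv_eq_sub

theorem TlBox.deriv_int (B : TlBox k M r0 r1 u0 u1 al) (O : TlOk k M r0 r1 u0 u1 kmin Mmax) {s t : ℝ}
    (hs : r0 ≤ s) (hst : s ≤ t) (ht : t ≤ r1) : IntervalIntegrable (deriv al) volume s t :=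
  (B.ac_sub O hs hst ht).intervalIntegrable_deriv

theorem tl_252_deriv_nonneg {g : ℝ → ℝ} {a b x g' : ℝ} (hg : MonotoneOn g (Icc a b)) (hx : x ∈ Ioo a b)
    (h : HasDerivAt g g' x) : 0 ≤ g' := by
  have h1 := hg.derivWithin_nonneg (x := x)
  rwa [(h.hasDerivWithinAt).derivWithin (uniqueDiffOn_Icc (hx.1.trans hx.2) x ⟨hx.1.le, hx.2.le⟩)] at h1

theorem tl_252_ae_ne (a : ℝ) : ∀ᵐ x : ℝ, x ≠ a := by simp [ae_iff, measure_singleton]

/-- **the a.e. form of the constraints** -/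
theorem TlBox.ae_deriv (B : TlBox k M r0 r1 u0 u1 al) (O : TlOk k M r0 r1 u0 u1 kmin Mmax) :
    ∀ᵐ x, x ∈ Icc r0 r1 → DifferentiableAt ℝ al x ∧ k x ≤ deriv al x ∧ deriv al x ≤ M (al x) := by
  filter_upwards [(B.ac O).ae_differentiableAt, O.kint.ae_hasDerivAt_integral, tl_252_ae_ne r0, tl_252_ae_ne r1]
    with x e1 e2 e3 e4 hx
  rw [uIcc_of_le O.r01] at e1 e2
  have hx' : x ∈ Ioo r0 r1 := ⟨lt_of_le_of_ne hx.1 (Ne.symm e3), lt_of_le_of_ne hx.2 e4⟩
  have d1 := (e1 hx).hasDerivAt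
  have d2 := e2 hx r0 (left_mem_Icc.2 O.r01)
  refine ⟨e1 hx, ?_, ?_⟩
  · have hm : MonotoneOn (fun y => al y - ∫ t in r0..y, k t) (Icc r0 r1) := by
      intro s hs t ht hst
      have h1 := B.lo s t hs.1 hst ht.2
      have h2 := intervalIntegral.integral_interval_sub_left (O.kint_sub le_rfl ht.1 ht.2)
        (O.kint_sub le_rfl hs.1 hs.2)
      simp only
      linarith
    have := tl_252_deriv_nonneg hm hx' (d1.sub d2)
    linarith
  · have d3 : HasDerivAt (fun y => ∫ t in r0..y, M (al t)) (M (al x)) x := by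
      apply intervalIntegral.integral_hasDerivAt_right (B.M_comp_int O le_rfl hx.1 hx.2) _
        ((B.M_comp_continuousOn O).continuousAt (Icc_mem_nhds hx'.1 hx'.2))
      exact (B.M_comp_continuousOn O).stronglyMeasurableAtFilter_nhdsWithin measurableSet_Icc x |>.filter_mono
        (by rw [nhdsWithin_eq_nhds.2 (Icc_mem_nhds hx'.1 hx'.2)])
    have hm : MonotoneOn (fun y => (∫ t in r0..y, M (al t)) - al y) (Icc r0 r1) := by
      intro s hs t ht hst
      have h1 := B.hi s t hs.1 hst ht.2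
      have h2 := intervalIntegral.integral_interval_sub_left (B.M_comp_int O le_rfl ht.1 ht.2)
        (B.M_comp_int O le_rfl hs.1 hs.2)
      simp only
      linarith
    have := tl_252_deriv_nonneg hm hx' (d3.sub d1)
    linarith

theorem TlBox.ae_deriv_bd (B : TlBox k M r0 r1 u0 u1 al) (O : TlOk k M r0 r1 u0 u1 kmin Mmax) :
    ∀ᵐ x, x ∈ Icc r0 r1 → kmin ≤ deriv al x ∧ deriv al x ≤ Mmax := by
  filter_upwards [B.ae_deriv O] with x hx hx'
  exact ⟨(O.kge x hx').trans (hx hx').2.1, (hx hx').2.2.trans (O.Mle _ (B.mem O hx'))⟩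

/-- **from a density to a box member**: `al = u0 + ∫ a` with `k ≤ a ≤ M ∘ al` a.e. -/
theorem tl_252_of_density (O : TlOk k M r0 r1 u0 u1 kmin Mmax) {a : ℝ → ℝ} (ha : IntervalIntegrable a volume r0 r1)
    (htot : ∫ x in r0..r1, a x = u1 - u0)
    (hk : ∀ᵐ x, x ∈ Icc r0 r1 → k x ≤ a x)
    (hM : ∀ᵐ x, x ∈ Icc r0 r1 → a x ≤ M (u0 + ∫ y in r0..x, a y)) :
    TlBox k M r0 r1 u0 u1 (fun x => u0 + ∫ y in r0..x, a y) := by
  have hsub : ∀ s t : ℝ, r0 ≤ s → s ≤ t → t ≤ r1 → IntervalIntegrable a volume s t := by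
    intro s t hs hst ht
    apply ha.mono_set
    rw [uIcc_of_le hst, uIcc_of_le O.r01]
    exact Icc_subset_Icc hs ht
  have hdiff : ∀ s t : ℝ, r0 ≤ s → s ≤ t → t ≤ r1 →
      (u0 + ∫ x in r0..t, a x) - (u0 + ∫ x in r0..s, a x) = ∫ x in s..t, a x := by
    intro s t hs hst ht
    rw [← intervalIntegral.integral_interval_sub_left (hsub r0 t le_rfl (hs.trans hst) ht)
      (hsub r0 s le_rfl hs (hst.trans ht))]
    ring
  have hlo : ∀ s t : ℝ, r0 ≤ s → s ≤ t → t ≤ r1 → ∫ x in s..t, k x ≤ ∫ x in s..t, a x := by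
    intro s t hs hst ht
    apply intervalIntegral.integral_mono_ae_restrict hst (O.kint_sub hs hst ht) (hsub s t hs hst ht)
    rw [EventuallyLE, ae_restrict_iff' measurableSet_Icc]
    filter_upwards [hk] with x hx hx'
    exact hx ⟨hs.trans hx'.1, hx'.2.trans ht⟩
  have hmem : ∀ x ∈ Icc r0 r1, u0 + ∫ y in r0..x, a y ∈ Icc u0 u1 := by
    intro x hx
    have e1 := (O.floor_ge le_rfl hx.1 hx.2).trans (hlo r0 x le_rfl hx.1 hx.2)
    have e2 := (O.floor_ge hx.1 hx.2 le_rfl).trans (hlo x r1 hx.1 hx.2 le_rfl)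
    have e3 := intervalIntegral.integral_add_adjacent_intervals (hsub r0 x le_rfl hx.1 hx.2)
      (hsub x r1 hx.1 hx.2 le_rfl)
    have e4 : 0 ≤ kmin * (x - r0) := mul_nonneg O.kmin0.le (by linarith [hx.1])
    have e5 : 0 ≤ kmin * (r1 - x) := mul_nonneg O.kmin0.le (by linarith [hx.2])
    constructor <;> linarith
  have hcont : ContinuousOn (fun r => u0 + ∫ x in r0..r, a x) (Icc r0 r1) := by
    apply continuousOn_const.add
    have := intervalIntegral.continuousOn_primitive_interval (μ := volume) (f := a) (a := r0) (b := r1) (by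
      rw [uIcc_of_le O.r01]
      have := ha
      rw [intervalIntegrable_iff_integrableOn_Icc_of_le O.r01] at this
      exact this)
    rwa [uIcc_of_le O.r01] at this
  refine ⟨by simp, by rw [htot]; ring, ?_, ?_⟩
  · intro s t hs hst ht
    rw [hdiff s t hs hst ht]
    exact hlo s t hs hst ht
  · intro s t hs hst ht
    rw [hdiff s t hs hst ht]
    apply intervalIntegral.integral_mono_ae_restrict hst (hsub s t hs hst ht)
    · apply ContinuousOn.intervalIntegrable
      rw [uIcc_of_le hst]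
      exact (O.Mcont.comp hcont hmem).mono (Icc_subset_Icc hs ht)
    · rw [EventuallyLE, ae_restrict_iff' measurableSet_Icc]
      filter_upwards [hM] with x hx hx'
      exact hx ⟨hs.trans hx'.1, hx'.2.trans ht⟩

/-- **from the a.e. constraints on an absolutely continuous (e.g. Lipschitz) function to the integrated form** -/
theorem tl_252_of_ae_deriv (O : TlOk k M r0 r1 u0 u1 kmin Mmax) (hac : AbsolutelyContinuousOnInterval al r0 r1)
    (hl : al r0 = u0) (hr : al r1 = u1)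
    (h : ∀ᵐ x, x ∈ Icc r0 r1 → k x ≤ deriv al x ∧ deriv al x ≤ M (al x)) : TlBox k M r0 r1 u0 u1 al := by
  have hftc : ∀ x ∈ Icc r0 r1, u0 + ∫ y in r0..x, deriv al y = al x := by
    intro x hx
    rw [(hac.mono (by rw [uIcc_of_le hx.1, uIcc_of_le O.r01]; exact Icc_subset_Icc le_rfl hx.2)).integral_deriv_eq_sub,
      hl]
    ring
  have B := tl_252_of_density O hac.intervalIntegrable_deriv (by rw [hac.integral_deriv_eq_sub, hl, hr])
    (by filter_upwards [h] with x hx hx' using (hx hx').1)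
    (by
      filter_upwards [h] with x hx hx'
      rw [hftc x hx']
      exact (hx hx').2)
  exact B.congr O.r01 hftc

/-- Lipschitz images of null sets are null -/
theorem TlBox.image_null (B : TlBox k M r0 r1 u0 u1 al) (O : TlOk k M r0 r1 u0 u1 kmin Mmax) {N : Set ℝ}
    (hN : N ⊆ Icc r0 r1) (h0 : volume N = 0) : volume (al '' N) = 0 := by
  have h1 := ((B.lipschitzOn O).mono hN).hausdorffMeasure_image_le (d := 1) zero_le_one
  rw [hausdorffMeasure_real, h0, mul_zero] at h1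
  exact le_antisymm h1 zero_le

/-- the set of differentiability points in `[r0,r1]` -/
def tlD (al : ℝ → ℝ) (r0 r1 : ℝ) : Set ℝ := Icc r0 r1 ∩ {x | DifferentiableAt ℝ al x}

theorem tl_252_D_meas (al : ℝ → ℝ) (r0 r1 : ℝ) : MeasurableSet (tlD al r0 r1) :=
  measurableSet_Icc.inter (measurableSet_of_differentiableAt ℝ al)

theorem TlBox.D_ae (B : TlBox k M r0 r1 u0 u1 al) (O : TlOk k M r0 r1 u0 u1 kmin Mmax) :
    tlD al r0 r1 =ᵐ[volume] Icc r0 r1 := by
  filter_upwards [B.ae_deriv O] with x hx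
  apply propext
  constructor
  · exact fun h => h.1
  · exact fun h => ⟨h, (hx h).1⟩

theorem TlBox.D_image_ae (B : TlBox k M r0 r1 u0 u1 al) (O : TlOk k M r0 r1 u0 u1 kmin Mmax) :
    al '' tlD al r0 r1 =ᵐ[volume] Icc u0 u1 := by
  have hnull : volume (Icc r0 r1 \ tlD al r0 r1) = 0 := by
    have := (B.D_ae O).symm
    rw [ae_eq_set] at this
    exact this.1
  have h1 := B.image_null O sdiff_subset hnull
  rw [ae_eq_set]
  constructor
  · have : al '' tlD al r0 r1 \ Icc u0 u1 = ∅ := by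
      rw [sdiff_eq_empty]
      rintro _ ⟨x, hx, rfl⟩
      exact B.mem O hx.1
    rw [this]
    simp
  · apply measure_mono_null _ h1
    rintro u ⟨hu, hu'⟩
    obtain ⟨x, hx, rfl⟩ := B.surjOn O hu
    exact ⟨x, ⟨hx, fun h => hu' ⟨x, h, rfl⟩⟩, rfl⟩

/-- **change of variables `u = al x`** on the whole box, for EVERY integrand -/
theorem TlBox.integral_comp_deriv_full {F : Type*} [NormedAddCommGroup F] [NormedSpace ℝ F]
    (B : TlBox k M r0 r1 u0 u1 al) (O : TlOk k M r0 r1 u0 u1 kmin Mmax) (h : ℝ → F) :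
    ∫ x in r0..r1, deriv al x • h (al x) = ∫ u in u0..u1, h u := by
  have h1 := integral_image_eq_integral_abs_deriv_smul (tl_252_D_meas al r0 r1) (f := al) (f' := deriv al)
    (fun x hx => hx.2.hasDerivAt.hasDerivWithinAt) ((B.strictMonoOn O).injOn.mono inter_subset_left) h
  rw [setIntegral_congr_set (B.D_image_ae O), setIntegral_congr_set (B.D_ae O)] at h1
  rw [intervalIntegral.integral_of_le O.r01, intervalIntegral.integral_of_le (B.u01 O),
    ← integral_Icc_eq_integral_Ioc, ← integral_Icc_eq_integral_Ioc, h1]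
  apply setIntegral_congr_ae measurableSet_Icc
  filter_upwards [B.ae_deriv_bd O] with x hx hx'
  rw [abs_of_nonneg (O.kmin0.le.trans (hx hx').1)]

/-- **change of variables `u = al x`**, for EVERY integrand -/
theorem TlBox.integral_comp_deriv {F : Type*} [NormedAddCommGroup F] [NormedSpace ℝ F]
    (B : TlBox k M r0 r1 u0 u1 al) (O : TlOk k M r0 r1 u0 u1 kmin Mmax) (h : ℝ → F) {s t : ℝ}
    (hs : r0 ≤ s) (hst : s ≤ t) (ht : t ≤ r1) :
    ∫ x in s..t, deriv al x • h (al x) = ∫ u in al s..al t, h u :=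
  (B.restrict hs ht).integral_comp_deriv_full
    (O.restrict hs hst ht (B.mem O ⟨hs, hst.trans ht⟩).1 (B.mem O ⟨hs.trans hst, ht⟩).2) h

/-- integrability in the change of variables -/
theorem TlBox.integrable_comp_deriv_iff {F : Type*} [NormedAddCommGroup F] [NormedSpace ℝ F]
    (B : TlBox k M r0 r1 u0 u1 al) (O : TlOk k M r0 r1 u0 u1 kmin Mmax) (h : ℝ → F) :
    IntervalIntegrable (fun x => deriv al x • h (al x)) volume r0 r1 ↔ IntervalIntegrable h volume u0 u1 := by
  have h1 := integrableOn_image_iff_integrableOn_abs_deriv_smul (tl_252_D_meas al r0 r1) (f := al) (f' := deriv al)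
    (fun x hx => hx.2.hasDerivAt.hasDerivWithinAt) ((B.strictMonoOn O).injOn.mono inter_subset_left) h
  rw [integrableOn_congr_set_ae (B.D_image_ae O), integrableOn_congr_set_ae (B.D_ae O)] at h1
  rw [intervalIntegrable_iff_integrableOn_Icc_of_le O.r01, intervalIntegrable_iff_integrableOn_Icc_of_le (B.u01 O), h1]
  apply integrableOn_congr_fun_ae
  rw [EventuallyEq, ae_restrict_iff' measurableSet_Icc]
  filter_upwards [B.ae_deriv_bd O] with x hx hx'
  rw [abs_of_nonneg (O.kmin0.le.trans (hx hx').1)]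

theorem TlQ.restrict (Q : TlQ al r0 r1 u0 u1 r) (B : TlBox k M r0 r1 u0 u1 al) (O : TlOk k M r0 r1 u0 u1 kmin Mmax)
    {u v : ℝ} (hu : u0 ≤ u) (huv : u ≤ v) (hv : v ≤ u1) : TlQ al (r u) (r v) u v r := by
  refine ⟨fun w hw => ?_, fun w hw => Q.al_r w ⟨hu.trans hw.1, hw.2.trans hv⟩⟩
  have hw' : w ∈ Icc u0 u1 := ⟨hu.trans hw.1, hw.2.trans hv⟩
  exact ⟨Q.monoOn B O ⟨hu, huv.trans hv⟩ hw' hw.1, Q.monoOn B O hw' ⟨hu.trans huv, hv⟩ hw.2⟩

/-- **change of variables for the quantile**: `∫ g(r(w)) dw = ∫ g(x) al'(x) dx`, for EVERY integrand -/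
theorem TlQ.integral_comp {F : Type*} [NormedAddCommGroup F] [NormedSpace ℝ F] (Q : TlQ al r0 r1 u0 u1 r)
    (B : TlBox k M r0 r1 u0 u1 al) (O : TlOk k M r0 r1 u0 u1 kmin Mmax) (g : ℝ → F) {u v : ℝ}
    (hu : u0 ≤ u) (huv : u ≤ v) (hv : v ≤ u1) :
    ∫ w in u..v, g (r w) = ∫ x in r u..r v, deriv al x • g x := by
  have hu' : u ∈ Icc u0 u1 := ⟨hu, huv.trans hv⟩
  have hv' : v ∈ Icc u0 u1 := ⟨hu.trans huv, hv⟩
  have hr := Q.monoOn B O hu' hv' huv
  have h1 := B.integral_comp_deriv O (fun w => g (r w)) (Q.mem u hu').1 hr (Q.mem v hv').2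
  rw [Q.al_r u hu', Q.al_r v hv'] at h1
  rw [← h1]
  apply intervalIntegral.integral_congr
  intro x hx
  rw [uIcc_of_le hr] at hx
  simp only
  rw [Q.r_al B O ⟨(Q.mem u hu').1.trans hx.1, hx.2.trans (Q.mem v hv').2⟩]

/-- in a nondegenerate nonempty box the cap is `≥ kmin` everywhere on `[u0,u1]` -/
theorem TlBox.M_ge (B : TlBox k M r0 r1 u0 u1 al) (O : TlOk k M r0 r1 u0 u1 kmin Mmax) (h01 : r0 < r1) :
    ∀ u ∈ Icc u0 u1, kmin ≤ M u := by
  intro u hu
  obtain ⟨x, hx, rfl⟩ := B.surjOn O hu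
  by_contra hcon
  push Not at hcon
  have hc := B.M_comp_continuousOn O
  have hopen : ∀ᶠ y in 𝓝[Icc r0 r1] x, M (al y) < kmin := (hc x hx).eventually (gt_mem_nhds hcon)
  obtain ⟨δ, hδ, hball'⟩ := Metric.mem_nhdsWithin_iff.1 hopen
  have hball : ∀ y : ℝ, dist y x < δ → y ∈ Icc r0 r1 → M (al y) < kmin := fun y h1 h2 => hball' ⟨h1, h2⟩
  set s := max r0 (x - δ / 2) with hs
  set t := min r1 (x + δ / 2) with ht
  have hs0 : r0 ≤ s := le_max_left _ _
  have ht1 : t ≤ r1 := min_le_left _ _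
  have hsx : s ≤ x := max_le hx.1 (by linarith)
  have hxt : x ≤ t := le_min hx.2 (by linarith)
  have hst : s < t := by
    rcases lt_or_eq_of_le hsx with h | h
    · exact h.trans_le hxt
    rcases lt_or_eq_of_le hxt with h' | h'
    · exact hsx.trans_lt h'
    exfalso
    have e1 : x = r0 := by
      rcases le_total r0 (x - δ / 2) with h2 | h2
      · rw [hs, max_eq_right h2] at h
        linarith
      · rw [hs, max_eq_left h2] at h
        exact h.symm
    have e2 : x = r1 := by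
      rcases le_total r1 (x + δ / 2) with h2 | h2
      · rw [ht, min_eq_left h2] at h'
        exact h'
      · rw [ht, min_eq_right h2] at h'
        linarith
    linarith
  have hlt : ∀ y ∈ Icc s t, M (al y) < kmin := by
    intro y hy
    refine hball y ?_ ⟨hs0.trans hy.1, hy.2.trans ht1⟩
    rw [Real.dist_eq, abs_lt]
    have e1 : x - δ / 2 ≤ s := le_max_right _ _
    have e2 : t ≤ x + δ / 2 := min_le_right _ _
    constructor <;> linarith [hy.1, hy.2]
  have h1 := (B.lower O hs0 hst.le ht1).trans (B.hi s t hs0 hst.le ht1)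
  have h2 : ∫ y in s..t, M (al y) < ∫ _y in s..t, kmin := by
    apply intervalIntegral.integral_lt_integral_of_continuousOn_of_le_of_exists_lt hst
      (hc.mono (Icc_subset_Icc hs0 ht1)) continuousOn_const
    · intro y hy
      exact (hlt y ⟨hy.1.le, hy.2⟩).le
    · exact ⟨s, left_mem_Icc.2 hst.le, hlt s (left_mem_Icc.2 hst.le)⟩
  rw [intervalIntegral.integral_const, smul_eq_mul] at h2
  linarith

theorem TlBox.cap (B : TlBox k M r0 r1 u0 u1 al) (O : TlOk k M r0 r1 u0 u1 kmin Mmax) (h01 : r0 < r1) :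
    TlCap M u0 u1 kmin Mmax := ⟨B.u01 O, O.kmin0, O.Mcont, B.M_ge O h01, O.Mle⟩

/-- **travel time / barrier by the cap flow**: `∫_{al s}^{al t} du / M(u) ≤ t - s` -/
theorem TlBox.travel_le (B : TlBox k M r0 r1 u0 u1 al) (O : TlOk k M r0 r1 u0 u1 kmin Mmax) {s t : ℝ}
    (hs : r0 ≤ s) (hst : s ≤ t) (ht : t ≤ r1) : ∫ u in al s..al t, 1 / M u ≤ t - s := by
  rcases eq_or_lt_of_le hst with h | h
  · subst h
    simp
  have h01 : r0 < r1 := (hs.trans_lt h).trans_le ht
  have C := B.cap O h01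
  rw [← B.integral_comp_deriv O (fun u => 1 / M u) hs hst ht]
  have h1 : ∫ _x in s..t, (1 : ℝ) = t - s := by simp
  rw [← h1]
  have hs' := B.mem O ⟨hs, hst.trans ht⟩
  have ht' := B.mem O ⟨hs.trans hst, ht⟩
  apply intervalIntegral.integral_mono_ae_restrict hst _ intervalIntegrable_const
  · rw [EventuallyLE, ae_restrict_iff' measurableSet_Icc]
    filter_upwards [B.ae_deriv O] with x hx hx'
    have hx2 : x ∈ Icc r0 r1 := ⟨hs.trans hx'.1, hx'.2.trans ht⟩
    have hpos : 0 < M (al x) := C.kmin0.trans_le (C.Mge _ (B.mem O hx2))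
    rw [smul_eq_mul, mul_one_div, div_le_one hpos]
    exact (hx hx2).2.2
  · rw [(B.restrict hs ht).integrable_comp_deriv_iff (O.restrict hs hst ht hs'.1 ht'.2) (fun u => 1 / M u)]
    exact C.inv_int hs'.1 (B.monoOn O ⟨hs, hst.trans ht⟩ ⟨hs.trans hst, ht⟩ hst) ht'.2

theorem TlBox.travel_le' (B : TlBox k M r0 r1 u0 u1 al) (O : TlOk k M r0 r1 u0 u1 kmin Mmax) (h01 : r0 < r1) {s t : ℝ}
    (hs : r0 ≤ s) (hst : s ≤ t) (ht : t ≤ r1) : tlT M u0 (al t) - tlT M u0 (al s) ≤ t - s := by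
  rw [(B.cap O h01).T_sub (B.mem O ⟨hs, hst.trans ht⟩).1 (B.monoOn O ⟨hs, hst.trans ht⟩ ⟨hs.trans hst, ht⟩ hst)
    (B.mem O ⟨hs.trans hst, ht⟩).2]
  exact B.travel_le O hs hst ht

/-- the quantile form of the travel time bound: `∫_u^v dw / M(w) ≤ r v - r u` -/
theorem TlQ.travel_le (Q : TlQ al r0 r1 u0 u1 r) (B : TlBox k M r0 r1 u0 u1 al) (O : TlOk k M r0 r1 u0 u1 kmin Mmax)
    {u v : ℝ} (hu : u0 ≤ u) (huv : u ≤ v) (hv : v ≤ u1) : ∫ w in u..v, 1 / M w ≤ r v - r u := by
  have hu' : u ∈ Icc u0 u1 := ⟨hu, huv.trans hv⟩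
  have hv' : v ∈ Icc u0 u1 := ⟨hu.trans huv, hv⟩
  have := B.travel_le O (Q.mem u hu').1 (Q.monoOn B O hu' hv' huv) (Q.mem v hv').2
  rwa [Q.al_r u hu', Q.al_r v hv'] at this

/-- **characterisation of nonemptiness** -/
theorem tl_252_nonempty_iff (O : TlOk k M r0 r1 u0 u1 kmin Mmax) (hkM : ∀ r ∈ Icc r0 r1, ∀ u ∈ Icc u0 u1, k r ≤ M u) :
    (∃ al, TlBox k M r0 r1 u0 u1 al) ↔ (∫ x in r0..r1, k x ≤ u1 - u0 ∧ ∫ u in u0..u1, 1 / M u ≤ r1 - r0) := by
  constructor
  · rintro ⟨al, B⟩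
    constructor
    · have := B.lo r0 r1 le_rfl O.r01 le_rfl
      rwa [B.left, B.right] at this
    · have := B.travel_le O le_rfl O.r01 le_rfl
      rwa [B.left, B.right] at this
  · rintro ⟨h1, h2⟩
    exact tl_252_nonempty O hkM h1 h2

/-- composition with the quantile preserves integrability -/
theorem TlQ.intervalIntegrable_comp {F : Type*} [NormedAddCommGroup F] [NormedSpace ℝ F] (Q : TlQ al r0 r1 u0 u1 r)
    (B : TlBox k M r0 r1 u0 u1 al) (O : TlOk k M r0 r1 u0 u1 kmin Mmax) {g : ℝ → F}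
    (hg : IntervalIntegrable g volume r0 r1) : IntervalIntegrable (fun u => g (r u)) volume u0 u1 := by
  rw [← B.integrable_comp_deriv_iff O]
  rw [intervalIntegrable_iff_integrableOn_Icc_of_le O.r01] at hg ⊢
  have h1 : IntegrableOn (fun x => deriv al x • g x) (Icc r0 r1) := by
    apply Integrable.bdd_smul hg (max |kmin| |Mmax|) (measurable_deriv al).aestronglyMeasurable
    rw [ae_restrict_iff' measurableSet_Icc]
    filter_upwards [B.ae_deriv_bd O] with x hx hx'
    rw [Real.norm_eq_abs]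
    exact abs_le_max_abs_abs (hx hx').1 (hx hx').2
  refine h1.congr_fun ?_ measurableSet_Icc
  intro x hx
  simp only
  rw [Q.r_al B O hx]

end density

end

end Claimed.Agent.R286
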