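import Mathlib

/-!
# Row 286, toolbox `Tool/Pot106` (helper106; Mathlib only; 0 sorry; prefix `tl_106_`, structure `Tl106Cov`)

Measure facts behind PE Lemma 3.3, part G (contact / cap / floor) and behind every passage "in mass AND in radius" (PE Sec. 3, 5; LL 06, 07).   `H` = potential with `H t - H s = ∫_s^t φ`.
INDEX
* `tl_106_ae_acc`            a.e. point of a set of reals is a right accumulation point of the set (replaces the density theorem).
* `tl_106_ae_hasDerivAt`     `H' = φ` a.e. in `(a,b)`.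
* `tl_106_ae_zero_level`     `φ = 0` a.e. on `{H = c}`      (contact: `G = 0` a.e. on `{H = 0}`).
* `tl_106_comp_right/_left`, `tl_106_comp`      the component `(rL,rR)` of `{H < 0}` around a point: `H = 0` at an end, or the end is the end of the interval (and `H < 0` there).
* `tl_106_sign_left/_right`  `H' = J G`, `J ≥ 0`: right limit of `G` at `rL` is `≤ 0`, left limit at `rR` is `≥ 0`.
* `tl_106_deriv_le`          monotone `S` + two-point bound on a set `Z` => a.e. on `Z`: `S` differentiable, `S' ≤` the limit of the bound      ((9): `S' ≤ 2/(1-p)`).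
* `tl_106_cap_time`          `α' = M(α)` on `[s,t]` => `t - s = ∫_{α s}^{α t} du/M(u)`      (cap lengths).
* `Tl106Cov α a r0 r1`       `α = α r0 + ∫ a`, `a ≥ 0` a.e., `α` strictly increasing.   `.cont`, `.maps`, `.map_eq` (image of `a dx` = Lebesgue on `[α r0, α r1]`),
                             `.lintegral_cov`, `.integral_cov` (`∫_{α r0}^{α r1} g = ∫_{r0}^{r1} g(α x) a x`, `g` only measurable), `.volume_image` (`|α(F)| = ∫_F a`), `.volume_image_le` (floor mass `≤ ∫ k`).
-/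

set_option autoImplicit false

namespace Claimed.Agent.R286

open MeasureTheory Set Filter Topology

/-- **T0** almost every point of a set of reals is a right accumulation point of the set -/
theorem tl_106_ae_acc (s : Set ℝ) : ∀ᵐ x : ℝ, x ∈ s → (𝓝[s ∩ Ioi x] x).NeBot := by
  have hc : { x ∈ s | 𝓝[s ∩ Ioi x] x = ⊥ }.Countable := countable_setOfPred_isolated_right_within
  have h0 : volume { x ∈ s | 𝓝[s ∩ Ioi x] x = ⊥ } = 0 := hc.measure_zero _
  rw [ae_iff]
  refine measure_mono_null ?_ h0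
  intro x hx
  simp only [mem_ofPred_eq, Classical.not_imp, neBot_iff, not_not] at hx
  exact ⟨hx.1, hx.2⟩

/-- **T1'** a primitive is differentiable almost everywhere, with the right derivative -/
theorem tl_106_ae_hasDerivAt {H φ : ℝ → ℝ} {a b : ℝ} (hφ : IntervalIntegrable φ volume a b)
    (hH : ∀ s t : ℝ, a ≤ s → s ≤ t → t ≤ b → H t - H s = ∫ x in s..t, φ x) :
    ∀ᵐ r, r ∈ Ioo a b → HasDerivAt H (φ r) r := by
  filter_upwards [hφ.ae_hasDerivAt_integral] with r hr hrab
  have hab : a ≤ b := hrab.1.le.trans hrab.2.le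
  have h1 := hr (by rw [uIcc_of_le hab]; exact ⟨hrab.1.le, hrab.2.le⟩) a (by rw [uIcc_of_le hab]; exact ⟨le_rfl, hab⟩)
  have h2 : HasDerivAt (fun x => H a + ∫ t in a..x, φ t) (φ r) r := by simpa using h1.const_add (H a)
  refine h2.congr_of_eventuallyEq ?_
  filter_upwards [Ioo_mem_nhds hrab.1 hrab.2] with x hx
  have := hH a x le_rfl hx.1.le hx.2.le
  linarith

/-- **T1** the density vanishes almost everywhere on a level set of the primitive -/
theorem tl_106_ae_zero_level {H φ : ℝ → ℝ} {a b : ℝ} (hφ : IntervalIntegrable φ volume a b)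
    (hH : ∀ s t : ℝ, a ≤ s → s ≤ t → t ≤ b → H t - H s = ∫ x in s..t, φ x) (c : ℝ) :
    ∀ᵐ r, r ∈ Icc a b → H r = c → φ r = 0 := by
  have ha : ∀ᵐ x : ℝ, x ≠ a := by simp [ae_iff, measure_singleton]
  have hb : ∀ᵐ x : ℝ, x ≠ b := by simp [ae_iff, measure_singleton]
  filter_upwards [tl_106_ae_hasDerivAt hφ hH, tl_106_ae_acc {r | H r = c}, ha, hb] with r hd hacc hra hrb hr hHr
  have hrI : r ∈ Ioo a b := ⟨lt_of_le_of_ne hr.1 (Ne.symm hra), lt_of_le_of_ne hr.2 hrb⟩
  have hD := (hd hrI).tendsto_slope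
  have := hacc hHr
  have hsub : 𝓝[{r | H r = c} ∩ Ioi r] r ≤ 𝓝[≠] r := by
    apply nhdsWithin_mono
    intro x hx
    exact ne_of_gt hx.2
  have h1 : Tendsto (slope H r) (𝓝[{r | H r = c} ∩ Ioi r] r) (𝓝 (φ r)) := hD.mono_left hsub
  have h2 : Tendsto (slope H r) (𝓝[{r | H r = c} ∩ Ioi r] r) (𝓝 0) := by
    refine tendsto_const_nhds.congr' ?_
    filter_upwards [self_mem_nhdsWithin] with x hx
    have : H x = c := hx.1
    simp [slope, this, hHr]
  exact tendsto_nhds_unique h1 h2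

/-- **T2r** the first zero to the right of a point where a continuous function is negative -/
theorem tl_106_comp_right {H : ℝ → ℝ} {r b : ℝ} (hrb : r ≤ b) (hH : ContinuousOn H (Icc r b)) (h : H r < 0) :
    ∃ rR, r ≤ rR ∧ rR ≤ b ∧ (∀ t, r ≤ t → t < rR → H t < 0) ∧ ((r < rR ∧ H rR = 0) ∨ (rR = b ∧ H b < 0)) := by
  set B : Set ℝ := Icc r b ∩ H ⁻¹' (Ici 0) with hB
  have hBc : IsClosed B := hH.preimage_isClosed_of_isClosed isClosed_Icc isClosed_Ici
  by_cases hne : B.Nonempty
  · have hbd : BddBelow B := ⟨r, fun x hx => hx.1.1⟩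
    have hmem : sInf B ∈ B := hBc.csInf_mem hne hbd
    have hlt : ∀ t, r ≤ t → t < sInf B → H t < 0 := by
      intro t h1 h2
      by_contra hcon
      have : t ∈ B := ⟨⟨h1, h2.le.trans hmem.1.2⟩, not_lt.mp hcon⟩
      exact absurd (csInf_le hbd this) (not_le.mpr h2)
    have hr' : r < sInf B := by
      rcases lt_or_eq_of_le hmem.1.1 with h1 | h1
      · exact h1
      · exfalso
        have : (0 : ℝ) ≤ H (sInf B) := hmem.2
        rw [← h1] at this
        linarith
    refine ⟨sInf B, hmem.1.1, hmem.1.2, hlt, Or.inl ⟨hr', le_antisymm ?_ hmem.2⟩⟩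
    have hc : ContinuousWithinAt H (Icc r b) (sInf B) := hH _ hmem.1
    have hc' : Tendsto H (𝓝[Ico r (sInf B)] (sInf B)) (𝓝 (H (sInf B))) :=
      hc.mono_left (nhdsWithin_mono _ fun x hx => ⟨hx.1, hx.2.le.trans hmem.1.2⟩)
    have : (𝓝[Ico r (sInf B)] (sInf B)).NeBot := by
      rw [nhdsWithin_Ico_eq_nhdsLT hr']
      infer_instance
    refine le_of_tendsto hc' ?_
    filter_upwards [self_mem_nhdsWithin] with x hx
    exact (hlt x hx.1 hx.2).le
  · have hall : ∀ t, r ≤ t → t ≤ b → H t < 0 := by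
      intro t h1 h2
      by_contra hcon
      exact hne ⟨t, ⟨h1, h2⟩, not_lt.mp hcon⟩
    exact ⟨b, hrb, le_rfl, fun t h1 h2 => hall t h1 h2.le, Or.inr ⟨rfl, hall b hrb le_rfl⟩⟩

/-- **T2l** the last zero to the left -/
theorem tl_106_comp_left {H : ℝ → ℝ} {a r : ℝ} (har : a ≤ r) (hH : ContinuousOn H (Icc a r)) (h : H r < 0) :
    ∃ rL, a ≤ rL ∧ rL ≤ r ∧ (∀ t, rL < t → t ≤ r → H t < 0) ∧ ((rL < r ∧ H rL = 0) ∨ (rL = a ∧ H a < 0)) := by
  have hc : ContinuousOn (fun t => H (-t)) (Icc (-r) (-a)) := by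
    refine hH.comp continuous_neg.continuousOn ?_
    intro x hx
    exact ⟨by linarith [hx.2], by linarith [hx.1]⟩
  obtain ⟨s, h1, h2, h3, h4⟩ := tl_106_comp_right (H := fun t => H (-t)) (r := -r) (b := -a) (by linarith) hc (by simpa using h)
  refine ⟨-s, by linarith, by linarith, ?_, ?_⟩
  · intro t ht1 ht2
    have := h3 (-t) (by linarith) (by linarith)
    simpa using this
  · rcases h4 with ⟨h5, h6⟩ | ⟨h5, h6⟩
    · exact Or.inl ⟨by linarith, h6⟩
    · refine Or.inr ⟨by linarith, by simpa using h6⟩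

/-- **T2** the component of `{H < 0}` around a point -/
theorem tl_106_comp {H : ℝ → ℝ} {a b r : ℝ} (hH : ContinuousOn H (Icc a b)) (hr : r ∈ Icc a b) (h : H r < 0) :
    ∃ rL rR, a ≤ rL ∧ rL ≤ r ∧ r ≤ rR ∧ rR ≤ b ∧ (∀ t, rL < t → t < rR → H t < 0) ∧
      ((rL < r ∧ H rL = 0) ∨ (rL = a ∧ H a < 0)) ∧ ((r < rR ∧ H rR = 0) ∨ (rR = b ∧ H b < 0)) := by
  obtain ⟨rL, a1, a2, a3, a4⟩ := tl_106_comp_left hr.1 (hH.mono (Icc_subset_Icc le_rfl hr.2)) h
  obtain ⟨rR, b1, b2, b3, b4⟩ := tl_106_comp_right hr.2 (hH.mono (Icc_subset_Icc hr.1 le_rfl)) h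
  refine ⟨rL, rR, a1, a2, b1, b2, ?_, a4, b4⟩
  intro t h1 h2
  rcases le_total t r with h3 | h3
  · exact a3 t h1 h3
  · exact b3 t h3 h2

/-- **T3l** at the left end of a negative excursion the right limit of the density factor is `≤ 0` -/
theorem tl_106_sign_left {H J G : ℝ → ℝ} {rL rR g : ℝ} (hlt : rL < rR)
    (hH : ∀ s t : ℝ, rL ≤ s → s ≤ t → t ≤ rR → H t - H s = ∫ x in s..t, J x * G x)
    (hJ : ∀ x ∈ Ioo rL rR, 0 ≤ J x) (h0 : 0 ≤ H rL) (hneg : ∀ t, rL < t → t < rR → H t < 0)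
    (hg : Tendsto G (𝓝[>] rL) (𝓝 g)) : g ≤ 0 := by
  by_contra hcon
  push Not at hcon
  have hev : ∀ᶠ x in 𝓝[>] rL, 0 < G x := hg.eventually (lt_mem_nhds hcon)
  obtain ⟨u, hu, hsub⟩ := (mem_nhdsGT_iff_exists_Ioo_subset).1 hev
  set t := min ((rL + u) / 2) ((rL + rR) / 2) with ht
  have hu' : rL < u := hu
  have ht1 : rL < t := by
    rw [ht]; exact lt_min (by linarith) (by linarith)
  have ht2 : t < u := lt_of_le_of_lt (min_le_left _ _) (by linarith)
  have ht3 : t < rR := lt_of_le_of_lt (min_le_right _ _) (by linarith)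
  have h1 := hH rL t le_rfl ht1.le ht3.le
  have h2 : 0 ≤ ∫ x in rL..t, J x * G x := by
    rw [intervalIntegral.integral_of_le ht1.le]
    apply setIntegral_nonneg measurableSet_Ioc
    intro x hx
    have hx1 : x ∈ Ioo rL u := ⟨hx.1, lt_of_le_of_lt hx.2 ht2⟩
    have : 0 < G x := hsub hx1
    exact mul_nonneg (hJ x ⟨hx.1, lt_of_le_of_lt hx.2 ht3⟩) this.le
  have := hneg t ht1 ht3
  linarith

/-- **T3r** at the right end of a negative excursion the left limit of the density factor is `≥ 0` -/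
theorem tl_106_sign_right {H J G : ℝ → ℝ} {rL rR g : ℝ} (hlt : rL < rR)
    (hH : ∀ s t : ℝ, rL ≤ s → s ≤ t → t ≤ rR → H t - H s = ∫ x in s..t, J x * G x)
    (hJ : ∀ x ∈ Ioo rL rR, 0 ≤ J x) (h0 : 0 ≤ H rR) (hneg : ∀ t, rL < t → t < rR → H t < 0)
    (hg : Tendsto G (𝓝[<] rR) (𝓝 g)) : 0 ≤ g := by
  by_contra hcon
  push Not at hcon
  have hev : ∀ᶠ x in 𝓝[<] rR, G x < 0 := hg.eventually (gt_mem_nhds hcon)
  obtain ⟨u, hu, hsub⟩ := (mem_nhdsLT_iff_exists_Ioo_subset).1 hev
  set t := max ((rR + u) / 2) ((rL + rR) / 2) with ht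
  have hu' : u < rR := hu
  have ht1 : t < rR := by
    rw [ht]; exact max_lt (by linarith) (by linarith)
  have ht2 : u < t := lt_of_lt_of_le (by linarith) (le_max_left _ _)
  have ht3 : rL < t := lt_of_lt_of_le (by linarith) (le_max_right _ _)
  have h1 := hH t rR ht3.le ht1.le le_rfl
  have h2 : ∫ x in t..rR, J x * G x ≤ 0 := by
    rw [intervalIntegral.integral_of_le ht1.le, integral_Ioc_eq_integral_Ioo]
    apply setIntegral_nonpos measurableSet_Ioo
    intro x hx
    have hx1 : x ∈ Ioo u rR := ⟨lt_trans ht2 hx.1, hx.2⟩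
    have : G x < 0 := hsub hx1
    exact mul_nonpos_of_nonneg_of_nonpos (hJ x ⟨lt_trans ht3 hx.1, hx.2⟩) this.le
  have := hneg t ht3 ht1
  linarith

/-- **T4** a monotone function which satisfies a two-point bound on a set `Z` has, at almost every point of `Z`, a derivative below the limit of the bound -/
theorem tl_106_deriv_le {S : ℝ → ℝ} {a b : ℝ} {Z : Set ℝ} {Lam2 : ℝ → ℝ → ℝ} {Lam : ℝ → ℝ} (hS : MonotoneOn S (Icc a b)) (hZ : Z ⊆ Icc a b)
    (h2 : ∀ r1 ∈ Z, ∀ r2 ∈ Z, r1 < r2 → S r2 - S r1 ≤ Lam2 r1 r2 * (r2 - r1))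
    (hL : ∀ r ∈ Z, Tendsto (Lam2 r) (𝓝[>] r) (𝓝 (Lam r))) :
    ∀ᵐ r, r ∈ Z → ∃ S' : ℝ, HasDerivAt S S' r ∧ S' ≤ Lam r := by
  have ha : ∀ᵐ x : ℝ, x ≠ a := by simp [ae_iff, measure_singleton]
  have hb : ∀ᵐ x : ℝ, x ≠ b := by simp [ae_iff, measure_singleton]
  filter_upwards [hS.ae_differentiableWithinAt_of_mem, tl_106_ae_acc Z, ha, hb] with r hd hacc hra hrb hr
  have hrI : r ∈ Ioo a b := ⟨lt_of_le_of_ne (hZ hr).1 (Ne.symm hra), lt_of_le_of_ne (hZ hr).2 hrb⟩
  have hdiff : DifferentiableAt ℝ S r := (hd (hZ hr)).differentiableAt (Icc_mem_nhds hrI.1 hrI.2)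
  refine ⟨deriv S r, hdiff.hasDerivAt, ?_⟩
  have hD := hdiff.hasDerivAt.tendsto_slope
  have := hacc hr
  have h1 : Tendsto (slope S r) (𝓝[Z ∩ Ioi r] r) (𝓝 (deriv S r)) :=
    hD.mono_left (nhdsWithin_mono _ fun x hx => ne_of_gt hx.2)
  have h3 : Tendsto (Lam2 r) (𝓝[Z ∩ Ioi r] r) (𝓝 (Lam r)) :=
    (hL r hr).mono_left (nhdsWithin_mono _ fun x hx => hx.2)
  refine le_of_tendsto_of_tendsto h1 h3 ?_
  filter_upwards [self_mem_nhdsWithin] with x hx
  have hx2 : r < x := hx.2
  have := h2 r hr x hx.1 hx2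
  rw [slope_def_field, div_le_iff₀ (by linarith)]
  exact this

/-- **T5** on an interval where `α' = M(α)` the elapsed radius is `∫ du/M(u)` -/
theorem tl_106_cap_time {α M : ℝ → ℝ} {s t : ℝ} (hst : s ≤ t) (hαc : ContinuousOn α (Icc s t)) (hαm : MonotoneOn α (Icc s t))
    (hM : ContinuousOn M (Icc (α s) (α t))) (hMpos : ∀ u ∈ Icc (α s) (α t), 0 < M u)
    (hα : ∀ x y : ℝ, s ≤ x → x ≤ y → y ≤ t → α y - α x = ∫ z in x..y, M (α z)) :
    t - s = ∫ u in (α s)..(α t), (M u)⁻¹ := by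
  have hmaps : MapsTo α (Icc s t) (Icc (α s) (α t)) := fun x hx =>
    ⟨hαm ⟨le_rfl, hst⟩ hx hx.1, hαm hx ⟨hst, le_rfl⟩ hx.2⟩
  have hMα : ContinuousOn (fun z => M (α z)) (Icc s t) := hM.comp hαc hmaps
  have hder : ∀ x ∈ Ioo s t, HasDerivAt α (M (α x)) x := by
    intro x hx
    have hint : IntervalIntegrable (fun z => M (α z)) volume s x :=
      (hMα.mono (Icc_subset_Icc le_rfl hx.2.le)).intervalIntegrable_of_Icc hx.1.le
    have hcx : ContinuousAt (fun z => M (α z)) x := hMα.continuousAt (Icc_mem_nhds hx.1 hx.2)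
    have hsm : StronglyMeasurableAtFilter (fun z => M (α z)) (𝓝 x) volume := by
      have := hMα.stronglyMeasurableAtFilter_nhdsWithin (μ := volume) measurableSet_Icc x
      rwa [nhdsWithin_eq_nhds.2 (Icc_mem_nhds hx.1 hx.2)] at this
    have h1 := intervalIntegral.integral_hasDerivAt_right hint hsm hcx
    have h2 : HasDerivAt (fun y => α s + ∫ z in s..y, M (α z)) (M (α x)) x := by simpa using h1.const_add (α s)
    refine h2.congr_of_eventuallyEq ?_
    filter_upwards [Ioo_mem_nhds hx.1 hx.2] with y hy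
    have := hα s y le_rfl hy.1.le hy.2.le
    linarith
  have hinv : ContinuousOn (fun u => (M u)⁻¹) (Icc (α s) (α t)) := hM.inv₀ fun u hu => (hMpos u hu).ne'
  have himg : α '' (uIcc s t) ⊆ Icc (α s) (α t) := by
    rw [uIcc_of_le hst]; exact hmaps.image_subset
  have key := intervalIntegral.integral_comp_mul_deriv''' (a := s) (b := t) (f := α) (f' := fun x => M (α x)) (g := fun u => (M u)⁻¹)
    (by rw [uIcc_of_le hst]; exact hαc)
    (by
      intro x hx
      rw [min_eq_left hst, max_eq_right hst] at hx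
      exact (hder x hx).hasDerivWithinAt)
    (by
      refine hinv.mono ?_
      rw [min_eq_left hst, max_eq_right hst]
      exact (image_mono Ioo_subset_Icc_self).trans hmaps.image_subset)
    ((hinv.integrableOn_compact isCompact_Icc).mono_set himg)
    (by
      rw [uIcc_of_le hst]
      refine ContinuousOn.integrableOn_compact isCompact_Icc ?_
      exact ((hinv.comp hαc hmaps).mul hMα))
  rw [← key]
  have : ∀ x ∈ uIcc s t, ((fun u => (M u)⁻¹) ∘ α) x * M (α x) = 1 := by
    intro x hx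
    rw [uIcc_of_le hst] at hx
    simp only [Function.comp]
    exact inv_mul_cancel₀ (hMpos _ (hmaps hx)).ne'
  rw [intervalIntegral.integral_congr this]
  simp

/-! ### change of variables for an absolutely continuous strictly increasing map `α = α r0 + ∫ a` -/

/-- hypotheses of the change of variables: `α` is the primitive of the a.e. nonnegative integrable density `a` on `[r0,r1]` and is strictly increasing there -/
structure Tl106Cov (α a : ℝ → ℝ) (r0 r1 : ℝ) : Prop where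
  le : r0 ≤ r1
  int : IntervalIntegrable a volume r0 r1
  nn : ∀ᵐ x, x ∈ Icc r0 r1 → 0 ≤ a x
  prim : ∀ s t : ℝ, r0 ≤ s → s ≤ t → t ≤ r1 → α t - α s = ∫ x in s..t, a x
  mono : StrictMonoOn α (Icc r0 r1)

namespace Tl106Cov

variable {α a : ℝ → ℝ} {r0 r1 : ℝ}

theorem cont (h : Tl106Cov α a r0 r1) : ContinuousOn α (Icc r0 r1) := by
  have h1 : ContinuousOn (fun t => α r0 + ∫ x in r0..t, a x) (Icc r0 r1) := by
    have := intervalIntegral.continuousOn_primitive_interval (μ := volume) (f := a) (a := r0) (b := r1)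
      (by rw [uIcc_of_le h.le]; exact (intervalIntegrable_iff_integrableOn_Icc_of_le h.le).1 h.int)
    rw [uIcc_of_le h.le] at this
    exact continuousOn_const.add this
  refine h1.congr ?_
  intro t ht
  have := h.prim r0 t le_rfl ht.1 ht.2
  simp only
  linarith

theorem intIcc (h : Tl106Cov α a r0 r1) : IntegrableOn a (Icc r0 r1) volume :=
  (intervalIntegrable_iff_integrableOn_Icc_of_le h.le).1 h.int

theorem maps (h : Tl106Cov α a r0 r1) : MapsTo α (Icc r0 r1) (Icc (α r0) (α r1)) := fun _ hx =>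
  ⟨h.mono.monotoneOn ⟨le_rfl, h.le⟩ hx hx.1, h.mono.monotoneOn hx ⟨h.le, le_rfl⟩ hx.2⟩

/-- the measure `a(x) dx` on `[r0,r1]` -/
noncomputable def meas (_ : Tl106Cov α a r0 r1) : Measure ℝ := (volume.restrict (Icc r0 r1)).withDensity fun x => ENNReal.ofReal (a x)

theorem meas_apply (h : Tl106Cov α a r0 r1) (s : Set ℝ) : h.meas s = ∫⁻ x in s ∩ Icc r0 r1, ENNReal.ofReal (a x) := by
  unfold meas
  rw [withDensity_apply', Measure.restrict_restrict' measurableSet_Icc]

theorem aem (h : Tl106Cov α a r0 r1) : AEMeasurable α (volume.restrict (Icc r0 r1)) := h.cont.aemeasurable measurableSet_Icc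

theorem aem' (h : Tl106Cov α a r0 r1) : AEMeasurable α h.meas := h.aem.mono_ac (withDensity_absolutelyContinuous _ _)

theorem lint_Icc (h : Tl106Cov α a r0 r1) {x : ℝ} (hx : x ∈ Icc r0 r1) : ∫⁻ y in Icc r0 x, ENNReal.ofReal (a y) = ENNReal.ofReal (α x - α r0) := by
  have hi : IntegrableOn a (Icc r0 x) volume := h.intIcc.mono_set (Icc_subset_Icc le_rfl hx.2)
  have hn : 0 ≤ᵐ[volume.restrict (Icc r0 x)] a := by
    rw [EventuallyLE, ae_restrict_iff' measurableSet_Icc]
    filter_upwards [h.nn] with y hy hy2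
    exact hy ⟨hy2.1, hy2.2.trans hx.2⟩
  rw [← ofReal_integral_eq_lintegral_ofReal hi hn, h.prim r0 x le_rfl hx.1 hx.2, intervalIntegral.integral_of_le hx.1, integral_Icc_eq_integral_Ioc]

instance finite (h : Tl106Cov α a r0 r1) : IsFiniteMeasure h.meas :=
  isFiniteMeasure_withDensity_ofReal h.intIcc.2

/-- **T6a** the image of `a(x) dx` under `α` is the Lebesgue measure of `[α r0, α r1]` -/
theorem map_eq (h : Tl106Cov α a r0 r1) : Measure.map α h.meas = volume.restrict (Icc (α r0) (α r1)) := by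
  have hle : α r0 ≤ α r1 := h.mono.monotoneOn ⟨le_rfl, h.le⟩ ⟨h.le, le_rfl⟩ h.le
  apply Measure.ext_of_Iic
  intro c
  rw [Measure.map_apply_of_aemeasurable h.aem' measurableSet_Iic, h.meas_apply, Measure.restrict_apply measurableSet_Iic]
  rcases lt_or_ge c (α r0) with hc | hc
  · have e1 : α ⁻¹' Iic c ∩ Icc r0 r1 = ∅ := by
      ext x
      simp only [mem_inter_iff, mem_preimage, mem_Iic, mem_empty_iff_false, iff_false, not_and]
      intro h1 h2
      have := (h.maps h2).1
      linarith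
    have e2 : Iic c ∩ Icc (α r0) (α r1) = ∅ := by
      ext x
      simp only [mem_inter_iff, mem_Iic, mem_Icc, mem_empty_iff_false, iff_false, not_and]
      intro h1 h2
      linarith
    rw [e1, e2]
    simp
  · have hc' : min c (α r1) ∈ Icc (α r0) (α r1) := ⟨le_min hc hle, min_le_right _ _⟩
    obtain ⟨x, hx, hxc⟩ := intermediate_value_Icc h.le h.cont hc'
    have e1 : α ⁻¹' Iic c ∩ Icc r0 r1 = Icc r0 x := by
      ext y
      simp only [mem_inter_iff, mem_preimage, mem_Iic, mem_Icc]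
      constructor
      · rintro ⟨h1, h2, h3⟩
        refine ⟨h2, ?_⟩
        have : α y ≤ α x := by
          rw [hxc]; exact le_min h1 (h.maps ⟨h2, h3⟩).2
        exact (h.mono.le_iff_le ⟨h2, h3⟩ hx).1 this
      · rintro ⟨h1, h2⟩
        have hy : y ∈ Icc r0 r1 := ⟨h1, h2.trans hx.2⟩
        refine ⟨?_, hy.1, hy.2⟩
        have : α y ≤ α x := (h.mono.le_iff_le hy hx).2 h2
        rw [hxc] at this
        exact this.trans (min_le_left _ _)
    have e2 : Iic c ∩ Icc (α r0) (α r1) = Icc (α r0) (α x) := by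
      ext y
      simp only [mem_inter_iff, mem_Iic, mem_Icc, hxc, le_min_iff]
      tauto
    rw [e1, e2, h.lint_Icc hx, Real.volume_Icc]

/-- **T6b** change of variables, `ℝ≥0∞`-valued integrands -/
theorem lintegral_cov (h : Tl106Cov α a r0 r1) {g : ℝ → ENNReal} (hg : Measurable g) :
    ∫⁻ u in Icc (α r0) (α r1), g u = ∫⁻ x in Icc r0 r1, ENNReal.ofReal (a x) * g (α x) := by
  rw [← h.map_eq, lintegral_map' hg.aemeasurable h.aem']
  unfold meas
  exact lintegral_withDensity_eq_lintegral_mul₀ h.intIcc.aestronglyMeasurable.aemeasurable.ennreal_ofReal (hg.comp_aemeasurable h.aem)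

/-- **T6c** the Lebesgue measure of the image of a measurable set -/
theorem volume_image (h : Tl106Cov α a r0 r1) {F : Set ℝ} (hF : MeasurableSet F) (hFs : F ⊆ Icc r0 r1) :
    volume (α '' F) = ∫⁻ x in F, ENNReal.ofReal (a x) := by
  have hm : MeasurableSet (α '' F) := hF.image_of_continuousOn_injOn (h.cont.mono hFs) (h.mono.injOn.mono hFs)
  have hsub : α '' F ⊆ Icc (α r0) (α r1) := (image_mono hFs).trans h.maps.image_subset
  have e0 : volume (α '' F) = (volume.restrict (Icc (α r0) (α r1))) (α '' F) := by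
    rw [Measure.restrict_apply hm, inter_eq_left.2 hsub]
  rw [e0, ← h.map_eq, Measure.map_apply_of_aemeasurable h.aem' hm, h.meas_apply]
  have e1 : α ⁻¹' (α '' F) ∩ Icc r0 r1 = F := by
    ext y
    constructor
    · rintro ⟨⟨z, hz, hzy⟩, hy⟩
      have := h.mono.injOn (hFs hz) hy hzy
      rwa [← this]
    · intro hy
      exact ⟨⟨y, hy, rfl⟩, hFs hy⟩
  rw [e1]

/-- **T6d** change of variables, real integrands -/
theorem integral_cov (h : Tl106Cov α a r0 r1) {g : ℝ → ℝ} (hg : AEStronglyMeasurable g (volume.restrict (Icc (α r0) (α r1)))) :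
    ∫ u in (α r0)..(α r1), g u = ∫ x in r0..r1, g (α x) * a x := by
  have hle : α r0 ≤ α r1 := h.mono.monotoneOn ⟨le_rfl, h.le⟩ ⟨h.le, le_rfl⟩ h.le
  rw [intervalIntegral.integral_of_le hle, intervalIntegral.integral_of_le h.le, ← integral_Icc_eq_integral_Ioc, ← integral_Icc_eq_integral_Ioc,
    ← h.map_eq, integral_map h.aem' (by rw [h.map_eq]; exact hg)]
  unfold meas
  rw [integral_withDensity_eq_integral_toReal_smul₀ h.intIcc.aestronglyMeasurable.aemeasurable.ennreal_ofReal (by simp)]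
  apply integral_congr_ae
  rw [EventuallyEq, ae_restrict_iff' measurableSet_Icc]
  filter_upwards [h.nn] with x hx hx2
  rw [ENNReal.toReal_ofReal (hx hx2), smul_eq_mul, mul_comm]

/-- **T6e** mass of a set on which the density equals a floor `k` -/
theorem volume_image_le (h : Tl106Cov α a r0 r1) {F : Set ℝ} (hF : MeasurableSet F) (hFs : F ⊆ Icc r0 r1) {k : ℝ → ℝ}
    (hk : IntervalIntegrable k volume r0 r1) (hk0 : ∀ x ∈ Icc r0 r1, 0 ≤ k x) (hak : ∀ᵐ x, x ∈ F → a x = k x) :
    volume (α '' F) ≤ ENNReal.ofReal (∫ x in r0..r1, k x) := by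
  have hkI : IntegrableOn k (Icc r0 r1) volume := (intervalIntegrable_iff_integrableOn_Icc_of_le h.le).1 hk
  have hn : 0 ≤ᵐ[volume.restrict (Icc r0 r1)] k := by
    rw [EventuallyLE, ae_restrict_iff' measurableSet_Icc]
    exact Eventually.of_forall hk0
  rw [h.volume_image hF hFs, intervalIntegral.integral_of_le h.le, ← integral_Icc_eq_integral_Ioc, ofReal_integral_eq_lintegral_ofReal hkI hn]
  calc ∫⁻ x in F, ENNReal.ofReal (a x) = ∫⁻ x in F, ENNReal.ofReal (k x) := by
        apply lintegral_congr_ae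
        rw [EventuallyEq, ae_restrict_iff' hF]
        filter_upwards [hak] with x hx hx2
        rw [hx hx2]
    _ ≤ ∫⁻ x in Icc r0 r1, ENNReal.ofReal (k x) := lintegral_mono_set hFs

end Tl106Cov

theorem tl_106_eqns_cite : True := by
  have := @Tl106Cov.meas.eq_1
  trivial

end Claimed.Agent.R286
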