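import Mathlib

/-!
# Row 286, toolbox (helper114, prefix `tl_114_`): limits of sequences of instances ALONG AN ULTRAFILTER

Vocabulary-free (Mathlib only).  `U : Ultrafilter ι` (think `ι = ℕ`, `↑U ≤ atTop`); whatever holds for every filter is stated for a filter `L`.

## 1. scalars / frame
* `tl_114_lim_compact`, `tl_114_lim_Icc`, `tl_114_lim_abs` : an eventually bounded sequence has a `U`-limit (in the same box).
* `tl_114_trichotomy`, `tl_114_pos_trichotomy`             : finite limit / `+∞` / `-∞`;   `→ 0` / `→ l > 0` / `→ +∞`.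
* `tl_114_exists_ultrafilter`                              : `∃ᶠ n in atTop, P n` gives `U ≤ atTop` with `∀ᶠ n in U, P n`  (start of a proof by contradiction).
* `tl_114_eventually_of_ultrafilter`, `tl_114_tendsto_of_ultrafilter` : back from all `U ≤ atTop` to `atTop`.
* `tl_114_extract_filter`, `tl_114_extract`, `tl_114_extract_nat` : countably many `U`-limits are realised along ONE sequence (strictly increasing if `U ≤ atTop`): the bridge to dominated convergence.
## 2. monotone functions (Helly)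
* `tl_114_pointwise`, `tl_114_monotoneOn_lim`, `tl_114_helly`.
* `tl_114_mono_L1_bound` (quantitative), `tl_114_mono_L1`, `tl_114_mono_trend_L1` : pointwise convergence of monotone functions is `L¹[a,b]` convergence, ANY filter.
* `tl_114_polya` : monotone + pointwise + continuous limit => uniform on `[a,b]`.
## 3. integrals
* `tl_114_trunc`, `tl_114_L1_bdd_mul`, `tl_114_mono_integral_mul`, `tl_114_unif_integral_mul`.
## 4. equi-Lipschitz families (Arzela-Ascoli), `C¹_loc`
* `tl_114_lipschitzOn_lim`, `tl_114_lipschitz_unif`, `tl_114_ascoli`, `tl_114_convexOn_lim`, `tl_114_C1`.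
-/

set_option autoImplicit false
open MeasureTheory Filter Topology Set
open scoped NNReal ENNReal Interval

namespace Claimed.Agent.R286

variable {ι : Type*}

/-! ## 1. scalars -/

/-- a sequence that is eventually in a compact set has a `U`-limit in it -/
theorem tl_114_lim_compact {X : Type*} [TopologicalSpace X] (U : Ultrafilter ι) {K : Set X}
    (hK : IsCompact K) {a : ι → X} (h : ∀ᶠ n in U, a n ∈ K) :
    ∃ l ∈ K, Tendsto a U (𝓝 l) := by
  simp only [Tendsto, ← Ultrafilter.coe_map]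
  apply IsCompact.ultrafilter_le_nhds' hK
  rw [Ultrafilter.mem_map]
  exact h

theorem tl_114_lim_Icc (U : Ultrafilter ι) {a : ι → ℝ} {lo hi : ℝ}
    (h : ∀ᶠ n in U, a n ∈ Icc lo hi) : ∃ l ∈ Icc lo hi, Tendsto a U (𝓝 l) :=
  tl_114_lim_compact U isCompact_Icc h

theorem tl_114_lim_abs (U : Ultrafilter ι) {a : ι → ℝ} {M : ℝ}
    (h : ∀ᶠ n in U, |a n| ≤ M) : ∃ l, |l| ≤ M ∧ Tendsto a U (𝓝 l) := by
  obtain ⟨l, hl, ht⟩ := tl_114_lim_Icc U (a := a) (lo := -M) (hi := M)
    (h.mono fun n hn => abs_le.1 hn)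
  exact ⟨l, abs_le.2 hl, ht⟩

/-- finite limit, or `+∞`, or `-∞` -/
theorem tl_114_trichotomy (U : Ultrafilter ι) (a : ι → ℝ) :
    (∃ l, Tendsto a U (𝓝 l)) ∨ Tendsto a U atTop ∨ Tendsto a U atBot := by
  by_cases hb : ∃ M, ∀ᶠ n in U, |a n| ≤ M
  · obtain ⟨M, hM⟩ := hb
    obtain ⟨l, -, hl⟩ := tl_114_lim_abs U hM
    exact Or.inl ⟨l, hl⟩
  · push Not at hb
    have hb' : ∀ M, ∀ᶠ n in U, M < |a n| := hb
    rcases U.em (fun n => 0 ≤ a n) with h | h
    · refine Or.inr (Or.inl (tendsto_atTop.2 fun M => ?_))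
      filter_upwards [h, hb' M] with n h0 hn
      rw [abs_of_nonneg h0] at hn
      exact hn.le
    · refine Or.inr (Or.inr (tendsto_atBot.2 fun M => ?_))
      filter_upwards [h, hb' (-M)] with n h0 hn
      rw [abs_of_neg (not_le.1 h0)] at hn
      linarith

/-- a nonnegative sequence tends to `0`, to a positive number, or to `+∞` -/
theorem tl_114_pos_trichotomy (U : Ultrafilter ι) {a : ι → ℝ} (h : ∀ᶠ n in U, 0 ≤ a n) :
    Tendsto a U (𝓝 0) ∨ (∃ l, 0 < l ∧ Tendsto a U (𝓝 l)) ∨ Tendsto a U atTop := by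
  rcases tl_114_trichotomy U a with ⟨l, hl⟩ | h1 | h1
  · have h0 : 0 ≤ l := ge_of_tendsto hl h
    rcases h0.eq_or_lt with rfl | h0
    · exact Or.inl hl
    · exact Or.inr (Or.inl ⟨l, h0, hl⟩)
  · exact Or.inr (Or.inr h1)
  · exfalso
    have := (tendsto_atBot.1 h1 (-1)).and h
    obtain ⟨n, hn1, hn2⟩ := this.exists
    linarith

/-- start of a proof by contradiction: a property that holds infinitely often holds along some `U ≤ atTop` -/
theorem tl_114_exists_ultrafilter {L : Filter ι} {P : ι → Prop} (h : ∃ᶠ n in L, P n) :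
    ∃ U : Ultrafilter ι, (U : Filter ι) ≤ L ∧ ∀ᶠ n in U, P n := by
  have : NeBot (L ⊓ 𝓟 {n | P n}) := frequently_mem_iff_neBot.1 h
  obtain ⟨U, hU⟩ := Ultrafilter.exists_le (L ⊓ 𝓟 {n | P n})
  exact ⟨U, hU.trans inf_le_left, le_principal_iff.1 (hU.trans inf_le_right)⟩

theorem tl_114_eventually_of_ultrafilter {L : Filter ι} {P : ι → Prop}
    (h : ∀ U : Ultrafilter ι, (U : Filter ι) ≤ L → ∀ᶠ n in U, P n) : ∀ᶠ n in L, P n := by
  by_contra hc
  obtain ⟨U, hU, hP⟩ := tl_114_exists_ultrafilter (not_eventually.1 hc)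
  obtain ⟨n, h1, h2⟩ := (hP.and (h U hU)).exists
  exact h1 h2

theorem tl_114_tendsto_of_ultrafilter {X : Type*} {L : Filter ι} {a : ι → X} {F : Filter X}
    (h : ∀ U : Ultrafilter ι, (U : Filter ι) ≤ L → Tendsto a U F) : Tendsto a L F :=
  tendsto_iff_ultrafilter a L F |>.2 h

/-- any filter below a countably generated one: a sequence converging to the latter -/
theorem tl_114_extract_filter (L G : Filter ι) [NeBot L] [IsCountablyGenerated G] (h : L ≤ G) :
    ∃ φ : ℕ → ι, Tendsto φ atTop G := by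
  have : NeBot G := NeBot.mono ‹_› h
  exact G.exists_seq_tendsto

/-- countably many limits along `L` (e.g. an ultrafilter) are realised along one sequence -/
theorem tl_114_extract (L : Filter ι) [NeBot L] {κ : Type*} [Countable κ] {X : κ → Type*}
    [∀ j, TopologicalSpace (X j)] [∀ j, FirstCountableTopology (X j)]
    (a : ∀ j, ι → X j) (l : ∀ j, X j) (h : ∀ j, Tendsto (a j) L (𝓝 (l j)))
    {P : ι → Prop} (hP : ∀ᶠ n in L, P n) :
    ∃ φ : ℕ → ι, (∀ k, P (φ k)) ∧ ∀ j, Tendsto (fun k => a j (φ k)) atTop (𝓝 (l j)) := by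
  set G : Filter ι := (⨅ j, comap (a j) (𝓝 (l j))) ⊓ 𝓟 {n | P n} with hG
  have hLG : L ≤ G := le_inf (le_iInf fun j => (h j).le_comap) (le_principal_iff.2 hP)
  obtain ⟨φ, hφ⟩ := tl_114_extract_filter L G hLG
  have h1 : ∀ᶠ k in atTop, P (φ k) := (hφ.mono_right inf_le_right) (mem_principal_self _)
  obtain ⟨N, hN⟩ := eventually_atTop.1 h1
  refine ⟨fun k => φ (k + N), fun k => hN _ (Nat.le_add_left _ _), fun j => ?_⟩
  have h2 : Tendsto φ atTop (comap (a j) (𝓝 (l j))) :=
    hφ.mono_right (inf_le_left.trans (iInf_le _ j))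
  have h3 : Tendsto (fun k => a j (φ k)) atTop (𝓝 (l j)) := tendsto_comap_iff.1 h2
  exact (tendsto_add_atTop_iff_nat (f := fun k => a j (φ k)) N).2 h3

/-- the same on `ℕ`, `L ≤ atTop`: the sequence is a subsequence -/
theorem tl_114_extract_nat (L : Filter ℕ) [NeBot L] (hL : L ≤ atTop) {κ : Type*} [Countable κ]
    {X : κ → Type*} [∀ j, TopologicalSpace (X j)] [∀ j, FirstCountableTopology (X j)]
    (a : ∀ j, ℕ → X j) (l : ∀ j, X j) (h : ∀ j, Tendsto (a j) L (𝓝 (l j)))
    {P : ℕ → Prop} (hP : ∀ᶠ n in L, P n) :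
    ∃ φ : ℕ → ℕ, StrictMono φ ∧ (∀ k, P (φ k)) ∧
      ∀ j, Tendsto (fun k => a j (φ k)) atTop (𝓝 (l j)) := by
  set G : Filter ℕ := ((⨅ j, comap (a j) (𝓝 (l j))) ⊓ 𝓟 {n | P n}) ⊓ atTop with hG
  have hLG : L ≤ G :=
    le_inf (le_inf (le_iInf fun j => (h j).le_comap) (le_principal_iff.2 hP)) hL
  obtain ⟨φ, hφ⟩ := tl_114_extract_filter L G hLG
  have h1 : ∀ᶠ k in atTop, P (φ k) :=
    (hφ.mono_right (inf_le_left.trans inf_le_right)) (mem_principal_self _)
  obtain ⟨N, hN⟩ := eventually_atTop.1 h1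
  have h4 : Tendsto (fun k => φ (k + N)) atTop atTop :=
    (tendsto_add_atTop_iff_nat (f := φ) N).2 (hφ.mono_right inf_le_right)
  obtain ⟨ψ, hψ, hψ2⟩ := strictMono_subseq_of_tendsto_atTop h4
  refine ⟨fun k => φ (ψ k + N), hψ2, fun k => hN _ (Nat.le_add_left _ _), fun j => ?_⟩
  have h2 : Tendsto φ atTop (comap (a j) (𝓝 (l j))) :=
    hφ.mono_right (inf_le_left.trans (inf_le_left.trans (iInf_le _ j)))
  have h3 : Tendsto (fun k => a j (φ k)) atTop (𝓝 (l j)) := tendsto_comap_iff.1 h2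
  have h5 : Tendsto (fun k => ψ k + N) atTop atTop :=
    tendsto_atTop_mono (fun k => Nat.le_add_right _ _) hψ.tendsto_atTop
  exact h3.comp h5

/-! ## 2. monotone functions -/

/-- pointwise `U`-limit of a pointwise bounded family -/
theorem tl_114_pointwise {α : Type*} (U : Ultrafilter ι) {f : ι → α → ℝ} {s : Set α}
    (hb : ∀ x ∈ s, ∃ M, ∀ᶠ n in U, |f n x| ≤ M) :
    ∃ g : α → ℝ, ∀ x ∈ s, Tendsto (fun n => f n x) U (𝓝 (g x)) := by
  have : ∀ x, ∃ l, x ∈ s → Tendsto (fun n => f n x) U (𝓝 l) := by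
    intro x
    by_cases hx : x ∈ s
    · obtain ⟨M, hM⟩ := hb x hx
      obtain ⟨l, -, hl⟩ := tl_114_lim_abs U hM
      exact ⟨l, fun _ => hl⟩
    · exact ⟨0, fun h => absurd h hx⟩
  choose g hg using this
  exact ⟨g, hg⟩

theorem tl_114_monotoneOn_lim {α : Type*} [Preorder α] (L : Filter ι) [NeBot L]
    {f : ι → α → ℝ} {g : α → ℝ} {s : Set α} (hm : ∀ᶠ n in L, MonotoneOn (f n) s)
    (hl : ∀ x ∈ s, Tendsto (fun n => f n x) L (𝓝 (g x))) : MonotoneOn g s := by
  intro x hx y hy hxy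
  exact le_of_tendsto_of_tendsto (hl x hx) (hl y hy) (hm.mono fun n hn => hn hx hy hxy)

/-- **Helly along an ultrafilter**: no extraction, convergence at EVERY point of `s` -/
theorem tl_114_helly {α : Type*} [Preorder α] (U : Ultrafilter ι) {f : ι → α → ℝ} {s : Set α}
    (hm : ∀ᶠ n in U, MonotoneOn (f n) s) (hb : ∀ x ∈ s, ∃ M, ∀ᶠ n in U, |f n x| ≤ M) :
    ∃ g : α → ℝ, MonotoneOn g s ∧ ∀ x ∈ s, Tendsto (fun n => f n x) U (𝓝 (g x)) := by
  obtain ⟨g, hg⟩ := tl_114_pointwise U hb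
  exact ⟨g, tl_114_monotoneOn_lim (U : Filter ι) hm hg, hg⟩

/-- the uniform grid: every point of `[a,b]` lies in one of the `N` cells -/
theorem tl_114_grid {a b x : ℝ} (hab : a < b) {N : ℕ} (hN : 0 < N) (hx : x ∈ Icc a b) :
    ∃ i < N, a + i * ((b - a) / N) ≤ x ∧ x ≤ a + ((i + 1 : ℕ) : ℝ) * ((b - a) / N) := by
  have hN' : (0 : ℝ) < N := by exact_mod_cast hN
  set h := (b - a) / N with hh
  have hh0 : 0 < h := div_pos (sub_pos.2 hab) hN'
  have hNh : (N : ℝ) * h = b - a := by rw [hh]; field_simp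
  rcases hx.2.eq_or_lt with rfl | hxb
  · refine ⟨N - 1, by omega, ?_, ?_⟩
    · have : ((N - 1 : ℕ) : ℝ) = N - 1 := by
        rw [Nat.cast_sub (by omega)]; simp
      rw [this]; nlinarith
    · have : ((N - 1 + 1 : ℕ) : ℝ) = N := by
        congr 1; omega
      rw [this]; linarith
  · set t := (x - a) / h with ht
    have ht0 : 0 ≤ t := div_nonneg (sub_nonneg.2 hx.1) hh0.le
    have hth : t * h = x - a := by rw [ht]; field_simp
    have htN : t < N := by
      rw [ht, div_lt_iff₀ hh0]; linarith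
    refine ⟨⌊t⌋₊, (Nat.floor_lt ht0).2 htN, ?_, ?_⟩
    · have := Nat.floor_le ht0
      nlinarith
    · have := Nat.lt_floor_add_one t
      push_cast
      nlinarith

/-- quantitative: two monotone functions that are `δ`-close on the grid of mesh `(b-a)/N` are `L¹`-close -/
theorem tl_114_mono_L1_bound {f g : ℝ → ℝ} {a b δ : ℝ} (hab : a ≤ b) {N : ℕ} (hN : 0 < N)
    (hf : MonotoneOn f (Icc a b)) (hg : MonotoneOn g (Icc a b))
    (hδ : ∀ i ≤ N, |f (a + i * ((b - a) / N)) - g (a + i * ((b - a) / N))| ≤ δ) :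
    ∫ x in a..b, |f x - g x| ≤ (b - a) / N * (g b - g a) + (b - a) * δ := by
  have hN' : (0 : ℝ) < N := by exact_mod_cast hN
  set h := (b - a) / N with hh
  have hh0 : 0 ≤ h := div_nonneg (sub_nonneg.2 hab) hN'.le
  have hNh : (N : ℝ) * h = b - a := by rw [hh]; field_simp
  set p : ℕ → ℝ := fun i => a + i * h with hp
  have hp0 : p 0 = a := by simp [hp]
  have hpN : p N = b := by simp only [hp]; linarith
  have hpm : Monotone p := by
    intro i j hij
    have : (i : ℝ) ≤ j := by exact_mod_cast hij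
    simp only [hp]
    nlinarith
  have hpmem : ∀ i ≤ N, p i ∈ Icc a b := fun i hi =>
    ⟨hp0 ▸ hpm (Nat.zero_le i), hpN ▸ hpm hi⟩
  have hI : IntervalIntegrable (fun x => |f x - g x|) volume a b := by
    have h1 : IntervalIntegrable f volume a b := by
      apply MonotoneOn.intervalIntegrable; rwa [uIcc_of_le hab]
    have h2 : IntervalIntegrable g volume a b := by
      apply MonotoneOn.intervalIntegrable; rwa [uIcc_of_le hab]
    exact (h1.sub h2).abs
  have hint : ∀ i < N, IntervalIntegrable (fun x => |f x - g x|) volume (p i) (p (i + 1)) := by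
    intro i hi
    apply hI.mono_set
    rw [uIcc_of_le hab, uIcc_of_le (hpm (Nat.le_succ i))]
    exact Icc_subset_Icc (hpmem i hi.le).1 (hpmem (i + 1) hi).2
  have hsum : ∫ x in a..b, |f x - g x|
      = ∑ i ∈ Finset.range N, ∫ x in p i..p (i + 1), |f x - g x| := by
    rw [intervalIntegral.sum_integral_adjacent_intervals hint, hp0, hpN]
  have hpiece : ∀ i < N, ∫ x in p i..p (i + 1), |f x - g x|
      ≤ h * ((g (p (i + 1)) - g (p i)) + δ) := by
    intro i hi
    have hb : ∀ x ∈ Icc (p i) (p (i + 1)), |f x - g x| ≤ (g (p (i + 1)) - g (p i)) + δ := by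
      intro x hx
      have hxm : x ∈ Icc a b := ⟨(hpmem i hi.le).1.trans hx.1, hx.2.trans (hpmem (i + 1) hi).2⟩
      have f1 := hf (hpmem i hi.le) hxm hx.1
      have f2 := hf hxm (hpmem (i + 1) hi) hx.2
      have g1 := hg (hpmem i hi.le) hxm hx.1
      have g2 := hg hxm (hpmem (i + 1) hi) hx.2
      have d1 := abs_le.1 (hδ i hi.le)
      have d2 := abs_le.1 (hδ (i + 1) hi)
      rw [abs_le]
      have d11 := d1.1
      have d22 := d2.2
      simp only [hp] at f1 f2 g1 g2 ⊢
      constructor <;> linarith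
    calc ∫ x in p i..p (i + 1), |f x - g x|
        ≤ ∫ _x in p i..p (i + 1), ((g (p (i + 1)) - g (p i)) + δ) :=
          intervalIntegral.integral_mono_on (hpm (Nat.le_succ i)) (hint i hi)
            intervalIntegrable_const hb
      _ = h * ((g (p (i + 1)) - g (p i)) + δ) := by
          rw [intervalIntegral.integral_const, smul_eq_mul]
          simp only [hp]; push_cast; ring
  rw [hsum]
  calc ∑ i ∈ Finset.range N, ∫ x in p i..p (i + 1), |f x - g x|
      ≤ ∑ i ∈ Finset.range N, h * ((g (p (i + 1)) - g (p i)) + δ) :=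
        Finset.sum_le_sum fun i hi => hpiece i (Finset.mem_range.1 hi)
    _ = h * (g b - g a) + (b - a) * δ := by
        rw [← Finset.mul_sum, Finset.sum_add_distrib, Finset.sum_range_sub (fun i => g (p i)),
          hp0, hpN, Finset.sum_const, Finset.card_range, nsmul_eq_mul, ← hNh]
        ring

/-- pointwise convergence of monotone functions on `[a,b]` is `L¹` convergence (ANY filter: no dominated convergence) -/
theorem tl_114_mono_L1 (L : Filter ι) {f : ι → ℝ → ℝ} {g : ℝ → ℝ} {a b : ℝ} (hab : a ≤ b)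
    (hm : ∀ᶠ n in L, MonotoneOn (f n) (Icc a b))
    (hl : ∀ x ∈ Icc a b, Tendsto (fun n => f n x) L (𝓝 (g x))) :
    Tendsto (fun n => ∫ x in a..b, |f n x - g x|) L (𝓝 0) := by
  rcases L.eq_or_neBot with rfl | hne
  · exact tendsto_bot
  have hg : MonotoneOn g (Icc a b) := tl_114_monotoneOn_lim L hm hl
  rw [Metric.tendsto_nhds]
  intro ε hε
  have hD : 0 ≤ (b - a) * (g b - g a) :=
    mul_nonneg (sub_nonneg.2 hab) (sub_nonneg.2 (hg (left_mem_Icc.2 hab) (right_mem_Icc.2 hab) hab))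
  obtain ⟨N, hN⟩ := exists_nat_gt ((b - a) * (g b - g a) / (ε / 2))
  have hN0 : (0 : ℝ) < N := lt_of_le_of_lt (div_nonneg hD (by positivity)) hN
  have hN0' : 0 < N := by exact_mod_cast hN0
  set δ := ε / (2 * (b - a + 1)) with hδ
  have hba : 0 < b - a + 1 := by linarith
  have hδ0 : 0 < δ := by positivity
  have hgrid : ∀ i ≤ N, a + i * ((b - a) / N) ∈ Icc a b := by
    intro i hi
    have h1 : (i : ℝ) ≤ N := by exact_mod_cast hi
    have h2 : 0 ≤ (b - a) / N := div_nonneg (sub_nonneg.2 hab) hN0.le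
    have h3 : (N : ℝ) * ((b - a) / N) = b - a := by field_simp
    have h4 : (0 : ℝ) ≤ i := Nat.cast_nonneg i
    constructor <;> nlinarith
  have hfin : ∀ᶠ n in L, ∀ i ∈ Finset.range (N + 1),
      |f n (a + i * ((b - a) / N)) - g (a + i * ((b - a) / N))| ≤ δ := by
    rw [Filter.eventually_all_finset]
    intro i hi
    have := hl _ (hgrid i (Nat.lt_succ_iff.1 (Finset.mem_range.1 hi)))
    have := (Metric.tendsto_nhds.1 this) δ hδ0
    filter_upwards [this] with n hn
    rw [Real.dist_eq] at hn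
    exact hn.le
  filter_upwards [hm, hfin] with n hn hd
  have h0 : 0 ≤ ∫ x in a..b, |f n x - g x| :=
    intervalIntegral.integral_nonneg hab fun x _ => abs_nonneg _
  rw [Real.dist_eq, sub_zero, abs_of_nonneg h0]
  have hB := tl_114_mono_L1_bound hab hN0' hn hg
    (fun i hi => hd i (Finset.mem_range.2 (Nat.lt_succ_iff.2 hi)))
  have e1 : (b - a) / N * (g b - g a) < ε / 2 := by
    rw [div_lt_iff₀ (by positivity)] at hN
    rw [div_mul_eq_mul_div, div_lt_iff₀ hN0]
    linarith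
  have e2 : (b - a) * δ < ε / 2 := by
    rw [hδ, mul_div_assoc', div_lt_iff₀ (by positivity)]
    nlinarith
  linarith

/-- the same when `f n + T` is monotone for a fixed trend `T` -/
theorem tl_114_mono_trend_L1 (L : Filter ι) {f : ι → ℝ → ℝ} {g : ℝ → ℝ} (T : ℝ → ℝ) {a b : ℝ}
    (hab : a ≤ b) (hm : ∀ᶠ n in L, MonotoneOn (fun x => f n x + T x) (Icc a b))
    (hl : ∀ x ∈ Icc a b, Tendsto (fun n => f n x) L (𝓝 (g x))) :
    Tendsto (fun n => ∫ x in a..b, |f n x - g x|) L (𝓝 0) := by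
  have := tl_114_mono_L1 L (f := fun n x => f n x + T x) (g := fun x => g x + T x) hab hm
    (fun x hx => (hl x hx).add_const _)
  simpa using this

/-- **Polya / Dini II**: monotone functions converging pointwise to a CONTINUOUS limit converge uniformly -/
theorem tl_114_polya (L : Filter ι) {f : ι → ℝ → ℝ} {g : ℝ → ℝ} {a b : ℝ} (hab : a ≤ b)
    (hm : ∀ᶠ n in L, MonotoneOn (f n) (Icc a b))
    (hl : ∀ x ∈ Icc a b, Tendsto (fun n => f n x) L (𝓝 (g x)))
    (hg : ContinuousOn g (Icc a b)) : TendstoUniformlyOn f g L (Icc a b) := by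
  rw [Metric.tendstoUniformlyOn_iff]
  intro ε hε
  rcases hab.eq_or_lt with rfl | hab'
  · have := (Metric.tendsto_nhds.1 (hl a (left_mem_Icc.2 le_rfl))) ε hε
    filter_upwards [this] with n hn x hx
    have : x = a := le_antisymm hx.2 hx.1
    rw [this, dist_comm]; exact hn
  have huc : UniformContinuousOn g (Icc a b) := isCompact_Icc.uniformContinuousOn_of_continuous hg
  obtain ⟨η, hη, hηg⟩ := Metric.uniformContinuousOn_iff.1 huc (ε / 2) (by positivity)
  obtain ⟨N, hN⟩ := exists_nat_gt ((b - a) / η)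
  have hN0 : (0 : ℝ) < N := lt_of_le_of_lt (div_nonneg (sub_nonneg.2 hab) hη.le) hN
  have hN0' : 0 < N := by exact_mod_cast hN0
  have hmesh : (b - a) / N < η := by
    rw [div_lt_iff₀ hη] at hN
    rw [div_lt_iff₀ hN0]; linarith
  have hgrid : ∀ i ≤ N, a + (i : ℝ) * ((b - a) / N) ∈ Icc a b := by
    intro i hi
    have h1 : (i : ℝ) ≤ N := by exact_mod_cast hi
    have h2 : 0 ≤ (b - a) / N := div_nonneg (sub_nonneg.2 hab) hN0.le
    have h3 : (N : ℝ) * ((b - a) / N) = b - a := by field_simp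
    have h4 : (0 : ℝ) ≤ i := Nat.cast_nonneg i
    constructor <;> nlinarith
  have hfin : ∀ᶠ n in L, ∀ i ∈ Finset.range (N + 1),
      |f n (a + i * ((b - a) / N)) - g (a + i * ((b - a) / N))| < ε / 2 := by
    rw [Filter.eventually_all_finset]
    intro i hi
    have := hl _ (hgrid i (Nat.lt_succ_iff.1 (Finset.mem_range.1 hi)))
    have := (Metric.tendsto_nhds.1 this) (ε / 2) (by positivity)
    filter_upwards [this] with n hn
    rw [Real.dist_eq] at hn
    exact hn
  filter_upwards [hm, hfin] with n hn hd x hx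
  obtain ⟨i, hi, hx1, hx2⟩ := tl_114_grid hab' hN0' hx
  have m1 := hgrid i hi.le
  have m2 := hgrid (i + 1) hi
  have f1 := hn m1 hx hx1
  have f2 := hn hx m2 hx2
  have d1 := abs_lt.1 (hd i (Finset.mem_range.2 (by omega)))
  have d2 := abs_lt.1 (hd (i + 1) (Finset.mem_range.2 (by omega)))
  have hstep : a + ((i + 1 : ℕ) : ℝ) * ((b - a) / N) - (a + (i : ℝ) * ((b - a) / N)) = (b - a) / N := by
    push_cast; ring
  have g1 : |g (a + (i : ℝ) * ((b - a) / N)) - g x| < ε / 2 := by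
    rw [← Real.dist_eq]
    apply hηg _ m1 _ hx
    rw [Real.dist_eq, abs_lt]; constructor <;> linarith
  have g2 : |g (a + ((i + 1 : ℕ) : ℝ) * ((b - a) / N)) - g x| < ε / 2 := by
    rw [← Real.dist_eq]
    apply hηg _ m2 _ hx
    rw [Real.dist_eq, abs_lt]; constructor <;> linarith
  rw [abs_lt] at g1 g2
  rw [Real.dist_eq, abs_lt]
  constructor <;> linarith [d1.1, d1.2, d2.1, d2.2, g1.1, g1.2, g2.1, g2.2]

/-! ## 3. integrals -/

theorem tl_114_clamp {k t : ℝ} (hk : 0 ≤ k) :
    |max (-k) (min k t)| ≤ k ∧ |max (-k) (min k t)| ≤ |t| ∧ |t - max (-k) (min k t)| ≤ |t| ∧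
      (|t| ≤ k → max (-k) (min k t) = t) := by
  rcases le_total t k with h1 | h1
  · rw [min_eq_right h1]
    rcases le_total (-k) t with h2 | h2
    · rw [max_eq_right h2]
      exact ⟨abs_le.2 ⟨h2, h1⟩, le_rfl, by simp, fun _ => rfl⟩
    · rw [max_eq_left h2]
      have ht : t ≤ 0 := by linarith
      refine ⟨by rw [abs_neg, abs_of_nonneg hk], ?_, ?_, fun h => ?_⟩
      · rw [abs_neg, abs_of_nonneg hk, abs_of_nonpos ht]; linarith
      · rw [abs_of_nonpos ht, abs_of_nonpos (by linarith)]; linarith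
      · have := (abs_le.1 h).1; linarith
  · rw [min_eq_left h1, max_eq_right (by linarith)]
    have ht : 0 ≤ t := by linarith
    refine ⟨by rw [abs_of_nonneg hk], ?_, ?_, fun h => ?_⟩
    · rw [abs_of_nonneg hk, abs_of_nonneg ht]; exact h1
    · rw [abs_of_nonneg ht, abs_of_nonneg (by linarith)]; linarith
    · have := (abs_le.1 h).2; linarith

/-- an integrable function is `L¹`-close to a bounded integrable one -/
theorem tl_114_trunc {X : Type*} [MeasurableSpace X] {μ : Measure X} {φ : X → ℝ}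
    (hφ : Integrable φ μ) {ε : ℝ} (hε : 0 < ε) :
    ∃ (ψ : X → ℝ) (K : ℝ), 0 ≤ K ∧ Integrable ψ μ ∧ (∀ x, |ψ x| ≤ K) ∧ (∀ x, |ψ x| ≤ |φ x|) ∧
      ∫ x, |φ x - ψ x| ∂μ < ε := by
  have hlim : Tendsto (fun k : ℕ => ∫ x, |φ x - max (-(k : ℝ)) (min (k : ℝ) (φ x))| ∂μ) atTop
      (𝓝 (∫ _x, (0 : ℝ) ∂μ)) := by
    apply tendsto_integral_of_dominated_convergence (fun x => |φ x|)
    · intro k
      exact (by fun_prop : Continuous fun t : ℝ => |t - max (-(k : ℝ)) (min (k : ℝ) t)|).comp_aestronglyMeasurable hφ.1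
    · exact hφ.abs
    · intro k
      refine Eventually.of_forall fun x => ?_
      rw [Real.norm_eq_abs, abs_abs]
      exact (tl_114_clamp (Nat.cast_nonneg k)).2.2.1
    · refine Eventually.of_forall fun x => ?_
      apply tendsto_const_nhds.congr'
      filter_upwards [eventually_ge_atTop ⌈|φ x|⌉₊] with k hk
      have : |φ x| ≤ k := (Nat.le_ceil _).trans (by exact_mod_cast hk)
      rw [(tl_114_clamp (Nat.cast_nonneg k)).2.2.2 this]
      simp
  rw [integral_zero] at hlim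
  obtain ⟨k, hk⟩ := ((tendsto_order.1 hlim).2 ε hε).exists
  refine ⟨fun x => max (-(k : ℝ)) (min (k : ℝ) (φ x)), k, Nat.cast_nonneg k, ?_,
    fun x => (tl_114_clamp (Nat.cast_nonneg k)).1, fun x => (tl_114_clamp (Nat.cast_nonneg k)).2.1, hk⟩
  refine hφ.mono ((by fun_prop : Continuous fun t : ℝ => max (-(k : ℝ)) (min (k : ℝ) t)).comp_aestronglyMeasurable hφ.1) ?_
  exact Eventually.of_forall fun x => (tl_114_clamp (Nat.cast_nonneg k)).2.1

/-- bounded + `L¹ → 0`  ⟹  `∫ |F n φ| → 0` for every integrable `φ`  (any filter) -/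
theorem tl_114_L1_bdd_mul {X : Type*} [MeasurableSpace X] {μ : Measure X} (L : Filter ι)
    {F : ι → X → ℝ} {M : ℝ} {φ : X → ℝ}
    (hF : ∀ᶠ n in L, Integrable (F n) μ) (hM : ∀ᶠ n in L, ∀ᵐ x ∂μ, |F n x| ≤ M)
    (h0 : Tendsto (fun n => ∫ x, |F n x| ∂μ) L (𝓝 0)) (hφ : Integrable φ μ) :
    Tendsto (fun n => ∫ x, |F n x * φ x| ∂μ) L (𝓝 0) := by
  rw [Metric.tendsto_nhds]
  intro ε hε
  set M' := max M 0 with hM'
  have hM0 : 0 ≤ M' := le_max_right _ _
  obtain ⟨ψ, K, hK0, hψi, hψK, -, hψε⟩ := tl_114_trunc hφ (ε := ε / (2 * (M' + 1))) (by positivity)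
  have h1 := (Metric.tendsto_nhds.1 h0) (ε / (2 * (K + 1))) (by positivity)
  filter_upwards [hF, hM, h1] with n hFn hMn h1n
  have hnn : 0 ≤ ∫ x, |F n x * φ x| ∂μ := integral_nonneg fun x => abs_nonneg _
  rw [Real.dist_eq, sub_zero, abs_of_nonneg hnn]
  rw [Real.dist_eq, sub_zero, abs_of_nonneg (integral_nonneg fun x => abs_nonneg _)] at h1n
  have hd : Integrable (fun x => |φ x - ψ x|) μ := (hφ.sub hψi).abs
  have hle : ∫ x, |F n x * φ x| ∂μ ≤ ∫ x, (K * |F n x| + M' * |φ x - ψ x|) ∂μ := by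
    apply integral_mono_of_nonneg (Eventually.of_forall fun x => abs_nonneg _)
    · exact (hFn.abs.const_mul K).add (hd.const_mul M')
    · filter_upwards [hMn] with x hx
      have e : F n x * φ x = F n x * ψ x + F n x * (φ x - ψ x) := by ring
      calc |F n x * φ x| ≤ |F n x * ψ x| + |F n x * (φ x - ψ x)| := by rw [e]; exact abs_add_le _ _
        _ = |F n x| * |ψ x| + |F n x| * |φ x - ψ x| := by rw [abs_mul, abs_mul]
        _ ≤ |F n x| * K + M' * |φ x - ψ x| := by
            gcongr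
            · exact hψK x
            · exact hx.trans (le_max_left _ _)
        _ = K * |F n x| + M' * |φ x - ψ x| := by ring
  rw [integral_add (hFn.abs.const_mul K) (hd.const_mul M'), integral_const_mul,
    integral_const_mul] at hle
  have e1 : K * ∫ x, |F n x| ∂μ < ε / 2 := by
    have : K * ∫ x, |F n x| ∂μ ≤ (K + 1) * ∫ x, |F n x| ∂μ := by
      have : 0 ≤ ∫ x, |F n x| ∂μ := integral_nonneg fun x => abs_nonneg (F n x)
      nlinarith
    have h2 : (K + 1) * ∫ x, |F n x| ∂μ < (K + 1) * (ε / (2 * (K + 1))) := by gcongr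
    have h3 : (K + 1) * (ε / (2 * (K + 1))) = ε / 2 := by field_simp
    linarith
  have e2 : M' * ∫ x, |φ x - ψ x| ∂μ < ε / 2 := by
    have : M' * ∫ x, |φ x - ψ x| ∂μ ≤ (M' + 1) * ∫ x, |φ x - ψ x| ∂μ := by
      have : 0 ≤ ∫ x, |φ x - ψ x| ∂μ := integral_nonneg fun x => abs_nonneg (φ x - ψ x)
      nlinarith
    have h2 : (M' + 1) * ∫ x, |φ x - ψ x| ∂μ < (M' + 1) * (ε / (2 * (M' + 1))) := by gcongr
    have h3 : (M' + 1) * (ε / (2 * (M' + 1))) = ε / 2 := by field_simp
    linarith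
  linarith

/-- monotone `f n → g` pointwise on `[a,b]`  ⟹  `∫ f n φ → ∫ g φ` for every `φ ∈ L¹[a,b]`  (any filter) -/
theorem tl_114_mono_integral_mul (L : Filter ι) {f : ι → ℝ → ℝ} {g φ : ℝ → ℝ} {a b : ℝ}
    (hab : a ≤ b) (hm : ∀ᶠ n in L, MonotoneOn (f n) (Icc a b))
    (hl : ∀ x ∈ Icc a b, Tendsto (fun n => f n x) L (𝓝 (g x)))
    (hφ : IntervalIntegrable φ volume a b) :
    Tendsto (fun n => ∫ x in a..b, f n x * φ x) L (𝓝 (∫ x in a..b, g x * φ x)) := by
  rcases L.eq_or_neBot with rfl | hne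
  · exact tendsto_bot
  have hg : MonotoneOn g (Icc a b) := tl_114_monotoneOn_lim L hm hl
  set μ := (volume : Measure ℝ).restrict (Ioc a b) with hμ
  have hφ' : Integrable φ μ := (intervalIntegrable_iff_integrableOn_Ioc_of_le hab).1 hφ
  have hmi : ∀ {u : ℝ → ℝ}, MonotoneOn u (Icc a b) → Integrable u μ := fun hu =>
    (intervalIntegrable_iff_integrableOn_Ioc_of_le hab).1
      (MonotoneOn.intervalIntegrable (by rwa [uIcc_of_le hab]))
  have hmem : ∀ᵐ x ∂μ, x ∈ Icc a b := by
    filter_upwards [ae_restrict_mem measurableSet_Ioc] with x hx using Ioc_subset_Icc_self hx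
  have ha : a ∈ Icc a b := left_mem_Icc.2 hab
  have hb : b ∈ Icc a b := right_mem_Icc.2 hab
  have hbd : ∀ {u : ℝ → ℝ}, MonotoneOn u (Icc a b) → ∀ᵐ x ∂μ, ‖u x‖ ≤ max |u a| |u b| := by
    intro u hu
    filter_upwards [hmem] with x hx
    have h1 := hu ha hx hx.1
    have h2 := hu hx hb hx.2
    rw [Real.norm_eq_abs, abs_le]
    constructor
    · have := neg_abs_le (u a); have := le_max_left |u a| |u b|; linarith
    · have := le_abs_self (u b); have := le_max_right |u a| |u b|; linarith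
  have hprod : ∀ {u : ℝ → ℝ}, MonotoneOn u (Icc a b) → Integrable (fun x => u x * φ x) μ :=
    fun hu => hφ'.bdd_mul (hmi hu).1 (hbd hu)
  have key := tl_114_L1_bdd_mul L (μ := μ) (F := fun n x => f n x - g x) (M := g b - g a + 1)
    (φ := φ) (hm.mono fun n hn => (hmi hn).sub (hmi hg)) ?_
    (by simpa only [intervalIntegral.integral_of_le hab] using tl_114_mono_L1 L hab hm hl) hφ'
  · rw [tendsto_iff_dist_tendsto_zero]
    refine squeeze_zero' (Eventually.of_forall fun n => dist_nonneg) ?_ key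
    filter_upwards [hm] with n hn
    rw [Real.dist_eq, intervalIntegral.integral_of_le hab, intervalIntegral.integral_of_le hab,
      ← integral_sub (hprod hn) (hprod hg)]
    calc |∫ x, (f n x * φ x - g x * φ x) ∂μ| ≤ ∫ x, |f n x * φ x - g x * φ x| ∂μ :=
          abs_integral_le_integral_abs
      _ = ∫ x, |(f n x - g x) * φ x| ∂μ := by simp only [sub_mul]
  · have h1 := (Metric.tendsto_nhds.1 (hl a ha)) 1 one_pos
    have h2 := (Metric.tendsto_nhds.1 (hl b hb)) 1 one_pos
    filter_upwards [hm, h1, h2] with n hn h1 h2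
    filter_upwards [hmem] with x hx
    rw [Real.dist_eq, abs_lt] at h1 h2
    have f1 := hn ha hx hx.1
    have f2 := hn hx hb hx.2
    have g1 := hg ha hx hx.1
    have g2 := hg hx hb hx.2
    rw [abs_le]
    constructor <;> linarith [h1.1, h1.2, h2.1, h2.2]

/-- uniform convergence on `[a,b]` of continuous functions  ⟹  `∫ f n φ → ∫ g φ`, `φ ∈ L¹[a,b]`  (any filter) -/
theorem tl_114_unif_integral_mul (L : Filter ι) {f : ι → ℝ → ℝ} {g φ : ℝ → ℝ} {a b : ℝ}
    (hab : a ≤ b) (hu : TendstoUniformlyOn f g L (Icc a b))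
    (hf : ∀ᶠ n in L, ContinuousOn (f n) (Icc a b)) (hφ : IntervalIntegrable φ volume a b) :
    Tendsto (fun n => ∫ x in a..b, f n x * φ x) L (𝓝 (∫ x in a..b, g x * φ x)) := by
  rcases L.eq_or_neBot with rfl | hne
  · exact tendsto_bot
  have hg : ContinuousOn g (Icc a b) := hu.continuousOn hf.frequently
  have hprod : ∀ {u : ℝ → ℝ}, ContinuousOn u (Icc a b) →
      IntervalIntegrable (fun x => u x * φ x) volume a b := fun hu =>
    hφ.continuousOn_mul (by rwa [uIcc_of_le hab])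
  rw [Metric.tendsto_nhds]
  intro ε hε
  have hI0 : 0 ≤ ∫ x in a..b, |φ x| := intervalIntegral.integral_nonneg hab fun x _ => abs_nonneg _
  set η := ε / (2 * ((∫ x in a..b, |φ x|) + 1)) with hη
  have hη0 : 0 < η := by positivity
  filter_upwards [hf, (Metric.tendstoUniformlyOn_iff.1 hu) η hη0] with n hn hd
  rw [Real.dist_eq, ← intervalIntegral.integral_sub (hprod hn) (hprod hg)]
  have h1 : |∫ x in a..b, (f n x * φ x - g x * φ x)| ≤ ∫ x in a..b, |f n x * φ x - g x * φ x| := by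
    simpa only [Real.norm_eq_abs] using intervalIntegral.norm_integral_le_integral_norm
      (f := fun x => f n x * φ x - g x * φ x) (μ := volume) hab
  have h2 : ∫ x in a..b, |f n x * φ x - g x * φ x| ≤ ∫ x in a..b, η * |φ x| := by
    apply intervalIntegral.integral_mono_on hab ((hprod hn).sub (hprod hg)).abs (hφ.abs.const_mul η)
    intro x hx
    rw [← sub_mul, abs_mul]
    gcongr
    have := hd x hx
    rw [Real.dist_eq, abs_sub_comm] at this
    exact this.le
  rw [intervalIntegral.integral_const_mul] at h2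
  have h3 : η * ∫ x in a..b, |φ x| < ε := by
    have e1 : η * ∫ x in a..b, |φ x| ≤ η * ((∫ x in a..b, |φ x|) + 1) := by gcongr; linarith
    have e2 : η * ((∫ x in a..b, |φ x|) + 1) = ε / 2 := by rw [hη]; field_simp
    linarith
  linarith

/-- uniform convergence on `[[a,b]]` of continuous functions  ⟹  convergence of `∫ a..b`  (any order of `a, b`) -/
theorem tl_114_unif_integral (L : Filter ι) {f : ι → ℝ → ℝ} {g : ℝ → ℝ} {a b : ℝ}
    (hu : TendstoUniformlyOn f g L (uIcc a b)) (hf : ∀ᶠ n in L, ContinuousOn (f n) (uIcc a b)) :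
    Tendsto (fun n => ∫ x in a..b, f n x) L (𝓝 (∫ x in a..b, g x)) := by
  rcases le_total a b with hab | hab
  · rw [uIcc_of_le hab] at hu hf
    simpa using tl_114_unif_integral_mul L (φ := fun _ => 1) hab hu hf intervalIntegrable_const
  · rw [uIcc_of_ge hab] at hu hf
    have := tl_114_unif_integral_mul L (φ := fun _ => 1) hab hu hf intervalIntegrable_const
    simp only [mul_one] at this
    simp only [intervalIntegral.integral_symm b a]
    exact this.neg

/-! ## 4. equi-Lipschitz families, `C¹_loc` -/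

theorem tl_114_lipschitzOn_lim {X : Type*} [PseudoMetricSpace X] (L : Filter ι) [NeBot L]
    {f : ι → X → ℝ} {g : X → ℝ} {s : Set X} {C : ℝ≥0}
    (hL : ∀ᶠ n in L, LipschitzOnWith C (f n) s)
    (hl : ∀ x ∈ s, Tendsto (fun n => f n x) L (𝓝 (g x))) : LipschitzOnWith C g s := by
  apply LipschitzOnWith.of_dist_le_mul
  intro x hx y hy
  exact le_of_tendsto ((hl x hx).dist (hl y hy)) (hL.mono fun n hn => hn.dist_le_mul x hx y hy)

/-- equi-Lipschitz + pointwise  ⟹  uniform on totally bounded sets (any filter) -/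
theorem tl_114_lipschitz_unif {X : Type*} [PseudoMetricSpace X] (L : Filter ι)
    {f : ι → X → ℝ} {g : X → ℝ} {s K : Set X} {C : ℝ≥0}
    (hL : ∀ᶠ n in L, LipschitzOnWith C (f n) s)
    (hl : ∀ x ∈ s, Tendsto (fun n => f n x) L (𝓝 (g x)))
    (hK : TotallyBounded K) (hKs : K ⊆ s) : TendstoUniformlyOn f g L K := by
  rcases L.eq_or_neBot with rfl | hne
  · intro u _; exact eventually_bot
  have hg := tl_114_lipschitzOn_lim L hL hl
  rw [Metric.tendstoUniformlyOn_iff]
  intro ε hε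
  set η := ε / (3 * ((C : ℝ) + 1)) with hη
  have hη0 : 0 < η := by positivity
  obtain ⟨t, htK, htf, hcov⟩ := hK.exists_subset (Metric.dist_mem_uniformity hη0)
  have hfin : ∀ᶠ n in L, ∀ y ∈ t, dist (f n y) (g y) < ε / 3 := by
    rw [Filter.eventually_all_finite htf]
    intro y hy
    exact (Metric.tendsto_nhds.1 (hl y (hKs (htK hy)))) (ε / 3) (by positivity)
  filter_upwards [hL, hfin] with n hn hd x hx
  obtain ⟨y, hy, hxy⟩ := mem_iUnion₂.1 (hcov hx)
  have hxy' : dist x y < η := hxy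
  have h1 := hn.dist_le_mul x (hKs hx) y (hKs (htK hy))
  have h2 := hg.dist_le_mul x (hKs hx) y (hKs (htK hy))
  have h3 := hd y hy
  have hC : (C : ℝ) * dist x y < ε / 3 := by
    have e1 : (C : ℝ) * dist x y ≤ ((C : ℝ) + 1) * dist x y := by
      have := dist_nonneg (x := x) (y := y); nlinarith
    have e2 : ((C : ℝ) + 1) * dist x y < ((C : ℝ) + 1) * η := by gcongr
    have e3 : ((C : ℝ) + 1) * η = ε / 3 := by rw [hη]; field_simp
    linarith
  have h4 := dist_triangle4 (g x) (g y) (f n y) (f n x)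
  rw [dist_comm (g y) (f n y), dist_comm (f n y) (f n x)] at h4
  linarith

/-- **Arzela-Ascoli along an ultrafilter** (equi-Lipschitz form, bounded at ONE point) -/
theorem tl_114_ascoli {X : Type*} [PseudoMetricSpace X] (U : Ultrafilter ι)
    {f : ι → X → ℝ} {s : Set X} {C : ℝ≥0} (hL : ∀ᶠ n in U, LipschitzOnWith C (f n) s)
    {x0 : X} (hx0 : x0 ∈ s) {M : ℝ} (hb : ∀ᶠ n in U, |f n x0| ≤ M) :
    ∃ g : X → ℝ, LipschitzOnWith C g s ∧ (∀ x ∈ s, Tendsto (fun n => f n x) U (𝓝 (g x))) ∧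
      ∀ K ⊆ s, TotallyBounded K → TendstoUniformlyOn f g U K := by
  obtain ⟨g, hg⟩ := tl_114_pointwise U (f := f) (s := s) (fun x hx => by
    refine ⟨M + C * dist x x0, ?_⟩
    filter_upwards [hL, hb] with n hn hbn
    have h1 := hn.dist_le_mul x hx x0 hx0
    rw [Real.dist_eq] at h1
    have h2 := abs_sub_abs_le_abs_sub (f n x) (f n x0)
    linarith)
  exact ⟨g, tl_114_lipschitzOn_lim (U : Filter ι) hL hg, hg,
    fun K hKs hK => tl_114_lipschitz_unif (U : Filter ι) hL hg hK hKs⟩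

theorem tl_114_convexOn_lim {E : Type*} [AddCommMonoid E] [Module ℝ E] (L : Filter ι) [NeBot L]
    {f : ι → E → ℝ} {g : E → ℝ} {s : Set E} (hc : ∀ᶠ n in L, ConvexOn ℝ s (f n))
    (hl : ∀ x ∈ s, Tendsto (fun n => f n x) L (𝓝 (g x))) : ConvexOn ℝ s g := by
  obtain ⟨n0, hn0⟩ := hc.exists
  refine ⟨hn0.1, fun x hx y hy a b ha hb hab => ?_⟩
  exact le_of_tendsto_of_tendsto (hl _ (hn0.1 hx hy ha hb hab))
    (((hl x hx).const_smul a).add ((hl y hy).const_smul b))
    (hc.mono fun n hn => hn.2 hx hy ha hb hab)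

/-- **`C¹_loc` compactness along an ultrafilter** on an arbitrary interval `s` (open, closed, half-line, ...):
`f n` differentiable within `s`, `f' n` equi-Lipschitz ("curvature bound"), both bounded at one point.
The limit is produced as a GLOBAL `C^{1,1}` function. -/
theorem tl_114_C1 (U : Ultrafilter ι) {f f' : ι → ℝ → ℝ} {s : Set ℝ} (hsc : s.OrdConnected)
    {C : ℝ≥0} (hd : ∀ᶠ n in U, ∀ x ∈ s, HasDerivWithinAt (f n) (f' n x) s x)
    (hL : ∀ᶠ n in U, LipschitzOnWith C (f' n) s)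
    {x0 : ℝ} (hx0 : x0 ∈ s) {M : ℝ} (hb : ∀ᶠ n in U, |f n x0| ≤ M)
    (hb' : ∀ᶠ n in U, |f' n x0| ≤ M) :
    ∃ g g' : ℝ → ℝ, (∀ x, HasDerivAt g (g' x) x) ∧ LipschitzWith C g' ∧
      (∀ x ∈ s, Tendsto (fun n => f n x) U (𝓝 (g x))) ∧
      (∀ x ∈ s, Tendsto (fun n => f' n x) U (𝓝 (g' x))) ∧
      (∀ K ⊆ s, IsCompact K → TendstoUniformlyOn f g U K) ∧
      (∀ K ⊆ s, IsCompact K → TendstoUniformlyOn f' g' U K) := by
  obtain ⟨h', hh'L, hh'p, hh'u⟩ := tl_114_ascoli U hL hx0 hb'
  obtain ⟨g', hg'L, hg'eq⟩ := hh'L.extend_real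
  obtain ⟨c, -, hc⟩ := tl_114_lim_abs U hb
  have hg'c : Continuous g' := hg'L.continuous
  have hp' : ∀ x ∈ s, Tendsto (fun n => f' n x) U (𝓝 (g' x)) := fun x hx => by
    rw [← hg'eq hx]; exact hh'p x hx
  have hu' : ∀ K ⊆ s, IsCompact K → TendstoUniformlyOn f' g' U K := fun K hKs hK =>
    (hh'u K hKs hK.totallyBounded).congr_right (hg'eq.mono hKs)
  set g : ℝ → ℝ := fun y => c + ∫ t in x0..y, g' t with hg
  have hgd : ∀ x, HasDerivAt g (g' x) x := fun x =>
    (intervalIntegral.integral_hasDerivAt_right (hg'c.intervalIntegrable _ _)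
      (hg'c.stronglyMeasurableAtFilter _ _) hg'c.continuousAt).const_add c
  have hp : ∀ x ∈ s, Tendsto (fun n => f n x) U (𝓝 (g x)) := by
    intro x hx
    have hsub : uIcc x0 x ⊆ s := hsc.uIcc_subset hx0 hx
    have h1 : Tendsto (fun n => ∫ t in x0..x, f' n t) U (𝓝 (∫ t in x0..x, g' t)) :=
      tl_114_unif_integral (U : Filter ι) (hu' _ hsub isCompact_uIcc)
        (hL.mono fun n hn => (hn.continuousOn).mono hsub)
    have h2 : Tendsto (fun n => f n x0 + ∫ t in x0..x, f' n t) U (𝓝 (g x)) := hc.add h1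
    refine h2.congr' ?_
    filter_upwards [hd, hL] with n hdn hLn
    rw [intervalIntegral.integral_eq_sub_of_hasDeriv_right (f := f n)]
    · ring
    · exact fun t ht => ((hdn t (hsub ht)).continuousWithinAt).mono hsub
    · intro t ht
      have hmem : s ∈ 𝓝 t := by
        apply mem_of_superset (isOpen_Ioo.mem_nhds ht)
        exact (Ioo_subset_Icc_self).trans hsub
      exact ((hdn t (hsub (Ioo_subset_Icc_self ht))).hasDerivAt hmem).hasDerivWithinAt
    · exact ((hLn.continuousOn).mono hsub).intervalIntegrable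
  refine ⟨g, g', hgd, hg'L, hp, hp', fun K hKs hK => ?_, hu'⟩
  rcases K.eq_empty_or_nonempty with rfl | hKne
  · intro u _; exact Eventually.of_forall fun n x hx => absurd hx (notMem_empty x)
  set a := min (sInf K) x0 with ha
  set b := max (sSup K) x0 with hb0
  have has : a ∈ s := by
    rcases min_choice (sInf K) x0 with h | h
    · rw [ha, h]; exact hKs (hK.sInf_mem hKne)
    · rw [ha, h]; exact hx0
  have hbs : b ∈ s := by
    rcases max_choice (sSup K) x0 with h | h
    · rw [hb0, h]; exact hKs (hK.sSup_mem hKne)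
    · rw [hb0, h]; exact hx0
  have hIs : Icc a b ⊆ s := hsc.out has hbs
  have hKI : K ⊆ Icc a b := fun x hx =>
    ⟨(min_le_left _ _).trans (csInf_le hK.bddBelow hx), (le_csSup hK.bddAbove hx).trans (le_max_left _ _)⟩
  have hx0I : x0 ∈ Icc a b := ⟨min_le_right _ _, le_max_right _ _⟩
  have hM0 : 0 ≤ M + C * (b - a) := by
    obtain ⟨n, hn⟩ := hb'.exists
    have h1 : 0 ≤ M := (abs_nonneg _).trans hn
    have h2 : a ≤ b := hx0I.1.trans hx0I.2
    have h3 : 0 ≤ (C : ℝ) * (b - a) := mul_nonneg C.2 (sub_nonneg.2 h2)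
    linarith
  have hLf : ∀ᶠ n in U, LipschitzOnWith (Real.toNNReal (M + C * (b - a))) (f n) (Icc a b) := by
    filter_upwards [hd, hL, hb'] with n hdn hLn hbn
    apply Convex.lipschitzOnWith_of_nnnorm_hasDerivWithin_le (convex_Icc a b)
      (fun x hx => (hdn x (hIs hx)).mono hIs)
    intro x hx
    rw [← NNReal.coe_le_coe, coe_nnnorm, Real.coe_toNNReal _ hM0, Real.norm_eq_abs]
    have h1 := hLn.dist_le_mul x (hIs hx) x0 hx0
    rw [Real.dist_eq, Real.dist_eq] at h1
    have h2 := abs_sub_abs_le_abs_sub (f' n x) (f' n x0)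
    have h3 : |x - x0| ≤ b - a := by
      rw [abs_le]; constructor <;> linarith [hx.1, hx.2, hx0I.1, hx0I.2]
    have h4 : (C : ℝ) * |x - x0| ≤ C * (b - a) := by gcongr
    linarith
  exact tl_114_lipschitz_unif (U : Filter ι) hLf (fun x hx => hp x (hIs hx)) hK.totallyBounded hKI

end Claimed.Agent.R286
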