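import Mathlib

/-!
# Row 286 (S0533) TOOLBOX: the abstract density box      (owner helper252; prefix `tl_252_`, types `Tl*`)

Vocabulary-free.  The class of PE (5) and the boxes of LL07 (O2) are instances.

* `TlBox k M r0 r1 u0 u1 al`   : `al r0 = u0`, `al r1 = u1`, and  `k ≤ al' ≤ M ∘ al`  in INTEGRATED form on `[r0,r1]`
                                 (same four fields as `CmQ`: `al_min, al_one, lo, hi`).
* `TlOk k M r0 r1 u0 u1 kmin Mmax` : standing hypotheses: `k` interval integrable, `k ≥ kmin > 0` on `[r0,r1]` (NO continuity of `k`),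
                                 `M` continuous on `[u0,u1]` and `≤ Mmax` there.
-/

set_option autoImplicit false

namespace Claimed.Agent.R286

open MeasureTheory Set Filter Topology

noncomputable section

/-- **membership in the density box**: end values and `k ≤ al' ≤ M ∘ al` in integrated form -/
structure TlBox (k M : ℝ → ℝ) (r0 r1 u0 u1 : ℝ) (al : ℝ → ℝ) : Prop where
  left : al r0 = u0
  right : al r1 = u1
  lo : ∀ s t : ℝ, r0 ≤ s → s ≤ t → t ≤ r1 → ∫ x in s..t, k x ≤ al t - al s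
  hi : ∀ s t : ℝ, r0 ≤ s → s ≤ t → t ≤ r1 → al t - al s ≤ ∫ x in s..t, M (al x)

/-- **standing hypotheses on a box** -/
structure TlOk (k M : ℝ → ℝ) (r0 r1 u0 u1 kmin Mmax : ℝ) : Prop where
  r01 : r0 ≤ r1
  kmin0 : 0 < kmin
  kint : IntervalIntegrable k volume r0 r1
  kge : ∀ r ∈ Icc r0 r1, kmin ≤ k r
  Mcont : ContinuousOn M (Icc u0 u1)
  Mle : ∀ u ∈ Icc u0 u1, M u ≤ Mmax

section basic

variable {k M : ℝ → ℝ} {r0 r1 u0 u1 kmin Mmax : ℝ} {al : ℝ → ℝ}

theorem TlOk.kint_sub (O : TlOk k M r0 r1 u0 u1 kmin Mmax) {s t : ℝ} (hs : r0 ≤ s) (hst : s ≤ t) (ht : t ≤ r1) :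
    IntervalIntegrable k volume s t := by
  apply O.kint.mono_set
  rw [uIcc_of_le hst, uIcc_of_le O.r01]
  exact Icc_subset_Icc hs ht

/-- the floor integral dominates `kmin (t - s)` -/
theorem TlOk.floor_ge (O : TlOk k M r0 r1 u0 u1 kmin Mmax) {s t : ℝ} (hs : r0 ≤ s) (hst : s ≤ t) (ht : t ≤ r1) :
    kmin * (t - s) ≤ ∫ x in s..t, k x := by
  have h1 : ∫ _x in s..t, kmin = kmin * (t - s) := by
    rw [intervalIntegral.integral_const, smul_eq_mul, mul_comm]
  rw [← h1]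
  apply intervalIntegral.integral_mono_on hst intervalIntegrable_const (O.kint_sub hs hst ht)
  intro x hx
  exact O.kge x ⟨hs.trans hx.1, hx.2.trans ht⟩

/-- **lower slope** -/
theorem TlBox.lower (B : TlBox k M r0 r1 u0 u1 al) (O : TlOk k M r0 r1 u0 u1 kmin Mmax) {s t : ℝ}
    (hs : r0 ≤ s) (hst : s ≤ t) (ht : t ≤ r1) : kmin * (t - s) ≤ al t - al s :=
  (O.floor_ge hs hst ht).trans (B.lo s t hs hst ht)

theorem TlBox.monoOn (B : TlBox k M r0 r1 u0 u1 al) (O : TlOk k M r0 r1 u0 u1 kmin Mmax) :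
    MonotoneOn al (Icc r0 r1) := by
  intro s hs t ht hst
  have := B.lower O hs.1 hst ht.2
  have h2 : 0 ≤ kmin * (t - s) := mul_nonneg O.kmin0.le (by linarith)
  linarith

theorem TlBox.strictMonoOn (B : TlBox k M r0 r1 u0 u1 al) (O : TlOk k M r0 r1 u0 u1 kmin Mmax) :
    StrictMonoOn al (Icc r0 r1) := by
  intro s hs t ht hst
  have := B.lower O hs.1 hst.le ht.2
  have h2 : 0 < kmin * (t - s) := mul_pos O.kmin0 (by linarith)
  linarith

theorem TlBox.mem (B : TlBox k M r0 r1 u0 u1 al) (O : TlOk k M r0 r1 u0 u1 kmin Mmax) {x : ℝ}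
    (hx : x ∈ Icc r0 r1) : al x ∈ Icc u0 u1 := by
  constructor
  · rw [← B.left]; exact B.monoOn O (left_mem_Icc.2 O.r01) hx hx.1
  · rw [← B.right]; exact B.monoOn O hx (right_mem_Icc.2 O.r01) hx.2

theorem TlBox.u01 (B : TlBox k M r0 r1 u0 u1 al) (O : TlOk k M r0 r1 u0 u1 kmin Mmax) : u0 ≤ u1 := by
  have := B.mem O (left_mem_Icc.2 O.r01)
  exact this.1.trans this.2

/-- **upper slope** -/
theorem TlBox.upper (B : TlBox k M r0 r1 u0 u1 al) (O : TlOk k M r0 r1 u0 u1 kmin Mmax) {s t : ℝ}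
    (hs : r0 ≤ s) (hst : s ≤ t) (ht : t ≤ r1) : al t - al s ≤ Mmax * (t - s) := by
  have h0 := B.hi s t hs hst ht
  by_cases hint : IntervalIntegrable (fun x => M (al x)) volume s t
  · have h1 : ∫ _x in s..t, Mmax = Mmax * (t - s) := by
      rw [intervalIntegral.integral_const, smul_eq_mul, mul_comm]
    rw [← h1]
    refine h0.trans ?_
    apply intervalIntegral.integral_mono_on hst hint intervalIntegrable_const
    intro x hx
    exact O.Mle _ (B.mem O ⟨hs.trans hx.1, hx.2.trans ht⟩)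
  · rw [intervalIntegral.integral_undef hint] at h0
    have h1 := B.lower O hs hst ht
    have h2 : kmin * (t - s) ≤ 0 := h1.trans h0
    have h3 : t - s ≤ 0 := by
      by_contra hcon
      push Not at hcon
      have := mul_pos O.kmin0 hcon
      linarith
    have h4 : t = s := le_antisymm (by linarith) hst
    subst h4
    simp

theorem TlBox.abs_le (B : TlBox k M r0 r1 u0 u1 al) (O : TlOk k M r0 r1 u0 u1 kmin Mmax) {s t : ℝ}
    (hs : s ∈ Icc r0 r1) (ht : t ∈ Icc r0 r1) : |al t - al s| ≤ Mmax * |t - s| := by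
  rcases le_total s t with h | h
  · have h1 := B.upper O hs.1 h ht.2
    have h2 := B.monoOn O hs ht h
    rw [abs_of_nonneg (by linarith), abs_of_nonneg (by linarith)]
    exact h1
  · have h1 := B.upper O ht.1 h hs.2
    have h2 := B.monoOn O ht hs h
    rw [abs_of_nonpos (by linarith), abs_of_nonpos (by linarith)]
    linarith

theorem TlBox.abs_ge (B : TlBox k M r0 r1 u0 u1 al) (O : TlOk k M r0 r1 u0 u1 kmin Mmax) {s t : ℝ}
    (hs : s ∈ Icc r0 r1) (ht : t ∈ Icc r0 r1) : kmin * |t - s| ≤ |al t - al s| := by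
  rcases le_total s t with h | h
  · have h1 := B.lower O hs.1 h ht.2
    have h2 := B.monoOn O hs ht h
    rw [abs_of_nonneg (by linarith : (0:ℝ) ≤ t - s), abs_of_nonneg (by linarith)]
    exact h1
  · have h1 := B.lower O ht.1 h hs.2
    have h2 := B.monoOn O ht hs h
    rw [abs_of_nonpos (by linarith : t - s ≤ 0), abs_of_nonpos (by linarith)]
    linarith

/-- **`al` is Lipschitz** with the constant `Mmax` -/
theorem TlBox.lipschitzOn (B : TlBox k M r0 r1 u0 u1 al) (O : TlOk k M r0 r1 u0 u1 kmin Mmax) :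
    LipschitzOnWith (Real.toNNReal Mmax) al (Icc r0 r1) := by
  apply LipschitzOnWith.of_le_add_mul'
  intro x hx y hy
  have := B.abs_le O hy hx
  rw [Real.dist_eq]
  have h2 := le_abs_self (al x - al y)
  linarith

theorem TlBox.continuousOn (B : TlBox k M r0 r1 u0 u1 al) (O : TlOk k M r0 r1 u0 u1 kmin Mmax) :
    ContinuousOn al (Icc r0 r1) := (B.lipschitzOn O).continuousOn

theorem TlBox.M_comp_continuousOn (B : TlBox k M r0 r1 u0 u1 al) (O : TlOk k M r0 r1 u0 u1 kmin Mmax) :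
    ContinuousOn (fun x => M (al x)) (Icc r0 r1) :=
  O.Mcont.comp (B.continuousOn O) (fun _ hx => B.mem O hx)

theorem TlBox.M_comp_int (B : TlBox k M r0 r1 u0 u1 al) (O : TlOk k M r0 r1 u0 u1 kmin Mmax) {s t : ℝ}
    (hs : r0 ≤ s) (hst : s ≤ t) (ht : t ≤ r1) : IntervalIntegrable (fun x => M (al x)) volume s t := by
  apply ContinuousOn.intervalIntegrable
  rw [uIcc_of_le hst]
  exact (B.M_comp_continuousOn O).mono (Icc_subset_Icc hs ht)

theorem TlBox.surjOn (B : TlBox k M r0 r1 u0 u1 al) (O : TlOk k M r0 r1 u0 u1 kmin Mmax) :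
    SurjOn al (Icc r0 r1) (Icc u0 u1) := by
  have := intermediate_value_Icc O.r01 (B.continuousOn O)
  rwa [B.left, B.right] at this

theorem TlBox.bijOn (B : TlBox k M r0 r1 u0 u1 al) (O : TlOk k M r0 r1 u0 u1 kmin Mmax) :
    BijOn al (Icc r0 r1) (Icc u0 u1) :=
  ⟨fun _ hx => B.mem O hx, (B.strictMonoOn O).injOn, B.surjOn O⟩

/-- membership only depends on the values on `[r0,r1]` -/
theorem TlBox.congr {be : ℝ → ℝ} (B : TlBox k M r0 r1 u0 u1 al) (h01 : r0 ≤ r1) (h : EqOn al be (Icc r0 r1)) :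
    TlBox k M r0 r1 u0 u1 be := by
  refine ⟨?_, ?_, ?_, ?_⟩
  · rw [← h (left_mem_Icc.2 h01)]; exact B.left
  · rw [← h (right_mem_Icc.2 h01)]; exact B.right
  · intro s t hs hst ht
    rw [← h ⟨hs.trans hst, ht⟩, ← h ⟨hs, hst.trans ht⟩]
    exact B.lo s t hs hst ht
  · intro s t hs hst ht
    rw [← h ⟨hs.trans hst, ht⟩, ← h ⟨hs, hst.trans ht⟩]
    refine (B.hi s t hs hst ht).trans (le_of_eq ?_)
    apply intervalIntegral.integral_congr
    intro x hx
    rw [uIcc_of_le hst] at hx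
    simp only
    rw [h ⟨hs.trans hx.1, hx.2.trans ht⟩]

/-- restriction to a sub-interval -/
theorem TlBox.restrict (B : TlBox k M r0 r1 u0 u1 al) {s t : ℝ} (hs : r0 ≤ s) (ht : t ≤ r1) :
    TlBox k M s t (al s) (al t) al :=
  ⟨rfl, rfl, fun a b ha hab hb => B.lo a b (hs.trans ha) hab (hb.trans ht),
    fun a b ha hab hb => B.hi a b (hs.trans ha) hab (hb.trans ht)⟩

theorem TlOk.restrict (O : TlOk k M r0 r1 u0 u1 kmin Mmax) {s t v w : ℝ} (hs : r0 ≤ s) (hst : s ≤ t) (ht : t ≤ r1)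
    (hv : u0 ≤ v) (hw : w ≤ u1) : TlOk k M s t v w kmin Mmax :=
  ⟨hst, O.kmin0, O.kint_sub hs hst ht, fun r hr => O.kge r ⟨hs.trans hr.1, hr.2.trans ht⟩,
    O.Mcont.mono (Icc_subset_Icc hv hw), fun u hu => O.Mle u ⟨hv.trans hu.1, hu.2.trans hw⟩⟩

end basic

/-! ## the inverse (quantile) -/

/-- the canonical inverse (quantile) of a box member -/
def tlInv (al : ℝ → ℝ) (r0 r1 : ℝ) : ℝ → ℝ := Function.invFunOn al (Icc r0 r1)

/-- `r` is a quantile of `al`: a right inverse on `[u0,u1]` with values in `[r0,r1]` (the fields `r_mem`, `al_r` of `CmQ`) -/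
structure TlQ (al : ℝ → ℝ) (r0 r1 u0 u1 : ℝ) (r : ℝ → ℝ) : Prop where
  mem : ∀ u ∈ Icc u0 u1, r u ∈ Icc r0 r1
  al_r : ∀ u ∈ Icc u0 u1, al (r u) = u

section inverse

variable {k M : ℝ → ℝ} {r0 r1 u0 u1 kmin Mmax : ℝ} {al r : ℝ → ℝ}

theorem TlBox.tlInv_isQ (B : TlBox k M r0 r1 u0 u1 al) (O : TlOk k M r0 r1 u0 u1 kmin Mmax) :
    TlQ al r0 r1 u0 u1 (tlInv al r0 r1) :=
  ⟨fun _ hu => Function.invFunOn_mem (B.surjOn O hu), fun _ hu => Function.invFunOn_eq (B.surjOn O hu)⟩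

theorem TlQ.r_al (Q : TlQ al r0 r1 u0 u1 r) (B : TlBox k M r0 r1 u0 u1 al) (O : TlOk k M r0 r1 u0 u1 kmin Mmax)
    {x : ℝ} (hx : x ∈ Icc r0 r1) : r (al x) = x :=
  (B.strictMonoOn O).injOn (Q.mem _ (B.mem O hx)) hx (Q.al_r _ (B.mem O hx))

theorem TlQ.unique {ρ : ℝ → ℝ} (Q : TlQ al r0 r1 u0 u1 r) (Q' : TlQ al r0 r1 u0 u1 ρ) (B : TlBox k M r0 r1 u0 u1 al)
    (O : TlOk k M r0 r1 u0 u1 kmin Mmax) : EqOn r ρ (Icc u0 u1) := fun u hu =>
  (B.strictMonoOn O).injOn (Q.mem u hu) (Q'.mem u hu) ((Q.al_r u hu).trans (Q'.al_r u hu).symm)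

theorem TlQ.left (Q : TlQ al r0 r1 u0 u1 r) (B : TlBox k M r0 r1 u0 u1 al) (O : TlOk k M r0 r1 u0 u1 kmin Mmax) :
    r u0 = r0 := by
  have := Q.r_al B O (left_mem_Icc.2 O.r01)
  rwa [B.left] at this

theorem TlQ.right (Q : TlQ al r0 r1 u0 u1 r) (B : TlBox k M r0 r1 u0 u1 al) (O : TlOk k M r0 r1 u0 u1 kmin Mmax) :
    r u1 = r1 := by
  have := Q.r_al B O (right_mem_Icc.2 O.r01)
  rwa [B.right] at this

theorem TlQ.strictMonoOn (Q : TlQ al r0 r1 u0 u1 r) (B : TlBox k M r0 r1 u0 u1 al)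
    (O : TlOk k M r0 r1 u0 u1 kmin Mmax) : StrictMonoOn r (Icc u0 u1) := by
  intro u hu v hv huv
  by_contra hcon
  push Not at hcon
  have := B.monoOn O (Q.mem v hv) (Q.mem u hu) hcon
  rw [Q.al_r u hu, Q.al_r v hv] at this
  linarith

theorem TlQ.monoOn (Q : TlQ al r0 r1 u0 u1 r) (B : TlBox k M r0 r1 u0 u1 al)
    (O : TlOk k M r0 r1 u0 u1 kmin Mmax) : MonotoneOn r (Icc u0 u1) := (Q.strictMonoOn B O).monotoneOn

/-- **the inverse has slope `≤ 1/kmin`** -/
theorem TlQ.upper (Q : TlQ al r0 r1 u0 u1 r) (B : TlBox k M r0 r1 u0 u1 al) (O : TlOk k M r0 r1 u0 u1 kmin Mmax)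
    {u v : ℝ} (hu : u0 ≤ u) (huv : u ≤ v) (hv : v ≤ u1) : kmin * (r v - r u) ≤ v - u := by
  have hu' : u ∈ Icc u0 u1 := ⟨hu, huv.trans hv⟩
  have hv' : v ∈ Icc u0 u1 := ⟨hu.trans huv, hv⟩
  have := B.lower O (Q.mem u hu').1 (Q.monoOn B O hu' hv' huv) (Q.mem v hv').2
  rwa [Q.al_r u hu', Q.al_r v hv'] at this

/-- **the inverse has slope `≥ 1/Mmax`** -/
theorem TlQ.lower (Q : TlQ al r0 r1 u0 u1 r) (B : TlBox k M r0 r1 u0 u1 al) (O : TlOk k M r0 r1 u0 u1 kmin Mmax)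
    {u v : ℝ} (hu : u0 ≤ u) (huv : u ≤ v) (hv : v ≤ u1) : v - u ≤ Mmax * (r v - r u) := by
  have hu' : u ∈ Icc u0 u1 := ⟨hu, huv.trans hv⟩
  have hv' : v ∈ Icc u0 u1 := ⟨hu.trans huv, hv⟩
  have := B.upper O (Q.mem u hu').1 (Q.monoOn B O hu' hv' huv) (Q.mem v hv').2
  rwa [Q.al_r u hu', Q.al_r v hv'] at this

theorem TlQ.abs_le (Q : TlQ al r0 r1 u0 u1 r) (B : TlBox k M r0 r1 u0 u1 al) (O : TlOk k M r0 r1 u0 u1 kmin Mmax)
    {u v : ℝ} (hu : u ∈ Icc u0 u1) (hv : v ∈ Icc u0 u1) : |r v - r u| ≤ |v - u| / kmin := by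
  rw [le_div_iff₀ O.kmin0, mul_comm]
  have := B.abs_ge O (Q.mem u hu) (Q.mem v hv)
  rwa [Q.al_r u hu, Q.al_r v hv] at this

/-- **the inverse is Lipschitz** with the constant `1/kmin` -/
theorem TlQ.lipschitzOn (Q : TlQ al r0 r1 u0 u1 r) (B : TlBox k M r0 r1 u0 u1 al)
    (O : TlOk k M r0 r1 u0 u1 kmin Mmax) : LipschitzOnWith (Real.toNNReal (1 / kmin)) r (Icc u0 u1) := by
  apply LipschitzOnWith.of_le_add_mul'
  intro x hx y hy
  have := Q.abs_le B O hy hx
  rw [Real.dist_eq]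
  have h2 := le_abs_self (r x - r y)
  have h3 : |x - y| / kmin = 1 / kmin * |x - y| := by ring
  linarith

theorem TlQ.continuousOn (Q : TlQ al r0 r1 u0 u1 r) (B : TlBox k M r0 r1 u0 u1 al)
    (O : TlOk k M r0 r1 u0 u1 kmin Mmax) : ContinuousOn r (Icc u0 u1) := (Q.lipschitzOn B O).continuousOn

theorem TlQ.bijOn (Q : TlQ al r0 r1 u0 u1 r) (B : TlBox k M r0 r1 u0 u1 al)
    (O : TlOk k M r0 r1 u0 u1 kmin Mmax) : BijOn r (Icc u0 u1) (Icc r0 r1) :=
  ⟨Q.mem, (Q.strictMonoOn B O).injOn, fun x hx => ⟨al x, B.mem O hx, Q.r_al B O hx⟩⟩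

/-- **stability of the inverse**: `sup |r - ρ| ≤ sup |al - be| / kmin`.   Only ONE of the two functions has to be in the box. -/
theorem tl_252_inv_stable {be ρ : ℝ → ℝ} {ε : ℝ} (B : TlBox k M r0 r1 u0 u1 al) (O : TlOk k M r0 r1 u0 u1 kmin Mmax)
    (Q : TlQ al r0 r1 u0 u1 r) (Q' : TlQ be r0 r1 u0 u1 ρ) (h : ∀ x ∈ Icc r0 r1, |al x - be x| ≤ ε) :
    ∀ u ∈ Icc u0 u1, |r u - ρ u| ≤ ε / kmin := by
  intro u hu
  rw [le_div_iff₀ O.kmin0, mul_comm]
  have h1 := B.abs_ge O (Q'.mem u hu) (Q.mem u hu)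
  have h2 := h _ (Q'.mem u hu)
  rw [Q.al_r u hu] at h1
  rw [Q'.al_r u hu] at h2
  rw [abs_sub_comm] at h2
  exact h1.trans h2

/-- uniform convergence of box members gives uniform convergence of the quantiles (any filter) -/
theorem tl_252_inv_tendsto {ι : Type*} {l : Filter ι} {a ρ : ι → ℝ → ℝ} (B : TlBox k M r0 r1 u0 u1 al)
    (O : TlOk k M r0 r1 u0 u1 kmin Mmax) (Q : TlQ al r0 r1 u0 u1 r) (Q' : ∀ j, TlQ (a j) r0 r1 u0 u1 (ρ j))
    (h : TendstoUniformlyOn a al l (Icc r0 r1)) : TendstoUniformlyOn ρ r l (Icc u0 u1) := by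
  rw [Metric.tendstoUniformlyOn_iff] at h ⊢
  intro ε hε
  filter_upwards [h (ε * kmin / 2) (by have := O.kmin0; positivity)] with j hj u hu
  have h1 := tl_252_inv_stable (ε := ε * kmin / 2) B O Q (Q' j) (fun x hx => by
    have := hj x hx
    rw [Real.dist_eq] at this
    exact this.le) u hu
  rw [Real.dist_eq]
  have h2 : ε * kmin / 2 / kmin = ε / 2 := by
    have := O.kmin0.ne'
    field_simp
  rw [h2] at h1
  linarith

end inverse

/-! ## limits and compactness -/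

/-- the box as a set of continuous functions on `[r0,r1]` (uniform metric) -/
def tlSet (k M : ℝ → ℝ) {r0 r1 : ℝ} (h01 : r0 ≤ r1) (u0 u1 : ℝ) : Set C(Icc r0 r1, ℝ) :=
  {f | TlBox k M r0 r1 u0 u1 (IccExtend h01 f)}

section limits

variable {k M : ℝ → ℝ} {r0 r1 u0 u1 kmin Mmax : ℝ} {al : ℝ → ℝ}

/-- **pointwise limits stay in the box** (countably generated filter: sequences) -/
theorem tl_252_closed {ι : Type*} {l : Filter ι} [l.NeBot] [l.IsCountablyGenerated] {a : ι → ℝ → ℝ}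
    (O : TlOk k M r0 r1 u0 u1 kmin Mmax) (hB : ∀ᶠ j in l, TlBox k M r0 r1 u0 u1 (a j))
    (hlim : ∀ x ∈ Icc r0 r1, Tendsto (fun j => a j x) l (𝓝 (al x))) : TlBox k M r0 r1 u0 u1 al := by
  have hmem : ∀ x ∈ Icc r0 r1, al x ∈ Icc u0 u1 := fun x hx =>
    isClosed_Icc.mem_of_tendsto (hlim x hx) (hB.mono fun j hj => hj.mem O hx)
  obtain ⟨C, hC⟩ := isCompact_Icc.exists_bound_of_continuousOn O.Mcont
  refine ⟨?_, ?_, ?_, ?_⟩
  · exact tendsto_nhds_unique (hlim r0 (left_mem_Icc.2 O.r01))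
      (tendsto_const_nhds.congr' (hB.mono fun j hj => hj.left.symm))
  · exact tendsto_nhds_unique (hlim r1 (right_mem_Icc.2 O.r01))
      (tendsto_const_nhds.congr' (hB.mono fun j hj => hj.right.symm))
  · intro s t hs hst ht
    have h1 := (hlim t ⟨hs.trans hst, ht⟩).sub (hlim s ⟨hs, hst.trans ht⟩)
    exact ge_of_tendsto h1 (hB.mono fun j hj => hj.lo s t hs hst ht)
  · intro s t hs hst ht
    have h1 := (hlim t ⟨hs.trans hst, ht⟩).sub (hlim s ⟨hs, hst.trans ht⟩)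
    have h2 : Tendsto (fun j => ∫ x in s..t, M (a j x)) l (𝓝 (∫ x in s..t, M (al x))) := by
      apply intervalIntegral.tendsto_integral_filter_of_dominated_convergence (fun _ => C)
      · filter_upwards [hB] with j hj
        have := (hj.M_comp_int O hs hst ht).1.aestronglyMeasurable
        rwa [uIoc_of_le hst]
      · filter_upwards [hB] with j hj
        apply Eventually.of_forall
        intro x hx
        rw [uIoc_of_le hst] at hx
        exact hC _ (hj.mem O ⟨hs.trans hx.1.le, hx.2.trans ht⟩)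
      · exact intervalIntegrable_const
      · apply Eventually.of_forall
        intro x hx
        rw [uIoc_of_le hst] at hx
        have hx' : x ∈ Icc r0 r1 := ⟨hs.trans hx.1.le, hx.2.trans ht⟩
        have h3 : Tendsto M (𝓝[Icc u0 u1] (al x)) (𝓝 (M (al x))) := O.Mcont (al x) (hmem x hx')
        exact h3.comp (tendsto_nhdsWithin_iff.2 ⟨hlim x hx', hB.mono fun j hj => hj.mem O hx'⟩)
    exact le_of_tendsto_of_tendsto h1 h2 (hB.mono fun j hj => hj.hi s t hs hst ht)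

theorem tl_252_mem_tlSet {h01 : r0 ≤ r1} {f : C(Icc r0 r1, ℝ)} :
    f ∈ tlSet k M h01 u0 u1 ↔ TlBox k M r0 r1 u0 u1 (IccExtend h01 f) := Iff.rfl

/-- a box member as a continuous function on `[r0,r1]` -/
def TlBox.toC (B : TlBox k M r0 r1 u0 u1 al) (O : TlOk k M r0 r1 u0 u1 kmin Mmax) : C(Icc r0 r1, ℝ) :=
  ⟨(Icc r0 r1).domRestrict al, (B.continuousOn O).domRestrict⟩

theorem TlBox.toC_apply (B : TlBox k M r0 r1 u0 u1 al) (O : TlOk k M r0 r1 u0 u1 kmin Mmax) (x : Icc r0 r1) :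
    B.toC O x = al x := rfl

theorem TlBox.toC_extend (B : TlBox k M r0 r1 u0 u1 al) (O : TlOk k M r0 r1 u0 u1 kmin Mmax) :
    EqOn al (IccExtend O.r01 (B.toC O)) (Icc r0 r1) := by
  intro x hx
  rw [IccExtend_of_mem _ _ hx]
  rfl

theorem TlBox.toC_mem (B : TlBox k M r0 r1 u0 u1 al) (O : TlOk k M r0 r1 u0 u1 kmin Mmax) :
    B.toC O ∈ tlSet k M O.r01 u0 u1 := B.congr O.r01 (B.toC_extend O)

/-- **the box is closed** in the uniform topology -/
theorem tl_252_isClosed (O : TlOk k M r0 r1 u0 u1 kmin Mmax) : IsClosed (tlSet k M O.r01 u0 u1) := by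
  apply IsSeqClosed.isClosed
  intro f g hf hfg
  apply tl_252_closed (l := atTop) (a := fun n => IccExtend O.r01 (f n)) O (Eventually.of_forall hf)
  intro x _
  exact ((continuous_eval_const (F := C(Icc r0 r1, ℝ)) (projIcc r0 r1 O.r01 x)).tendsto g).comp hfg

/-- **the box is compact** in the uniform topology (Arzela-Ascoli) -/
theorem tl_252_isCompact (O : TlOk k M r0 r1 u0 u1 kmin Mmax) : IsCompact (tlSet k M O.r01 u0 u1) := by
  let e := (ContinuousMap.isometryEquivBoundedOfCompact (Icc r0 r1) ℝ).toHomeomorph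
  have hval : ∀ f : C(Icc r0 r1, ℝ), ∀ x, e f x = f x := fun _ _ => rfl
  rw [← e.isCompact_image]
  have hmem : ∀ g ∈ e '' tlSet k M O.r01 u0 u1, TlBox k M r0 r1 u0 u1 (IccExtend O.r01 g) := by
    rintro g ⟨f, hf, rfl⟩
    exact hf
  apply BoundedContinuousFunction.arzela_ascoli₂ (Icc u0 u1) isCompact_Icc
  · exact (e.isClosed_image).2 (tl_252_isClosed O)
  · intro g x hg
    have := (hmem g hg).mem O x.2
    rwa [IccExtend_val] at this
  · apply UniformEquicontinuous.equicontinuous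
    apply LipschitzWith.uniformEquicontinuous _ (Real.toNNReal Mmax)
    intro g
    apply LipschitzWith.of_le_add_mul'
    intro x y
    have := (hmem g.1 g.2).abs_le O y.2 x.2
    rw [IccExtend_val, IccExtend_val] at this
    have h2 := le_abs_self ((g.1 : Icc r0 r1 → ℝ) x - (g.1 : Icc r0 r1 → ℝ) y)
    have h3 : dist x y = |(x : ℝ) - y| := rfl
    rw [h3]
    linarith

end limits

/-! ## consequences of compactness, at the level of functions `ℝ → ℝ` -/

section compactcor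

variable {k M : ℝ → ℝ} {r0 r1 u0 u1 kmin Mmax : ℝ} {al : ℝ → ℝ}

theorem tl_252_compactSpace (O : TlOk k M r0 r1 u0 u1 kmin Mmax) : CompactSpace (tlSet k M O.r01 u0 u1) :=
  isCompact_iff_compactSpace.1 (tl_252_isCompact O)

/-- convergence in `C([r0,r1])` = uniform convergence on `[r0,r1]` of the extensions -/
theorem tl_252_tendsto_iff {ι : Type*} {l : Filter ι} (h01 : r0 ≤ r1) {F : ι → C(Icc r0 r1, ℝ)} {f : C(Icc r0 r1, ℝ)} :
    Tendsto F l (𝓝 f) ↔ TendstoUniformlyOn (fun j => IccExtend h01 (F j)) (IccExtend h01 f) l (Icc r0 r1) := by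
  rw [ContinuousMap.tendsto_iff_tendstoUniformly, tendstoUniformlyOn_iff_tendstoUniformly_comp_coe]
  have h1 : (fun j (x : Icc r0 r1) => IccExtend h01 (F j) x) = fun j x => F j x := by
    funext j x
    rw [IccExtend_val]
  have h2 : (IccExtend h01 f ∘ ((↑) : Icc r0 r1 → ℝ)) = f := by
    funext x
    simp only [Function.comp]
    rw [IccExtend_val]
  rw [h1, h2]

theorem tl_252_tendsto_toC_iff {ι : Type*} {l : Filter ι} {a : ι → ℝ → ℝ} (O : TlOk k M r0 r1 u0 u1 kmin Mmax)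
    (hB : ∀ j, TlBox k M r0 r1 u0 u1 (a j)) (B : TlBox k M r0 r1 u0 u1 al) :
    Tendsto (fun j => (hB j).toC O) l (𝓝 (B.toC O)) ↔ TendstoUniformlyOn a al l (Icc r0 r1) := by
  rw [tl_252_tendsto_iff O.r01]
  constructor
  · intro h
    refine (h.congr (Eventually.of_forall fun j => ((hB j).toC_extend O).symm)).congr_right ?_
    exact (B.toC_extend O).symm
  · intro h
    refine (h.congr (Eventually.of_forall fun j => ((hB j).toC_extend O))).congr_right ?_
    exact (B.toC_extend O)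

/-- **limits along an ultrafilter**: every family of box members has a uniform limit in the box -/
theorem tl_252_ultra {ι : Type*} (U : Ultrafilter ι) {a : ι → ℝ → ℝ} (O : TlOk k M r0 r1 u0 u1 kmin Mmax)
    (hB : ∀ j, TlBox k M r0 r1 u0 u1 (a j)) :
    ∃ al, TlBox k M r0 r1 u0 u1 al ∧ TendstoUniformlyOn a al U (Icc r0 r1) := by
  obtain ⟨f, hf, hUf⟩ := (tl_252_isCompact O).ultrafilter_le_nhds (U.map fun j => (hB j).toC O) (by
    rw [le_principal_iff]
    exact Filter.mem_map.2 (Eventually.of_forall fun j => (hB j).toC_mem O))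
  refine ⟨IccExtend O.r01 f, hf, ?_⟩
  have h1 : Tendsto (fun j => (hB j).toC O) U (𝓝 f) := hUf
  rw [tl_252_tendsto_iff O.r01] at h1
  exact h1.congr (Eventually.of_forall fun j => ((hB j).toC_extend O).symm)

/-- **sequential compactness** -/
theorem tl_252_subseq {a : ℕ → ℝ → ℝ} (O : TlOk k M r0 r1 u0 u1 kmin Mmax)
    (hB : ∀ j, TlBox k M r0 r1 u0 u1 (a j)) :
    ∃ al, TlBox k M r0 r1 u0 u1 al ∧ ∃ φ : ℕ → ℕ, StrictMono φ ∧
      TendstoUniformlyOn (fun j => a (φ j)) al atTop (Icc r0 r1) := by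
  obtain ⟨f, hf, φ, hφ, hlim⟩ := (tl_252_isCompact O).tendsto_subseq (x := fun j => (hB j).toC O)
    (fun j => (hB j).toC_mem O)
  refine ⟨IccExtend O.r01 f, hf, φ, hφ, ?_⟩
  rw [tl_252_tendsto_iff O.r01] at hlim
  exact hlim.congr (Eventually.of_forall fun j => ((hB (φ j)).toC_extend O).symm)

/-- **the minimum of a continuous functional is attained** (`C([r0,r1])` form) -/
theorem tl_252_exists_min_C (O : TlOk k M r0 r1 u0 u1 kmin Mmax) (hne : (tlSet k M O.r01 u0 u1).Nonempty)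
    {G : C(Icc r0 r1, ℝ) → ℝ} (hG : ContinuousOn G (tlSet k M O.r01 u0 u1)) :
    ∃ f ∈ tlSet k M O.r01 u0 u1, IsMinOn G (tlSet k M O.r01 u0 u1) f :=
  (tl_252_isCompact O).exists_isMinOn hne hG

/-- **the minimum of a (sequentially, uniformly) continuous functional of `al` is attained** -/
theorem tl_252_exists_min (O : TlOk k M r0 r1 u0 u1 kmin Mmax) (hne : ∃ al, TlBox k M r0 r1 u0 u1 al)
    (F : (ℝ → ℝ) → ℝ)
    (hF : ∀ (a : ℕ → ℝ → ℝ) (al : ℝ → ℝ), (∀ j, TlBox k M r0 r1 u0 u1 (a j)) → TlBox k M r0 r1 u0 u1 al →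
      TendstoUniformlyOn a al atTop (Icc r0 r1) → Tendsto (fun j => F (a j)) atTop (𝓝 (F al))) :
    ∃ al, TlBox k M r0 r1 u0 u1 al ∧ ∀ be, TlBox k M r0 r1 u0 u1 be → F al ≤ F be := by
  obtain ⟨al0, B0⟩ := hne
  have hG : ContinuousOn (fun f : C(Icc r0 r1, ℝ) => F (IccExtend O.r01 f)) (tlSet k M O.r01 u0 u1) := by
    rw [continuousOn_iff_continuous_domRestrict]
    apply SeqContinuous.continuous
    intro x y hxy
    have h1 : Tendsto (fun j => (x j : C(Icc r0 r1, ℝ))) atTop (𝓝 (y : C(Icc r0 r1, ℝ))) :=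
      (continuous_subtype_val.tendsto y).comp hxy
    rw [tl_252_tendsto_iff O.r01] at h1
    exact hF _ _ (fun j => (x j).2) y.2 h1
  obtain ⟨f, hf, hmin⟩ := tl_252_exists_min_C O ⟨_, B0.toC_mem O⟩ hG
  refine ⟨IccExtend O.r01 f, hf, fun be Bb => ?_⟩
  have h1 := hmin (Bb.toC_mem O)
  have h2 : F (IccExtend O.r01 (Bb.toC O)) = F be := by
    have h3 := hF (fun _ => IccExtend O.r01 (Bb.toC O)) be (fun _ => Bb.toC_mem O) Bb (by
      have : TendstoUniformlyOn (fun _ : ℕ => be) be atTop (Icc r0 r1) := by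
        rw [Metric.tendstoUniformlyOn_iff]
        intro ε hε
        exact Eventually.of_forall fun _ x _ => by simpa using hε
      exact this.congr (Eventually.of_forall fun _ => Bb.toC_extend O))
    exact tendsto_nhds_unique tendsto_const_nhds h3
  simp only [mem_ofPred_eq] at h1
  rw [h2] at h1
  exact h1

/-- **the minimum of a continuous functional of the QUANTILE is attained** (the form of PE (6)) -/
theorem tl_252_exists_min_Q (O : TlOk k M r0 r1 u0 u1 kmin Mmax) (hne : ∃ al, TlBox k M r0 r1 u0 u1 al)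
    (F : (ℝ → ℝ) → ℝ)
    (hF : ∀ (a ρ : ℕ → ℝ → ℝ) (al r : ℝ → ℝ), (∀ j, TlBox k M r0 r1 u0 u1 (a j)) → (∀ j, TlQ (a j) r0 r1 u0 u1 (ρ j)) →
      TlBox k M r0 r1 u0 u1 al → TlQ al r0 r1 u0 u1 r →
      TendstoUniformlyOn ρ r atTop (Icc u0 u1) → Tendsto (fun j => F (ρ j)) atTop (𝓝 (F r))) :
    ∃ al r, TlBox k M r0 r1 u0 u1 al ∧ TlQ al r0 r1 u0 u1 r ∧
      ∀ be ρ, TlBox k M r0 r1 u0 u1 be → TlQ be r0 r1 u0 u1 ρ → F r ≤ F ρ := by
  obtain ⟨al, B, hmin⟩ := tl_252_exists_min O hne (fun al => F (tlInv al r0 r1)) (by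
    intro a al hB B hlim
    exact hF a _ al _ hB (fun j => (hB j).tlInv_isQ O) B (B.tlInv_isQ O)
      (tl_252_inv_tendsto B O (B.tlInv_isQ O) (fun j => (hB j).tlInv_isQ O) hlim))
  refine ⟨al, tlInv al r0 r1, B, B.tlInv_isQ O, fun be ρ Bb Qb => ?_⟩
  have h1 := hmin be Bb
  have h2 : F (tlInv be r0 r1) = F ρ := by
    have h3 := hF (fun _ => be) (fun _ => tlInv be r0 r1) be ρ (fun _ => Bb) (fun _ => Bb.tlInv_isQ O) Bb Qb (by
      have : TendstoUniformlyOn (fun _ : ℕ => ρ) ρ atTop (Icc u0 u1) := by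
        rw [Metric.tendstoUniformlyOn_iff]
        intro ε hε
        exact Eventually.of_forall fun _ x _ => by simpa using hε
      exact this.congr (Eventually.of_forall fun _ => Qb.unique (Bb.tlInv_isQ O) Bb O))
    exact tendsto_nhds_unique tendsto_const_nhds h3
  rw [h2] at h1
  exact h1

end compactcor

/-! ## gluing, the floor arc, the cap flow, NONEMPTINESS -/

/-- travel time of the cap flow from mass `u0` to mass `u` -/
def tlT (M : ℝ → ℝ) (u0 u : ℝ) : ℝ := ∫ v in u0..u, 1 / M v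

/-- the cap flow started at mass `u0` at time `0` (solution of `S' = M(S)`), for times in `[0, tlT M u0 u1]` -/
def tlS (M : ℝ → ℝ) (u0 u1 : ℝ) : ℝ → ℝ := tlInv (tlT M u0) u0 u1

section nonempty

variable {k M : ℝ → ℝ} {r0 r1 u0 u1 kmin Mmax : ℝ} {al : ℝ → ℝ}

/-- gluing: a function which is in the box on `[r0,τ]` and on `[τ,r1]` is in the box on `[r0,r1]` -/
theorem TlBox.glue' {τ v : ℝ} (O : TlOk k M r0 r1 u0 u1 kmin Mmax) (h0 : r0 ≤ τ) (h1 : τ ≤ r1)
    (hv0 : u0 ≤ v) (hv1 : v ≤ u1) (B1 : TlBox k M r0 τ u0 v al) (B2 : TlBox k M τ r1 v u1 al) :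
    TlBox k M r0 r1 u0 u1 al := by
  have O1 : TlOk k M r0 τ u0 v kmin Mmax := O.restrict le_rfl h0 h1 le_rfl hv1
  have O2 : TlOk k M τ r1 v u1 kmin Mmax := O.restrict h0 h1 le_rfl hv0 le_rfl
  refine ⟨B1.left, B2.right, ?_, ?_⟩
  · intro s t hs hst ht
    rcases le_total t τ with h | h
    · exact B1.lo s t hs hst h
    rcases le_total τ s with h' | h'
    · exact B2.lo s t h' hst ht
    have e1 := B1.lo s τ hs h' le_rfl
    have e2 := B2.lo τ t le_rfl h ht
    rw [← intervalIntegral.integral_add_adjacent_intervals (O.kint_sub hs h' h1) (O.kint_sub h0 h ht)]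
    linarith
  · intro s t hs hst ht
    rcases le_total t τ with h | h
    · exact B1.hi s t hs hst h
    rcases le_total τ s with h' | h'
    · exact B2.hi s t h' hst ht
    have e1 := B1.hi s τ hs h' le_rfl
    have e2 := B2.hi τ t le_rfl h ht
    rw [← intervalIntegral.integral_add_adjacent_intervals (B1.M_comp_int O1 hs h' le_rfl)
      (B2.M_comp_int O2 le_rfl h ht)]
    linarith

/-- **gluing two arcs** -/
theorem TlBox.glue {τ v : ℝ} {al1 al2 : ℝ → ℝ} (O : TlOk k M r0 r1 u0 u1 kmin Mmax) (h0 : r0 ≤ τ) (h1 : τ ≤ r1)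
    (hv0 : u0 ≤ v) (hv1 : v ≤ u1) (B1 : TlBox k M r0 τ u0 v al1) (B2 : TlBox k M τ r1 v u1 al2) :
    TlBox k M r0 r1 u0 u1 (fun x => if x ≤ τ then al1 x else al2 x) := by
  apply TlBox.glue' O h0 h1 hv0 hv1
  · apply B1.congr h0
    intro x hx
    simp only [if_pos hx.2]
  · apply B2.congr h1
    intro x hx
    rcases eq_or_lt_of_le hx.1 with h | h
    · subst h
      simp only [le_refl, if_true]
      rw [B2.left, B1.right]
    · simp only [if_neg (not_le.2 h)]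

/-- **the floor arc** `al = u0 + ∫ k` -/
theorem tl_252_floor_arc (O : TlOk k M r0 r1 u0 u1 kmin Mmax) (hkM : ∀ r ∈ Icc r0 r1, ∀ u ∈ Icc u0 u1, k r ≤ M u)
    {τ : ℝ} (h0 : r0 ≤ τ) (h1 : τ ≤ r1) (hτ : u0 + ∫ x in r0..τ, k x ≤ u1) :
    TlBox k M r0 τ u0 (u0 + ∫ x in r0..τ, k x) (fun r => u0 + ∫ x in r0..r, k x) := by
  have hdiff : ∀ s t : ℝ, r0 ≤ s → s ≤ t → t ≤ τ →
      (u0 + ∫ x in r0..t, k x) - (u0 + ∫ x in r0..s, k x) = ∫ x in s..t, k x := by
    intro s t hs hst ht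
    rw [← intervalIntegral.integral_interval_sub_left (O.kint_sub le_rfl (hs.trans hst) (ht.trans h1))
      (O.kint_sub le_rfl hs ((hst.trans ht).trans h1))]
    ring
  have hmem : ∀ x ∈ Icc r0 τ, u0 + ∫ y in r0..x, k y ∈ Icc u0 u1 := by
    intro x hx
    have e1 := O.floor_ge le_rfl hx.1 (hx.2.trans h1)
    have e2 := O.floor_ge hx.1 hx.2 h1
    have e3 := hdiff x τ hx.1 hx.2 le_rfl
    have e4 : 0 ≤ kmin * (x - r0) := mul_nonneg O.kmin0.le (by linarith [hx.1])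
    have e5 : 0 ≤ kmin * (τ - x) := mul_nonneg O.kmin0.le (by linarith [hx.2])
    constructor <;> linarith
  have hcont : ContinuousOn (fun r => u0 + ∫ x in r0..r, k x) (Icc r0 τ) := by
    apply continuousOn_const.add
    have := intervalIntegral.continuousOn_primitive_interval (μ := volume) (f := k) (a := r0) (b := τ) (by
      rw [uIcc_of_le h0]
      have := (O.kint_sub le_rfl h0 h1)
      rw [intervalIntegrable_iff_integrableOn_Icc_of_le h0] at this
      exact this)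
    rwa [uIcc_of_le h0] at this
  refine ⟨by simp, rfl, ?_, ?_⟩
  · intro s t hs hst ht
    exact (hdiff s t hs hst ht).ge
  · intro s t hs hst ht
    rw [hdiff s t hs hst ht]
    apply intervalIntegral.integral_mono_on hst (O.kint_sub hs hst (ht.trans h1))
    · apply ContinuousOn.intervalIntegrable
      rw [uIcc_of_le hst]
      exact (O.Mcont.comp hcont hmem).mono (Icc_subset_Icc hs ht)
    · intro x hx
      exact hkM x ⟨hs.trans hx.1, (hx.2.trans ht).trans h1⟩ _ (hmem x ⟨hs.trans hx.1, hx.2.trans ht⟩)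

/-- hypotheses on the cap alone -/
structure TlCap (M : ℝ → ℝ) (u0 u1 kmin Mmax : ℝ) : Prop where
  u01 : u0 ≤ u1
  kmin0 : 0 < kmin
  Mcont : ContinuousOn M (Icc u0 u1)
  Mge : ∀ u ∈ Icc u0 u1, kmin ≤ M u
  Mle : ∀ u ∈ Icc u0 u1, M u ≤ Mmax

theorem TlCap.Mmax0 (C : TlCap M u0 u1 kmin Mmax) : 0 < Mmax :=
  C.kmin0.trans_le ((C.Mge u0 (left_mem_Icc.2 C.u01)).trans (C.Mle u0 (left_mem_Icc.2 C.u01)))

theorem TlCap.inv_cont (C : TlCap M u0 u1 kmin Mmax) : ContinuousOn (fun u => 1 / M u) (Icc u0 u1) :=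
  continuousOn_const.div C.Mcont (fun u hu => (C.kmin0.trans_le (C.Mge u hu)).ne')

theorem TlCap.inv_int (C : TlCap M u0 u1 kmin Mmax) {s t : ℝ} (hs : u0 ≤ s) (hst : s ≤ t) (ht : t ≤ u1) :
    IntervalIntegrable (fun u => 1 / M u) volume s t := by
  apply ContinuousOn.intervalIntegrable
  rw [uIcc_of_le hst]
  exact C.inv_cont.mono (Icc_subset_Icc hs ht)

/-- the travel time is itself a box datum -/
theorem TlCap.okT (C : TlCap M u0 u1 kmin Mmax) :
    TlOk (fun u => 1 / M u) (fun _ => 1 / kmin) u0 u1 0 (tlT M u0 u1) (1 / Mmax) (1 / kmin) :=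
  ⟨C.u01, one_div_pos.2 C.Mmax0, C.inv_int le_rfl C.u01 le_rfl,
    fun u hu => one_div_le_one_div_of_le (C.kmin0.trans_le (C.Mge u hu)) (C.Mle u hu),
    continuousOn_const, fun _ _ => le_rfl⟩

theorem TlCap.T_sub (C : TlCap M u0 u1 kmin Mmax) {s t : ℝ} (hs : u0 ≤ s) (hst : s ≤ t) (ht : t ≤ u1) :
    tlT M u0 t - tlT M u0 s = ∫ v in s..t, 1 / M v := by
  unfold tlT
  rw [intervalIntegral.integral_interval_sub_left (C.inv_int le_rfl (hs.trans hst) ht)
    (C.inv_int le_rfl hs (hst.trans ht))]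

theorem TlCap.boxT (C : TlCap M u0 u1 kmin Mmax) :
    TlBox (fun u => 1 / M u) (fun _ => 1 / kmin) u0 u1 0 (tlT M u0 u1) (tlT M u0) := by
  refine ⟨by simp [tlT], rfl, ?_, ?_⟩
  · intro s t hs hst ht
    exact (C.T_sub hs hst ht).ge
  · intro s t hs hst ht
    rw [C.T_sub hs hst ht]
    apply intervalIntegral.integral_mono_on hst (C.inv_int hs hst ht) intervalIntegrable_const
    intro x hx
    exact one_div_le_one_div_of_le C.kmin0 (C.Mge x ⟨hs.trans hx.1, hx.2.trans ht⟩)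

theorem TlCap.isQ (C : TlCap M u0 u1 kmin Mmax) : TlQ (tlT M u0) u0 u1 0 (tlT M u0 u1) (tlS M u0 u1) :=
  C.boxT.tlInv_isQ C.okT

theorem TlCap.T_hasDerivAt (C : TlCap M u0 u1 kmin Mmax) {x : ℝ} (hx : x ∈ Ioo u0 u1) :
    HasDerivAt (tlT M u0) (1 / M x) x := by
  have hc : ContinuousAt (fun u => 1 / M u) x := C.inv_cont.continuousAt (Icc_mem_nhds hx.1 hx.2)
  apply intervalIntegral.integral_hasDerivAt_right (C.inv_int le_rfl hx.1.le hx.2.le) _ hc
  exact C.inv_cont.stronglyMeasurableAtFilter_nhdsWithin measurableSet_Icc x |>.filter_mono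
    (by rw [nhdsWithin_eq_nhds.2 (Icc_mem_nhds hx.1 hx.2)])

/-- **the cap flow solves `S' = M(S)`** (integrated form, equality) -/
theorem TlCap.flow (C : TlCap M u0 u1 kmin Mmax) {y1 y2 : ℝ} (h1 : 0 ≤ y1) (h12 : y1 ≤ y2) (h2 : y2 ≤ tlT M u0 u1) :
    tlS M u0 u1 y2 - tlS M u0 u1 y1 = ∫ y in y1..y2, M (tlS M u0 u1 y) := by
  have Q := C.isQ
  have hy1 : y1 ∈ Icc 0 (tlT M u0 u1) := ⟨h1, h12.trans h2⟩
  have hy2 : y2 ∈ Icc 0 (tlT M u0 u1) := ⟨h1.trans h12, h2⟩
  set a := tlS M u0 u1 y1 with ha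
  set b := tlS M u0 u1 y2 with hb
  have hab : a ≤ b := Q.monoOn C.boxT C.okT hy1 hy2 h12
  have ha' : a ∈ Icc u0 u1 := Q.mem y1 hy1
  have hb' : b ∈ Icc u0 u1 := Q.mem y2 hy2
  have hcv := intervalIntegral.integral_comp_mul_deriv_of_deriv_nonneg (a := a) (b := b) (f := tlT M u0)
    (f' := fun u => 1 / M u) (g := fun y => M (tlS M u0 u1 y)) (by
      rw [uIcc_of_le hab]
      exact (C.boxT.continuousOn C.okT).mono (Icc_subset_Icc ha'.1 hb'.2)) (by
      intro x hx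
      rw [min_eq_left hab, max_eq_right hab] at hx
      exact C.T_hasDerivAt ⟨ha'.1.trans_lt hx.1, hx.2.trans_le hb'.2⟩) (by
      intro x hx
      rw [min_eq_left hab, max_eq_right hab] at hx
      exact (one_div_pos.2 (C.kmin0.trans_le (C.Mge x ⟨ha'.1.trans hx.1.le, hx.2.le.trans hb'.2⟩))).le)
  rw [ha, hb, Q.al_r y1 hy1, Q.al_r y2 hy2, ← ha, ← hb] at hcv
  rw [← hcv]
  have h3 : ∫ x in a..b, ((fun y => M (tlS M u0 u1 y)) ∘ tlT M u0) x * (1 / M x) = ∫ _x in a..b, (1 : ℝ) := by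
    apply intervalIntegral.integral_congr
    intro x hx
    rw [uIcc_of_le hab] at hx
    have hx' : x ∈ Icc u0 u1 := ⟨ha'.1.trans hx.1, hx.2.trans hb'.2⟩
    simp only [Function.comp]
    rw [Q.r_al C.boxT C.okT hx']
    have := (C.kmin0.trans_le (C.Mge x hx')).ne'
    field_simp
  rw [h3]
  simp

/-- **the cap arc**: start at `(τ, v)`, follow the cap flow up to `(r1, u1)` -/
theorem tl_252_cap_arc (O : TlOk k M r0 r1 u0 u1 kmin Mmax) (hkM : ∀ r ∈ Icc r0 r1, ∀ u ∈ Icc u0 u1, k r ≤ M u)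
    (C : TlCap M u0 u1 kmin Mmax) {τ v : ℝ} (h0 : r0 ≤ τ) (_h1 : τ ≤ r1) (hv : v ∈ Icc u0 u1)
    (hτ : tlT M u0 v + (r1 - τ) = tlT M u0 u1) :
    TlBox k M τ r1 v u1 (fun r => tlS M u0 u1 (r + (tlT M u0 v - τ))) := by
  have Q := C.isQ
  have hTv := C.boxT.mem C.okT hv
  have hy : ∀ x ∈ Icc τ r1, x + (tlT M u0 v - τ) ∈ Icc 0 (tlT M u0 u1) := by
    intro x hx
    constructor
    · linarith [hx.1, hTv.1]
    · linarith [hx.2]
  have hdiff : ∀ s t : ℝ, τ ≤ s → s ≤ t → t ≤ r1 →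
      tlS M u0 u1 (t + (tlT M u0 v - τ)) - tlS M u0 u1 (s + (tlT M u0 v - τ))
        = ∫ x in s..t, M (tlS M u0 u1 (x + (tlT M u0 v - τ))) := by
    intro s t hs hst ht
    rw [C.flow (hy s ⟨hs, hst.trans ht⟩).1 (by linarith) (hy t ⟨hs.trans hst, ht⟩).2]
    rw [intervalIntegral.integral_comp_add_right (fun y => M (tlS M u0 u1 y))]
  have hcont : ContinuousOn (fun x => M (tlS M u0 u1 (x + (tlT M u0 v - τ)))) (Icc τ r1) := by
    apply C.Mcont.comp _ (fun x hx => Q.mem _ (hy x hx))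
    exact (Q.continuousOn C.boxT C.okT).comp (by fun_prop) hy
  refine ⟨?_, ?_, ?_, ?_⟩
  · have : τ + (tlT M u0 v - τ) = tlT M u0 v := by ring
    rw [this]
    exact Q.r_al C.boxT C.okT hv
  · have : r1 + (tlT M u0 v - τ) = tlT M u0 u1 := by linarith
    rw [this]
    exact Q.r_al C.boxT C.okT (right_mem_Icc.2 C.u01)
  · intro s t hs hst ht
    rw [hdiff s t hs hst ht]
    apply intervalIntegral.integral_mono_on hst (O.kint_sub (h0.trans hs) hst ht)
    · apply ContinuousOn.intervalIntegrable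
      rw [uIcc_of_le hst]
      exact hcont.mono (Icc_subset_Icc hs ht)
    · intro x hx
      exact hkM x ⟨(h0.trans hs).trans hx.1, hx.2.trans ht⟩ _ (Q.mem _ (hy x ⟨hs.trans hx.1, hx.2.trans ht⟩))
  · intro s t hs hst ht
    exact (hdiff s t hs hst ht).le

/-- **THE BOX IS NONEMPTY**: the floor alone does not overshoot the terminal mass, the cap flow reaches it in time.
    The member constructed is "floor up to a switching radius `τ`, then cap". -/
theorem tl_252_nonempty (O : TlOk k M r0 r1 u0 u1 kmin Mmax) (hkM : ∀ r ∈ Icc r0 r1, ∀ u ∈ Icc u0 u1, k r ≤ M u)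
    (hfloor : ∫ x in r0..r1, k x ≤ u1 - u0) (hcap : ∫ u in u0..u1, 1 / M u ≤ r1 - r0) :
    ∃ al, TlBox k M r0 r1 u0 u1 al := by
  have hu01 : u0 ≤ u1 := by
    have e1 := O.floor_ge le_rfl O.r01 le_rfl
    have e2 : 0 ≤ kmin * (r1 - r0) := mul_nonneg O.kmin0.le (by linarith [O.r01])
    linarith
  have C : TlCap M u0 u1 kmin Mmax := ⟨hu01, O.kmin0, O.Mcont,
    fun u hu => (O.kge r0 (left_mem_Icc.2 O.r01)).trans (hkM r0 (left_mem_Icc.2 O.r01) u hu), O.Mle⟩
  -- the primitive of the floor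
  have hKmem : ∀ x ∈ Icc r0 r1, u0 + ∫ y in r0..x, k y ∈ Icc u0 u1 := by
    intro x hx
    have e1 := O.floor_ge le_rfl hx.1 hx.2
    have e2 := O.floor_ge hx.1 hx.2 le_rfl
    have e3 := intervalIntegral.integral_add_adjacent_intervals (O.kint_sub le_rfl hx.1 hx.2)
      (O.kint_sub hx.1 hx.2 le_rfl)
    have e4 : 0 ≤ kmin * (x - r0) := mul_nonneg O.kmin0.le (by linarith [hx.1])
    have e5 : 0 ≤ kmin * (r1 - x) := mul_nonneg O.kmin0.le (by linarith [hx.2])
    constructor <;> linarith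
  have hKcont : ContinuousOn (fun r => u0 + ∫ x in r0..r, k x) (Icc r0 r1) := by
    apply continuousOn_const.add
    have := intervalIntegral.continuousOn_primitive_interval (μ := volume) (f := k) (a := r0) (b := r1) (by
      rw [uIcc_of_le O.r01]
      have := O.kint
      rw [intervalIntegrable_iff_integrableOn_Icc_of_le O.r01] at this
      exact this)
    rwa [uIcc_of_le O.r01] at this
  have hg : ContinuousOn (fun τ => tlT M u0 (u0 + ∫ x in r0..τ, k x) + (r1 - τ)) (Icc r0 r1) := by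
    apply ContinuousOn.add
    · exact (C.boxT.continuousOn C.okT).comp hKcont hKmem
    · fun_prop
  have hivt := intermediate_value_Icc' O.r01 hg
  have hT : tlT M u0 u1 ∈ Icc (tlT M u0 (u0 + ∫ x in r0..r1, k x) + (r1 - r1))
      (tlT M u0 (u0 + ∫ x in r0..r0, k x) + (r1 - r0)) := by
    constructor
    · have := C.boxT.monoOn C.okT (hKmem r1 (right_mem_Icc.2 O.r01)) (right_mem_Icc.2 hu01)
        (hKmem r1 (right_mem_Icc.2 O.r01)).2
      linarith
    · have e1 : tlT M u0 (u0 + ∫ x in r0..r0, k x) = 0 := by simp [tlT]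
      rw [e1]
      unfold tlT
      linarith
  obtain ⟨τ, hτ, hτe⟩ := hivt hT
  exact ⟨_, TlBox.glue O hτ.1 hτ.2 (hKmem τ hτ).1 (hKmem τ hτ).2
    (tl_252_floor_arc O hkM hτ.1 hτ.2 (hKmem τ hτ).2) (tl_252_cap_arc O hkM C hτ.1 hτ.2 (hKmem τ hτ) hτe)⟩

end nonempty

end

end Claimed.Agent.R286
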