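import Mathlib

/-!
# ROW 286, TOOLBOX (order O1 of helper136), owner helper151: CONVEX ORDER FOR INVERSE PAIRS      (vocabulary free, 0 sorry)

Used by LL07 `bud:envelope` (l.1185-1230).  Prefix `tl_151_`, types `Tl*`.
* `TlInv ρ0 ρ1 u0 u1 al r`   an inverse pair: inverse quantile `al : [ρ0,ρ1] → [u0,u1]` (monotone), quantile `r` (exactly the fields `al_min al_one r_mem al_r r_al` of `CmQ`).
* `tl_151_layer`      weighted layer cake  `∫_u0^u1 (∫_ρ0^{r u} w) du = ∫_ρ0^ρ1 w(t) (u1 - al t) dt`.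
* `tl_151_tail_pair`  `D` with nonnegative upper tails and mean zero, `S` monotone  ⇒  `0 ≤ ∫ S D`   ("integration by parts against a nondecreasing function", no Stieltjes integral).
* `tl_151_hinge`, `tl_151_young_le/eq`   the upper tail quantile formula  `∫_a^1 r = inf_s {(1-a) s + E (r-s)_+}`.
* `tl_151_tail`       convex order (integrated distribution functions) ⇒ order of all upper tail integrals of the quantiles.
* `tl_151_pair`       **convex order + same mean ⇒ `0 ≤ ∫ S (r' - r)` for every monotone `S`**.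
* `tl_151_mean`       the mean through the inverse quantile.
-/

set_option autoImplicit false

open MeasureTheory Set Filter Topology intervalIntegral

namespace Claimed.Agent.R286

noncomputable section

/-- an inverse pair: inverse quantile `al : [ρ0,ρ1] → [u0,u1]`, quantile `r : [u0,u1] → [ρ0,ρ1]` (the fields of `CmQ`) -/
structure TlInv (ρ0 ρ1 u0 u1 : ℝ) (al r : ℝ → ℝ) : Prop where
  hρ : ρ0 ≤ ρ1
  mono : MonotoneOn al (Icc ρ0 ρ1)
  al0 : al ρ0 = u0
  al1 : al ρ1 = u1
  r_mem : ∀ u ∈ Icc u0 u1, r u ∈ Icc ρ0 ρ1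
  al_r : ∀ u ∈ Icc u0 u1, al (r u) = u
  r_al : ∀ t ∈ Icc ρ0 ρ1, r (al t) = t

namespace TlInv

variable {ρ0 ρ1 u0 u1 : ℝ} {al r : ℝ → ℝ}

theorem al_mem (h : TlInv ρ0 ρ1 u0 u1 al r) {t : ℝ} (ht : t ∈ Icc ρ0 ρ1) : al t ∈ Icc u0 u1 := by
  constructor
  · rw [← h.al0]; exact h.mono (left_mem_Icc.2 h.hρ) ht ht.1
  · rw [← h.al1]; exact h.mono ht (right_mem_Icc.2 h.hρ) ht.2

theorem hu (h : TlInv ρ0 ρ1 u0 u1 al r) : u0 ≤ u1 := by
  have := h.al_mem (left_mem_Icc.2 h.hρ)
  exact this.1.trans this.2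

theorem lt_iff (h : TlInv ρ0 ρ1 u0 u1 al r) {t u : ℝ} (ht : t ∈ Icc ρ0 ρ1) (hu : u ∈ Icc u0 u1) :
    t < r u ↔ al t < u := by
  constructor
  · intro hlt
    have h1 : al t ≤ u := by
      have := h.mono ht (h.r_mem u hu) hlt.le
      rwa [h.al_r u hu] at this
    refine lt_of_le_of_ne h1 fun heq => ?_
    have := h.r_al t ht
    rw [heq] at this
    exact absurd this hlt.ne'
  · intro hlt
    by_contra hcon
    have := h.mono (h.r_mem u hu) ht (not_lt.1 hcon)
    rw [h.al_r u hu] at this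
    exact absurd hlt (not_lt.2 this)

theorem r_mono (h : TlInv ρ0 ρ1 u0 u1 al r) : MonotoneOn r (Icc u0 u1) := by
  intro u hu v hv huv
  by_contra hcon
  have h1 := (h.lt_iff (h.r_mem v hv) hu).1 (not_le.1 hcon)
  rw [h.al_r v hv] at h1
  exact absurd huv (not_le.2 h1)

theorem r0 (h : TlInv ρ0 ρ1 u0 u1 al r) : r u0 = ρ0 := by
  rw [← h.al0]; exact h.r_al _ (left_mem_Icc.2 h.hρ)

theorem r1 (h : TlInv ρ0 ρ1 u0 u1 al r) : r u1 = ρ1 := by
  rw [← h.al1]; exact h.r_al _ (right_mem_Icc.2 h.hρ)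

theorem al_intervalIntegrable (h : TlInv ρ0 ρ1 u0 u1 al r) {a b : ℝ} (ha : a ∈ Icc ρ0 ρ1)
    (hb : b ∈ Icc ρ0 ρ1) : IntervalIntegrable al volume a b :=
  (h.mono.mono (uIcc_subset_Icc ha hb)).intervalIntegrable

theorem r_intervalIntegrable (h : TlInv ρ0 ρ1 u0 u1 al r) {a b : ℝ} (ha : a ∈ Icc u0 u1)
    (hb : b ∈ Icc u0 u1) : IntervalIntegrable r volume a b :=
  (h.r_mono.mono (uIcc_subset_Icc ha hb)).intervalIntegrable

end TlInv

/-- weighted layer cake for an inverse pair -/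
theorem tl_151_layer {ρ0 ρ1 u0 u1 : ℝ} {al r : ℝ → ℝ} (h : TlInv ρ0 ρ1 u0 u1 al r) {w : ℝ → ℝ}
    (hw : IntervalIntegrable w volume ρ0 ρ1) :
    ∫ u in u0..u1, (∫ t in ρ0..(r u), w t) = ∫ t in ρ0..ρ1, w t * (u1 - al t) := by
  have hu := h.hu
  rw [intervalIntegral.integral_of_le hu, intervalIntegral.integral_of_le h.hρ]
  set alc : ℝ → ℝ := fun t => al (max ρ0 (min t ρ1)) with halc
  have hclamp : ∀ t, max ρ0 (min t ρ1) ∈ Icc ρ0 ρ1 := fun t =>
    ⟨le_max_left _ _, max_le h.hρ (min_le_right _ _)⟩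
  have hmono : Monotone alc := fun s t hst =>
    h.mono (hclamp s) (hclamp t) (max_le_max le_rfl (min_le_min hst le_rfl))
  have halc_eq : ∀ t ∈ Ioc ρ0 ρ1, alc t = al t := fun t ht => by
    simp only [halc]
    rw [min_eq_left ht.2, max_eq_right ht.1.le]
  have hmeas : MeasurableSet {p : ℝ × ℝ | alc p.2 < p.1} :=
    measurableSet_lt (hmono.measurable.comp measurable_snd) measurable_fst
  set F : ℝ → ℝ → ℝ := fun u t => if alc t < u then w t else 0 with hF
  have hwI : Integrable w (volume.restrict (Ioc ρ0 ρ1)) :=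
    (intervalIntegrable_iff_integrableOn_Ioc_of_le h.hρ).1 hw
  have hint : Integrable (Function.uncurry F)
      ((volume.restrict (Ioc u0 u1)).prod (volume.restrict (Ioc ρ0 ρ1))) := by
    have h1 := (hwI.comp_snd (volume.restrict (Ioc u0 u1))).indicator hmeas
    refine h1.congr (ae_of_all _ fun p => ?_)
    simp only [Function.uncurry, hF, indicator, mem_ofPred_eq]
  have swap := integral_integral_swap hint
  have h1 : ∀ u ∈ Ioc u0 u1, ∫ t in Ioc ρ0 ρ1, F u t = ∫ t in ρ0..(r u), w t := by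
    intro u hu'
    have huI : u ∈ Icc u0 u1 := ⟨hu'.1.le, hu'.2⟩
    have hr := h.r_mem u huI
    have e1 : ∫ t in Ioc ρ0 ρ1, F u t = ∫ t in Ioc ρ0 ρ1, (Iio (r u)).indicator w t := by
      refine setIntegral_congr_fun measurableSet_Ioc fun t ht => ?_
      have htI : t ∈ Icc ρ0 ρ1 := ⟨ht.1.le, ht.2⟩
      simp only [hF, halc_eq t ht, indicator, mem_Iio]
      by_cases hlt : t < r u
      · rw [if_pos hlt, if_pos ((h.lt_iff htI huI).1 hlt)]
      · rw [if_neg hlt, if_neg fun hh => hlt ((h.lt_iff htI huI).2 hh)]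
    rw [e1, setIntegral_indicator measurableSet_Iio]
    have e2 : Ioc ρ0 ρ1 ∩ Iio (r u) = Ioo ρ0 (r u) := by
      ext t
      simp only [mem_inter_iff, mem_Ioc, mem_Iio, mem_Ioo]
      constructor
      · rintro ⟨⟨a, _⟩, c⟩; exact ⟨a, c⟩
      · rintro ⟨a, c⟩; exact ⟨⟨a, c.le.trans hr.2⟩, c⟩
    rw [e2, ← integral_Ioc_eq_integral_Ioo, intervalIntegral.integral_of_le hr.1]
  have h2 : ∀ t ∈ Ioc ρ0 ρ1, ∫ u in Ioc u0 u1, F u t = w t * (u1 - al t) := by
    intro t ht
    have htI : t ∈ Icc ρ0 ρ1 := ⟨ht.1.le, ht.2⟩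
    have ha := h.al_mem htI
    have e1 : ∫ u in Ioc u0 u1, F u t = ∫ u in Ioc u0 u1, (Ioi (al t)).indicator (fun _ => w t) u := by
      refine setIntegral_congr_fun measurableSet_Ioc fun u _ => ?_
      simp only [hF, halc_eq t ht, indicator, mem_Ioi]
    rw [e1, setIntegral_indicator measurableSet_Ioi, Ioc_inter_Ioi, sup_eq_right.2 ha.1,
      setIntegral_const, Real.volume_real_Ioc_of_le ha.2, smul_eq_mul, mul_comm]
  calc ∫ u in Ioc u0 u1, (∫ t in ρ0..(r u), w t)
      = ∫ u in Ioc u0 u1, ∫ t in Ioc ρ0 ρ1, F u t :=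
        (setIntegral_congr_fun measurableSet_Ioc fun u hu' => h1 u hu').symm
    _ = ∫ t in Ioc ρ0 ρ1, ∫ u in Ioc u0 u1, F u t := swap
    _ = ∫ t in Ioc ρ0 ρ1, w t * (u1 - al t) :=
        setIntegral_congr_fun measurableSet_Ioc fun t ht => h2 t ht


/-- the integral of `D` over an upper subset of `(a,b]` is an upper tail integral -/
theorem tl_151_upper_set {a b : ℝ} {D : ℝ → ℝ}
    (hT : ∀ s ∈ Icc a b, 0 ≤ ∫ u in s..b, D u) {U : Set ℝ} (hU : U ⊆ Ioc a b)
    (hup : ∀ u ∈ U, ∀ v ∈ Ioc a b, u ≤ v → v ∈ U) : 0 ≤ ∫ u in U, D u := by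
  rcases U.eq_empty_or_nonempty with rfl | hne
  · simp
  have hbdd : BddBelow U := ⟨a, fun u hu => (hU hu).1.le⟩
  set c := sInf U with hc
  have hca : a ≤ c := le_csInf hne fun u hu => (hU hu).1.le
  obtain ⟨u₀, hu₀⟩ := hne
  have hcb : c ≤ b := (csInf_le hbdd hu₀).trans (hU hu₀).2
  have hin : ∀ u ∈ Ioc c b, u ∈ U := by
    intro u hu
    obtain ⟨u', hu', hlt⟩ := exists_lt_of_csInf_lt ⟨u₀, hu₀⟩ hu.1
    exact hup u' hu' u ⟨lt_of_le_of_lt hca hu.1, hu.2⟩ hlt.le
  have hval := hT c ⟨hca, hcb⟩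
  rw [intervalIntegral.integral_of_le hcb] at hval
  by_cases hcU : c ∈ U
  · have : U = Icc c b := by
      ext u
      constructor
      · intro hu; exact ⟨csInf_le hbdd hu, (hU hu).2⟩
      · intro hu
        rcases hu.1.eq_or_lt with rfl | hlt
        · exact hcU
        · exact hin u ⟨hlt, hu.2⟩
    rw [this, integral_Icc_eq_integral_Ioc]
    exact hval
  · have : U = Ioc c b := by
      ext u
      constructor
      · intro hu
        refine ⟨lt_of_le_of_ne (csInf_le hbdd hu) fun heq => hcU (heq ▸ hu), (hU hu).2⟩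
      · exact hin u
    rw [this]
    exact hval

/-- pairing of a function with nonnegative upper tails and zero mean with a monotone function -/
theorem tl_151_tail_pair {a b : ℝ} (hab : a ≤ b) {D S : ℝ → ℝ} (hD : IntervalIntegrable D volume a b)
    (hT : ∀ s ∈ Icc a b, 0 ≤ ∫ u in s..b, D u) (h0 : ∫ u in a..b, D u = 0)
    (hS : MonotoneOn S (Icc a b)) : 0 ≤ ∫ u in a..b, S u * D u := by
  set Sc : ℝ → ℝ := fun t => S (max a (min t b)) with hSc
  have hclamp : ∀ t, max a (min t b) ∈ Icc a b := fun t =>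
    ⟨le_max_left _ _, max_le hab (min_le_right _ _)⟩
  have hmono : Monotone Sc := fun s t hst =>
    hS (hclamp s) (hclamp t) (max_le_max le_rfl (min_le_min hst le_rfl))
  have hSc_eq : ∀ t ∈ Ioc a b, Sc t = S t := fun t ht => by
    simp only [hSc]
    rw [min_eq_left ht.2, max_eq_right ht.1.le]
  set m := S a with hm
  set Mx := S b with hMx
  have hmM : m ≤ Mx := hS (left_mem_Icc.2 hab) (right_mem_Icc.2 hab) hab
  have hmeas : MeasurableSet {p : ℝ × ℝ | p.2 < Sc p.1} :=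
    measurableSet_lt measurable_snd (hmono.measurable.comp measurable_fst)
  set G : ℝ → ℝ → ℝ := fun u τ => if τ < Sc u then D u else 0 with hG
  have hDI : Integrable D (volume.restrict (Ioc a b)) :=
    (intervalIntegrable_iff_integrableOn_Ioc_of_le hab).1 hD
  have hint : Integrable (Function.uncurry G)
      ((volume.restrict (Ioc a b)).prod (volume.restrict (Ioc m Mx))) := by
    have h1 := (hDI.comp_fst (volume.restrict (Ioc m Mx))).indicator hmeas
    refine h1.congr (ae_of_all _ fun p => ?_)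
    simp only [Function.uncurry, hG, indicator, mem_ofPred_eq]
  have swap := integral_integral_swap hint
  have h1 : ∀ u ∈ Ioc a b, ∫ τ in Ioc m Mx, G u τ = (S u - m) * D u := by
    intro u hu
    have huI : u ∈ Icc a b := ⟨hu.1.le, hu.2⟩
    have hs1 : m ≤ S u := hS (left_mem_Icc.2 hab) huI hu.1.le
    have hs2 : S u ≤ Mx := hS huI (right_mem_Icc.2 hab) hu.2
    have e1 : ∫ τ in Ioc m Mx, G u τ = ∫ τ in Ioc m Mx, (Iio (S u)).indicator (fun _ => D u) τ := by
      refine setIntegral_congr_fun measurableSet_Ioc fun τ _ => ?_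
      simp only [hG, hSc_eq u hu, indicator, mem_Iio]
    have e2 : Ioc m Mx ∩ Iio (S u) = Ioo m (S u) := by
      ext t
      simp only [mem_inter_iff, mem_Ioc, mem_Iio, mem_Ioo]
      constructor
      · rintro ⟨⟨x, _⟩, z⟩; exact ⟨x, z⟩
      · rintro ⟨x, z⟩; exact ⟨⟨x, z.le.trans hs2⟩, z⟩
    rw [e1, setIntegral_indicator measurableSet_Iio, e2, setIntegral_const,
      Real.volume_real_Ioo_of_le hs1, smul_eq_mul]
  have h2 : ∀ τ, 0 ≤ ∫ u in Ioc a b, G u τ := by
    intro τ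
    have e1 : ∫ u in Ioc a b, G u τ = ∫ u in Ioc a b, {u | τ < Sc u}.indicator D u := by
      refine setIntegral_congr_fun measurableSet_Ioc fun u _ => ?_
      simp only [hG, indicator, mem_ofPred_eq]
    have hms : MeasurableSet {u | τ < Sc u} := measurableSet_lt measurable_const hmono.measurable
    rw [e1, setIntegral_indicator hms]
    refine tl_151_upper_set hT inter_subset_left ?_
    intro u hu v hv huv
    exact ⟨hv, lt_of_lt_of_le hu.2 (hmono huv)⟩
  have h3 : 0 ≤ ∫ u in Ioc a b, (S u - m) * D u := by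
    calc (0 : ℝ) ≤ ∫ τ in Ioc m Mx, ∫ u in Ioc a b, G u τ := integral_nonneg fun τ => h2 τ
      _ = ∫ u in Ioc a b, ∫ τ in Ioc m Mx, G u τ := swap.symm
      _ = ∫ u in Ioc a b, (S u - m) * D u :=
          setIntegral_congr_fun measurableSet_Ioc fun u hu => h1 u hu
  rw [← intervalIntegral.integral_of_le hab] at h3
  have hSD : IntervalIntegrable (fun u => S u * D u) volume a b := by
    have hb : ∀ u ∈ Ioc a b, ‖S u‖ ≤ max |m| |Mx| := by
      intro u hu
      have huI : u ∈ Icc a b := ⟨hu.1.le, hu.2⟩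
      have hs1 : m ≤ S u := hS (left_mem_Icc.2 hab) huI hu.1.le
      have hs2 : S u ≤ Mx := hS huI (right_mem_Icc.2 hab) hu.2
      rw [Real.norm_eq_abs]
      exact abs_le_max_abs_abs hs1 hs2
    rw [intervalIntegrable_iff_integrableOn_Ioc_of_le hab]
    have hScm : AEStronglyMeasurable S (volume.restrict (Ioc a b)) :=
      hmono.measurable.aestronglyMeasurable.congr
        ((ae_restrict_iff' measurableSet_Ioc).2 (ae_of_all _ fun u hu => hSc_eq u hu))
    exact hDI.bdd_mul hScm ((ae_restrict_iff' measurableSet_Ioc).2 (ae_of_all _ hb))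
  have e : ∫ u in a..b, (S u - m) * D u = (∫ u in a..b, S u * D u) - m * ∫ u in a..b, D u := by
    rw [← intervalIntegral.integral_const_mul, ← intervalIntegral.integral_sub hSD (hD.const_mul m)]
    refine intervalIntegral.integral_congr fun u _ => ?_
    ring
  rw [e, h0] at h3
  linarith


theorem tl_151_hinge_prim {ρ0 s x : ℝ} (hs : ρ0 ≤ s) (hx : ρ0 ≤ x) :
    ∫ t in ρ0..x, (Ioi s).indicator (fun _ => (1 : ℝ)) t = max (x - s) 0 := by
  rw [intervalIntegral.integral_of_le hx, setIntegral_indicator measurableSet_Ioi, Ioc_inter_Ioi,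
    sup_eq_right.2 hs, setIntegral_const, Real.volume_real_Ioc]
  simp

/-- the hinge integral of the quantile through the inverse quantile -/
theorem tl_151_hinge {ρ0 ρ1 u0 u1 : ℝ} {al r : ℝ → ℝ} (h : TlInv ρ0 ρ1 u0 u1 al r) {s : ℝ}
    (hs : s ∈ Icc ρ0 ρ1) :
    ∫ u in u0..u1, max (r u - s) 0 = ∫ t in s..ρ1, (u1 - al t) := by
  have hw : IntervalIntegrable ((Ioi s).indicator (fun _ => (1 : ℝ))) volume ρ0 ρ1 := by
    rw [intervalIntegrable_iff_integrableOn_Ioc_of_le h.hρ]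
    exact (integrableOn_const (by simp)).indicator measurableSet_Ioi
  have h1 := tl_151_layer h hw
  have e1 : ∫ u in u0..u1, (∫ t in ρ0..(r u), (Ioi s).indicator (fun _ => (1 : ℝ)) t)
      = ∫ u in u0..u1, max (r u - s) 0 := by
    refine intervalIntegral.integral_congr fun u hu => ?_
    rw [uIcc_of_le h.hu] at hu
    exact tl_151_hinge_prim hs.1 (h.r_mem u hu).1
  rw [e1] at h1
  rw [h1, intervalIntegral.integral_of_le h.hρ, intervalIntegral.integral_of_le hs.2]
  have e2 : ∀ t, (Ioi s).indicator (fun _ => (1 : ℝ)) t * (u1 - al t)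
      = (Ioi s).indicator (fun t => u1 - al t) t := by
    intro t
    by_cases ht : t ∈ Ioi s
    · simp [indicator_of_mem ht]
    · simp [indicator_of_notMem ht]
  simp only [e2]
  rw [setIntegral_indicator measurableSet_Ioi, Ioc_inter_Ioi, sup_eq_right.2 hs.1]

theorem tl_151_hinge_integrable {ρ0 ρ1 u0 u1 : ℝ} {al r : ℝ → ℝ} (h : TlInv ρ0 ρ1 u0 u1 al r)
    (s : ℝ) {a b : ℝ} (ha : a ∈ Icc u0 u1) (hb : b ∈ Icc u0 u1) :
    IntervalIntegrable (fun u => max (r u - s) 0) volume a b := by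
  have hm : MonotoneOn (fun u => max (r u - s) 0) (Icc u0 u1) := fun u hu v hv huv =>
    max_le_max (sub_le_sub_right (h.r_mono hu hv huv) s) le_rfl
  exact (hm.mono (uIcc_subset_Icc ha hb)).intervalIntegrable

/-- upper tail quantile formula, inequality -/
theorem tl_151_young_le {ρ0 ρ1 u0 u1 : ℝ} {al r : ℝ → ℝ} (h : TlInv ρ0 ρ1 u0 u1 al r) (s : ℝ)
    {a : ℝ} (ha : a ∈ Icc u0 u1) :
    ∫ u in a..u1, r u ≤ (u1 - a) * s + ∫ u in u0..u1, max (r u - s) 0 := by
  have h1I : u1 ∈ Icc u0 u1 := right_mem_Icc.2 h.hu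
  have h0I : u0 ∈ Icc u0 u1 := left_mem_Icc.2 h.hu
  have hsplit := intervalIntegral.integral_add_adjacent_intervals
    (tl_151_hinge_integrable h s h0I ha) (tl_151_hinge_integrable h s ha h1I)
  have hnn : 0 ≤ ∫ u in u0..a, max (r u - s) 0 :=
    intervalIntegral.integral_nonneg ha.1 fun u _ => le_max_right _ _
  have hle : ∫ u in a..u1, (r u - s) ≤ ∫ u in a..u1, max (r u - s) 0 :=
    intervalIntegral.integral_mono_on ha.2 ((h.r_intervalIntegrable ha h1I).sub intervalIntegrable_const)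
      (tl_151_hinge_integrable h s ha h1I) fun u _ => le_max_left _ _
  rw [intervalIntegral.integral_sub (h.r_intervalIntegrable ha h1I) intervalIntegrable_const,
    intervalIntegral.integral_const, smul_eq_mul] at hle
  linarith

/-- upper tail quantile formula, equality at `s = r a` -/
theorem tl_151_young_eq {ρ0 ρ1 u0 u1 : ℝ} {al r : ℝ → ℝ} (h : TlInv ρ0 ρ1 u0 u1 al r)
    {a : ℝ} (ha : a ∈ Icc u0 u1) :
    ∫ u in a..u1, r u = (u1 - a) * r a + ∫ u in u0..u1, max (r u - r a) 0 := by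
  have h1I : u1 ∈ Icc u0 u1 := right_mem_Icc.2 h.hu
  have h0I : u0 ∈ Icc u0 u1 := left_mem_Icc.2 h.hu
  have hsplit := intervalIntegral.integral_add_adjacent_intervals
    (tl_151_hinge_integrable h (r a) h0I ha) (tl_151_hinge_integrable h (r a) ha h1I)
  have hz : ∫ u in u0..a, max (r u - r a) 0 = 0 := by
    have : ∫ u in u0..a, max (r u - r a) 0 = ∫ _u in u0..a, (0 : ℝ) := by
      refine intervalIntegral.integral_congr fun u hu => ?_
      rw [uIcc_of_le ha.1] at hu
      have := h.r_mono ⟨hu.1, hu.2.trans ha.2⟩ ha hu.2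
      exact max_eq_right (by linarith)
    rw [this]; simp
  have he : ∫ u in a..u1, max (r u - r a) 0 = ∫ u in a..u1, (r u - r a) := by
    refine intervalIntegral.integral_congr fun u hu => ?_
    rw [uIcc_of_le ha.2] at hu
    have := h.r_mono ha ⟨ha.1.trans hu.1, hu.2⟩ hu.1
    exact max_eq_left (by linarith)
  rw [intervalIntegral.integral_sub (h.r_intervalIntegrable ha h1I) intervalIntegrable_const,
    intervalIntegral.integral_const, smul_eq_mul] at he
  linarith

/-- convex order in the integrated form for inverse quantiles gives the order of all upper tail integrals of the quantiles -/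
theorem tl_151_tail {ρ0 ρ1 u0 u1 : ℝ} {al r al' r' : ℝ → ℝ} (h : TlInv ρ0 ρ1 u0 u1 al r)
    (h' : TlInv ρ0 ρ1 u0 u1 al' r')
    (hcx : ∀ s ∈ Icc ρ0 ρ1, ∫ t in s..ρ1, al' t ≤ ∫ t in s..ρ1, al t) {a : ℝ} (ha : a ∈ Icc u0 u1) :
    ∫ u in a..u1, r u ≤ ∫ u in a..u1, r' u := by
  have hs := h'.r_mem a ha
  have h1I : ρ1 ∈ Icc ρ0 ρ1 := right_mem_Icc.2 h.hρ
  have e1 := tl_151_young_eq h' ha
  have e2 := tl_151_young_le h (r' a) ha
  rw [tl_151_hinge h' hs] at e1
  rw [tl_151_hinge h hs] at e2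
  rw [intervalIntegral.integral_sub intervalIntegrable_const (h'.al_intervalIntegrable hs h1I)] at e1
  rw [intervalIntegral.integral_sub intervalIntegrable_const (h.al_intervalIntegrable hs h1I)] at e2
  have := hcx _ hs
  linarith

/-- the mean of the quantile through the inverse quantile -/
theorem tl_151_mean {ρ0 ρ1 u0 u1 : ℝ} {al r : ℝ → ℝ} (h : TlInv ρ0 ρ1 u0 u1 al r) :
    ∫ u in u0..u1, r u = (u1 - u0) * ρ0 + (ρ1 - ρ0) * u1 - ∫ t in ρ0..ρ1, al t := by
  have h0I : ρ0 ∈ Icc ρ0 ρ1 := left_mem_Icc.2 h.hρ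
  have h1I : ρ1 ∈ Icc ρ0 ρ1 := right_mem_Icc.2 h.hρ
  have e1 := tl_151_young_eq h (left_mem_Icc.2 h.hu)
  rw [h.r0, tl_151_hinge h h0I,
    intervalIntegral.integral_sub intervalIntegrable_const (h.al_intervalIntegrable h0I h1I),
    intervalIntegral.integral_const, smul_eq_mul] at e1
  linarith

/-- **convex order ⇒ pairing with monotone functions** -/
theorem tl_151_pair {ρ0 ρ1 u0 u1 : ℝ} {al r al' r' : ℝ → ℝ} (h : TlInv ρ0 ρ1 u0 u1 al r)
    (h' : TlInv ρ0 ρ1 u0 u1 al' r')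
    (hcx : ∀ s ∈ Icc ρ0 ρ1, ∫ t in s..ρ1, al' t ≤ ∫ t in s..ρ1, al t)
    (hmean : ∫ t in ρ0..ρ1, al' t = ∫ t in ρ0..ρ1, al t) {S : ℝ → ℝ}
    (hS : MonotoneOn S (Icc u0 u1)) : 0 ≤ ∫ u in u0..u1, S u * (r' u - r u) := by
  have h1I : u1 ∈ Icc u0 u1 := right_mem_Icc.2 h.hu
  have h0I : u0 ∈ Icc u0 u1 := left_mem_Icc.2 h.hu
  refine tl_151_tail_pair h.hu
    ((h'.r_intervalIntegrable h0I h1I).sub (h.r_intervalIntegrable h0I h1I)) ?_ ?_ hS
  · intro s hs
    rw [intervalIntegral.integral_sub (h'.r_intervalIntegrable hs h1I)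
      (h.r_intervalIntegrable hs h1I)]
    have := tl_151_tail h h' hcx hs
    linarith
  · rw [intervalIntegral.integral_sub (h'.r_intervalIntegrable h0I h1I)
      (h.r_intervalIntegrable h0I h1I), tl_151_mean h, tl_151_mean h', hmean]
    ring

end

end Claimed.Agent.R286
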