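import Mathlib

/-!
# Row 286, toolbox: limits along an ARBITRARY filter (ultrafilter frame), part 2.      OWNER helper250.  Prefix `umo_`.  Mathlib only, 0 sorry.

Dominated convergence is FALSE along a free ultrafilter (and Mathlib's version asks for a countably generated filter).
The basic bridge (monotone + pointwise => `L¹`, Polya, Ascoli, `C¹_loc`) is ALSO in `R286/Tool/ULim.lean` (`tl_114_*`, helper114) and
`R286/Rig/Tools.lean`; sequence Helly = `R286/Lib/Helly.lean`.  NEW here (forms (3), (4), (5) asked by helper142, all for ANY filter `l`):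
* `umo_weight(_meas)`     : `∫|h i| → 0`, `|j i| ≤ C` (no measurability of `j i`)  ⟹  `∫ j i * h i → 0`.
* `umo_integral_mul'`     : moving weights `φ i → ψ` in `L¹`, `f i` monotone bounded, pointwise limit `g`  ⟹  `∫ φ i f i → ∫ ψ g`.
* `umo_comp_L1`, `umo_comp_integral`, `umo_lipcomp_integral` : `Φ(x, f i x)` with `Φ` Lipschitz in the second variable.
* `umo_pt_of_L1`, `umo_unif_of_L1` : monotone + `L¹` convergence ⟹ pointwise at continuity points / locally uniform.
* `umo_dct`               : locally uniform convergence + domination ⟹ convergence of the integrals (proper space, any measure finite on compacts).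
* `umo_lip_integral`      : equi-Lipschitz + pointwise ⟹ `∫ f i ∂μ → ∫ g ∂μ` (finite measure with a first moment, e.g. Gaussian).
* `umo_griffiths`         : convex `f i → g` pointwise, all differentiable at `x` ⟹ the derivatives converge.
* `UmoInv`, `umo_inverse` : generalized inverses (any convention) converge uniformly if the limit is continuous and strictly increasing.
* `umo_parts`, `umo_stieltjes` : `∫ φ dμ = -∫ φ' μ(Iic x) dx`;  pointwise convergence of distribution functions ⟹ `∫ φ dμ i → ∫ φ dν` (`φ ∈ C¹_c`).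
-/

open Filter Set MeasureTheory Topology
open scoped Interval

namespace Claimed.Agent.UMono

/-- the mesh points -/
noncomputable def umoPt (a b : ℝ) (N : ℕ) (k : ℕ) : ℝ := a + k * ((b - a) / N)

theorem umo_pt_zero (a b : ℝ) (N : ℕ) : umoPt a b N 0 = a := by simp [umoPt]

theorem umo_pt_last (a b : ℝ) {N : ℕ} (hN : 0 < N) : umoPt a b N N = b := by
  have : (N : ℝ) ≠ 0 := by positivity
  simp only [umoPt]; field_simp; ring

theorem umo_pt_mono {a b : ℝ} (hab : a ≤ b) (N : ℕ) : Monotone (umoPt a b N) := by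
  intro j k hjk
  have h1 : (0 : ℝ) ≤ (b - a) / N := div_nonneg (sub_nonneg.2 hab) (Nat.cast_nonneg _)
  have h2 : (j : ℝ) ≤ k := by exact_mod_cast hjk
  simp only [umoPt]
  nlinarith [mul_le_mul_of_nonneg_right h2 h1]

theorem umo_pt_mem {a b : ℝ} (hab : a ≤ b) {N k : ℕ} (hN : 0 < N) (hk : k ≤ N) :
    umoPt a b N k ∈ Icc a b := by
  constructor
  · exact (umo_pt_zero a b N).symm.le.trans (umo_pt_mono hab N (Nat.zero_le _))
  · exact (umo_pt_mono hab N hk).trans (umo_pt_last a b hN).le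

theorem umo_pt_succ_sub (a b : ℝ) (N k : ℕ) :
    umoPt a b N (k + 1) - umoPt a b N k = (b - a) / N := by
  simp only [umoPt]; push_cast; ring

theorem umo_pt_cover {a b : ℝ} {N : ℕ} (hN : 0 < N) {x : ℝ} (hx : x ∈ Icc a b) :
    ∃ k < N, x ∈ Icc (umoPt a b N k) (umoPt a b N (k + 1)) := by
  have key : ∀ k : ℕ, 0 < k → x ≤ umoPt a b N k →
      ∃ j < k, x ∈ Icc (umoPt a b N j) (umoPt a b N (j + 1)) := by
    intro k
    induction k with
    | zero => intro h; exact absurd h (lt_irrefl _)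
    | succ k ih =>
      intro _ hxk
      by_cases h : umoPt a b N k ≤ x
      · exact ⟨k, Nat.lt_succ_self k, h, hxk⟩
      · rw [not_le] at h
        rcases Nat.eq_zero_or_pos k with rfl | hk
        · rw [umo_pt_zero] at h
          exact absurd hx.1 (not_le.2 h)
        · obtain ⟨j, hj, hxj⟩ := ih hk h.le
          exact ⟨j, hj.trans (Nat.lt_succ_self k), hxj⟩
  exact key N hN (hx.2.trans (umo_pt_last a b hN).ge)

/-- THE deterministic estimate: two monotone functions that are close on a mesh are close in `L¹`. -/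
theorem umo_key {a b : ℝ} (hab : a ≤ b) {f g : ℝ → ℝ} (hf : MonotoneOn f (Icc a b))
    (hg : MonotoneOn g (Icc a b)) {N : ℕ} (hN : 0 < N) :
    ∫ x in a..b, |f x - g x| ≤
      (b - a) * (∑ k ∈ Finset.range (N + 1), |f (umoPt a b N k) - g (umoPt a b N k)|)
        + (b - a) / N * (g b - g a) := by
  set p := umoPt a b N with hp
  set D := ∑ k ∈ Finset.range (N + 1), |f (p k) - g (p k)| with hD
  have hfi : ∀ c ∈ Icc a b, ∀ d ∈ Icc a b, IntervalIntegrable (fun x => |f x - g x|) volume c d := by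
    intro c hc d hd
    have hsub : uIcc c d ⊆ Icc a b := by
      intro x hx
      rcases le_total c d with h | h
      · rw [uIcc_of_le h] at hx; exact ⟨hc.1.trans hx.1, hx.2.trans hd.2⟩
      · rw [uIcc_of_ge h] at hx; exact ⟨hd.1.trans hx.1, hx.2.trans hc.2⟩
    exact ((hf.mono hsub).intervalIntegrable.sub (hg.mono hsub).intervalIntegrable).abs
  have hsum : ∑ k ∈ Finset.range N, ∫ x in p k..p (k + 1), |f x - g x| = ∫ x in p 0..p N, |f x - g x| :=
    intervalIntegral.sum_integral_adjacent_intervals (fun k hk =>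
      hfi _ (umo_pt_mem hab hN hk.le) _ (umo_pt_mem hab hN hk))
  rw [hp, umo_pt_zero, umo_pt_last a b hN] at hsum
  rw [← hsum]
  have hpiece : ∀ k ∈ Finset.range N, ∫ x in p k..p (k + 1), |f x - g x| ≤
      (b - a) / N * (D + (g (p (k + 1)) - g (p k))) := by
    intro k hk
    have hkN : k < N := Finset.mem_range.1 hk
    have hm0 := umo_pt_mem hab hN hkN.le
    have hm1 := umo_pt_mem hab hN (Nat.succ_le_of_lt hkN)
    have hle : p k ≤ p (k + 1) := umo_pt_mono hab N (Nat.le_succ k)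
    have hD0 : |f (p k) - g (p k)| ≤ D :=
      Finset.single_le_sum (f := fun k => |f (p k) - g (p k)|) (fun _ _ => abs_nonneg _)
        (Finset.mem_range.2 (by omega))
    have hD1 : |f (p (k + 1)) - g (p (k + 1))| ≤ D :=
      Finset.single_le_sum (f := fun k => |f (p k) - g (p k)|) (fun _ _ => abs_nonneg _)
        (Finset.mem_range.2 (by omega))
    have hb : ∀ x ∈ Ι (p k) (p (k + 1)), ‖|f x - g x|‖ ≤ D + (g (p (k + 1)) - g (p k)) := by
      intro x hx
      rw [uIoc_of_le hle] at hx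
      have hxm : x ∈ Icc a b := ⟨hm0.1.trans hx.1.le, hx.2.trans hm1.2⟩
      have f1 := hf hm0 hxm hx.1.le
      have f2 := hf hxm hm1 hx.2
      have g1 := hg hm0 hxm hx.1.le
      have g2 := hg hxm hm1 hx.2
      rw [Real.norm_eq_abs, abs_abs, abs_le]
      have := abs_le.1 hD0
      have := abs_le.1 hD1
      constructor <;> linarith
    have := intervalIntegral.norm_integral_le_of_norm_le_const hb
    rw [abs_of_nonneg (sub_nonneg.2 hle), umo_pt_succ_sub] at this
    calc _ ≤ ‖∫ x in p k..p (k + 1), |f x - g x|‖ := le_abs_self _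
      _ ≤ _ := by rw [mul_comm]; exact this
  refine (Finset.sum_le_sum hpiece).trans (le_of_eq ?_)
  rw [← Finset.mul_sum, Finset.sum_add_distrib, Finset.sum_range_sub (fun k => g (p k)), hp,
    umo_pt_zero, umo_pt_last a b hN]
  have : (N : ℝ) ≠ 0 := by positivity
  simp only [Finset.sum_const, Finset.card_range, nsmul_eq_mul]
  field_simp


theorem umo_ii {a b : ℝ} (hab : a ≤ b) {f : ℝ → ℝ} (hf : MonotoneOn f (Icc a b)) :
    IntervalIntegrable f volume a b :=
  MonotoneOn.intervalIntegrable (by rwa [uIcc_of_le hab])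

variable {ι : Type*} {l : Filter ι}

/-- the pointwise limit of monotone functions is monotone -/
theorem umo_mono [l.NeBot] {s : Set ℝ} {f : ι → ℝ → ℝ} {g : ℝ → ℝ}
    (hf : ∀ᶠ i in l, MonotoneOn (f i) s)
    (hlim : ∀ x ∈ s, Tendsto (fun i => f i x) l (𝓝 (g x))) : MonotoneOn g s := by
  intro x hx y hy hxy
  exact le_of_tendsto_of_tendsto (hlim x hx) (hlim y hy) (hf.mono fun i hi => hi hx hy hxy)

/-- the pointwise limit keeps the bound -/
theorem umo_bdd [l.NeBot] {s : Set ℝ} {f : ι → ℝ → ℝ} {g : ℝ → ℝ} {C : ℝ}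
    (hb : ∀ᶠ i in l, ∀ x ∈ s, |f i x| ≤ C)
    (hlim : ∀ x ∈ s, Tendsto (fun i => f i x) l (𝓝 (g x))) : ∀ x ∈ s, |g x| ≤ C := by
  intro x hx
  exact le_of_tendsto (hlim x hx).abs (hb.mono fun i hi => hi x hx)

/-- **`L¹` convergence along an arbitrary filter.**  No bound on `f i` is needed: the limit `g` is a real function,
monotone, hence bounded on the segment. -/
theorem umo_L1 {a b : ℝ} (hab : a ≤ b) {f : ι → ℝ → ℝ} {g : ℝ → ℝ}
    (hf : ∀ᶠ i in l, MonotoneOn (f i) (Icc a b))
    (hlim : ∀ x ∈ Icc a b, Tendsto (fun i => f i x) l (𝓝 (g x))) :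
    Tendsto (fun i => ∫ x in a..b, |f i x - g x|) l (𝓝 0) := by
  rcases l.eq_or_neBot with rfl | hl
  · exact tendsto_bot
  have hg : MonotoneOn g (Icc a b) := umo_mono hf hlim
  rw [Metric.tendsto_nhds]
  intro ε hε
  -- choose the mesh
  obtain ⟨N, hN⟩ := exists_nat_gt ((b - a) * (g b - g a) / (ε / 2))
  have hga : 0 ≤ g b - g a := sub_nonneg.2 (hg (left_mem_Icc.2 hab) (right_mem_Icc.2 hab) hab)
  have hba : 0 ≤ b - a := sub_nonneg.2 hab
  have hN0 : 0 < N := by
    have : (0 : ℝ) < N := lt_of_le_of_lt (by positivity) hN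
    exact_mod_cast this
  have hNr : (0 : ℝ) < N := by exact_mod_cast hN0
  have h2 : (b - a) / N * (g b - g a) < ε / 2 := by
    rw [div_lt_iff₀ (by positivity)] at hN
    rw [div_mul_eq_mul_div, div_lt_iff₀ hNr]
    linarith
  have hD : Tendsto (fun i => (b - a) * ∑ k ∈ Finset.range (N + 1),
      |f i (umoPt a b N k) - g (umoPt a b N k)|) l (𝓝 0) := by
    have : Tendsto (fun i => ∑ k ∈ Finset.range (N + 1),
        |f i (umoPt a b N k) - g (umoPt a b N k)|) l (𝓝 (∑ k ∈ Finset.range (N + 1), (0 : ℝ))) := by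
      refine tendsto_finsetSum _ fun k hk => ?_
      have hk' : k ≤ N := Nat.lt_succ_iff.1 (Finset.mem_range.1 hk)
      have := (hlim _ (umo_pt_mem hab hN0 hk')).sub_const (g (umoPt a b N k))
      simpa using this.abs
    simpa using this.const_mul (b - a)
  filter_upwards [hf, hD.eventually (gt_mem_nhds (half_pos hε))] with i hi hDi
  have hkey := umo_key hab hi hg hN0
  have h0 : 0 ≤ ∫ x in a..b, |f i x - g x| :=
    intervalIntegral.integral_nonneg hab fun x _ => abs_nonneg _
  rw [Real.dist_eq, sub_zero, abs_of_nonneg h0]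
  linarith

/-! ## (5) bounded weights against an `L¹`-null family (no measurability of the weights is needed) -/

theorem umo_weight_meas {X : Type*} [MeasurableSpace X] {μ : Measure X} {h j : ι → X → ℝ} {C : ℝ}
    (hh : ∀ᶠ i in l, Integrable (h i) μ) (hj : ∀ᶠ i in l, ∀ᵐ x ∂μ, |j i x| ≤ C)
    (h0 : Tendsto (fun i => ∫ x, |h i x| ∂μ) l (𝓝 0)) :
    Tendsto (fun i => ∫ x, j i x * h i x ∂μ) l (𝓝 0) := by
  have hb : ∀ᶠ i in l, ‖∫ x, j i x * h i x ∂μ‖ ≤ C * ∫ x, |h i x| ∂μ := by
    filter_upwards [hh, hj] with i hi hji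
    rw [← integral_const_mul]
    refine norm_integral_le_of_norm_le (hi.abs.const_mul C) ?_
    filter_upwards [hji] with x hx
    rw [Real.norm_eq_abs, abs_mul]
    exact mul_le_mul_of_nonneg_right hx (abs_nonneg _)
  refine squeeze_zero_norm' hb ?_
  simpa using h0.const_mul C

theorem umo_weight {a b : ℝ} (hab : a ≤ b) {h j : ι → ℝ → ℝ} {C : ℝ}
    (hh : ∀ᶠ i in l, IntervalIntegrable (h i) volume a b)
    (hj : ∀ᶠ i in l, ∀ x ∈ Icc a b, |j i x| ≤ C)
    (h0 : Tendsto (fun i => ∫ x in a..b, |h i x|) l (𝓝 0)) :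
    Tendsto (fun i => ∫ x in a..b, j i x * h i x) l (𝓝 0) := by
  simp only [intervalIntegral.integral_of_le hab] at h0 ⊢
  refine umo_weight_meas (C := C) ?_ ?_ h0
  · filter_upwards [hh] with i hi
    exact (intervalIntegrable_iff_integrableOn_Ioc_of_le hab).1 hi
  · filter_upwards [hj] with i hi
    exact (ae_restrict_iff' measurableSet_Ioc).2
      (Eventually.of_forall fun x hx => hi x (Ioc_subset_Icc_self hx))

/-! ## (1) consequences of `umo_L1` -/

/-- fixed bounded measurable weight -/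
theorem umo_integral_mul {a b : ℝ} (hab : a ≤ b) {f : ι → ℝ → ℝ} {g φ : ℝ → ℝ} {M : ℝ}
    (hf : ∀ᶠ i in l, MonotoneOn (f i) (Icc a b))
    (hlim : ∀ x ∈ Icc a b, Tendsto (fun i => f i x) l (𝓝 (g x)))
    (hφm : AEStronglyMeasurable φ (volume.restrict (Ioc a b))) (hφ : ∀ x ∈ Icc a b, |φ x| ≤ M) :
    Tendsto (fun i => ∫ x in a..b, φ x * f i x) l (𝓝 (∫ x in a..b, φ x * g x)) := by
  rcases l.eq_or_neBot with rfl | hl
  · exact tendsto_bot
  have hg := umo_mono hf hlim
  have hL := umo_L1 hab hf hlim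
  have hgi : IntervalIntegrable g volume a b := umo_ii hab hg
  have hmulint : ∀ u : ℝ → ℝ, IntervalIntegrable u volume a b →
      IntervalIntegrable (fun x => φ x * u x) volume a b := by
    intro u hu
    rw [intervalIntegrable_iff_integrableOn_Ioc_of_le hab] at hu ⊢
    exact hu.bdd_mul hφm ((ae_restrict_iff' measurableSet_Ioc).2
      (Eventually.of_forall fun x hx => by simpa using hφ x (Ioc_subset_Icc_self hx)))
  have hw := umo_weight hab (h := fun i x => f i x - g x) (j := fun _ => φ) (C := M)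
    (hf.mono fun i hi => (umo_ii hab hi).sub hgi) (Eventually.of_forall fun _ => hφ) hL
  have h2 := hw.add_const (∫ x in a..b, φ x * g x)
  rw [zero_add] at h2
  refine h2.congr' ?_
  filter_upwards [hf] with i hi
  rw [← intervalIntegral.integral_add (hmulint _ ((umo_ii hab hi).sub hgi)) (hmulint _ hgi)]
  congr 1
  ext x
  ring

theorem umo_integral {a b : ℝ} (hab : a ≤ b) {f : ι → ℝ → ℝ} {g : ℝ → ℝ}
    (hf : ∀ᶠ i in l, MonotoneOn (f i) (Icc a b))
    (hlim : ∀ x ∈ Icc a b, Tendsto (fun i => f i x) l (𝓝 (g x))) :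
    Tendsto (fun i => ∫ x in a..b, f i x) l (𝓝 (∫ x in a..b, g x)) := by
  have := umo_integral_mul hab (φ := fun _ => 1) (M := 1) hf hlim aestronglyMeasurable_const
    (fun _ _ => by simp)
  simpa using this

/-- moving weights `φ i → φ` in `L¹`, `f i` uniformly bounded -/
theorem umo_integral_mul' {a b : ℝ} (hab : a ≤ b) {f φ : ι → ℝ → ℝ} {g ψ : ℝ → ℝ} {M C : ℝ}
    (hf : ∀ᶠ i in l, MonotoneOn (f i) (Icc a b))
    (hb : ∀ᶠ i in l, ∀ x ∈ Icc a b, |f i x| ≤ C)
    (hlim : ∀ x ∈ Icc a b, Tendsto (fun i => f i x) l (𝓝 (g x)))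
    (hψi : IntervalIntegrable ψ volume a b) (hψ : ∀ x ∈ Icc a b, |ψ x| ≤ M)
    (hφi : ∀ᶠ i in l, IntervalIntegrable (φ i) volume a b)
    (hφ : Tendsto (fun i => ∫ x in a..b, |φ i x - ψ x|) l (𝓝 0)) :
    Tendsto (fun i => ∫ x in a..b, φ i x * f i x) l (𝓝 (∫ x in a..b, ψ x * g x)) := by
  rcases l.eq_or_neBot with rfl | hl
  · exact tendsto_bot
  have h1 := umo_integral_mul hab hf hlim
    ((intervalIntegrable_iff_integrableOn_Ioc_of_le hab).1 hψi).aestronglyMeasurable hψ
  have hw := umo_weight hab (h := fun i x => φ i x - ψ x) (j := f) (C := C)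
    (hφi.mono fun i hi => hi.sub hψi) hb hφ
  have h2 := hw.add h1
  rw [zero_add] at h2
  refine h2.congr' ?_
  filter_upwards [hf, hb, hφi] with i hi hbi hφii
  have hmulint : ∀ u : ℝ → ℝ, IntervalIntegrable u volume a b →
      IntervalIntegrable (fun x => f i x * u x) volume a b := by
    intro u hu
    have hfm := ((intervalIntegrable_iff_integrableOn_Ioc_of_le hab).1
      (umo_ii hab hi)).aestronglyMeasurable
    rw [intervalIntegrable_iff_integrableOn_Ioc_of_le hab] at hu ⊢
    exact hu.bdd_mul hfm ((ae_restrict_iff' measurableSet_Ioc).2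
      (Eventually.of_forall fun x hx => by simpa using hbi x (Ioc_subset_Icc_self hx)))
  have e1 : IntervalIntegrable (fun x => ψ x * f i x) volume a b := by
    simpa [mul_comm] using hmulint _ hψi
  rw [← intervalIntegral.integral_add (hmulint _ (hφii.sub hψi)) e1]
  congr 1
  ext x
  ring

/-- composition with a function that is Lipschitz in the second variable (no measurability needed) -/
theorem umo_comp_L1 {a b : ℝ} (hab : a ≤ b) {f : ι → ℝ → ℝ} {g : ℝ → ℝ} {Φ : ℝ → ℝ → ℝ} {K : ℝ}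
    {t : Set ℝ} (hf : ∀ᶠ i in l, MonotoneOn (f i) (Icc a b))
    (hlim : ∀ x ∈ Icc a b, Tendsto (fun i => f i x) l (𝓝 (g x)))
    (hft : ∀ᶠ i in l, ∀ x ∈ Icc a b, f i x ∈ t) (hgt : ∀ x ∈ Icc a b, g x ∈ t)
    (hΦ : ∀ x ∈ Icc a b, ∀ u ∈ t, ∀ v ∈ t, |Φ x u - Φ x v| ≤ K * |u - v|) :
    Tendsto (fun i => ∫ x in a..b, |Φ x (f i x) - Φ x (g x)|) l (𝓝 0) := by
  rcases l.eq_or_neBot with rfl | hl
  · exact tendsto_bot
  have hg := umo_mono hf hlim
  have hL := (umo_L1 hab hf hlim).const_mul K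
  rw [mul_zero] at hL
  refine squeeze_zero' (Eventually.of_forall fun i =>
    intervalIntegral.integral_nonneg hab fun x _ => abs_nonneg _) ?_ hL
  filter_upwards [hf, hft] with i hi hti
  rw [← intervalIntegral.integral_const_mul, intervalIntegral.integral_of_le hab,
    intervalIntegral.integral_of_le hab]
  have hint : IntervalIntegrable (fun x => K * |f i x - g x|) volume a b :=
    (((umo_ii hab hi).sub (umo_ii hab hg)).abs).const_mul K
  refine (le_abs_self _).trans ?_
  rw [← Real.norm_eq_abs]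
  refine norm_integral_le_of_norm_le ((intervalIntegrable_iff_integrableOn_Ioc_of_le hab).1 hint) ?_
  refine (ae_restrict_iff' measurableSet_Ioc).2 (Eventually.of_forall fun x hx => ?_)
  have hx' := Ioc_subset_Icc_self hx
  rw [Real.norm_eq_abs, abs_abs]
  exact hΦ x hx' _ (hti x hx') _ (hgt x hx')

theorem umo_comp_integral {a b : ℝ} (hab : a ≤ b) {f : ι → ℝ → ℝ} {g : ℝ → ℝ} {Φ : ℝ → ℝ → ℝ} {K : ℝ}
    {t : Set ℝ} (hf : ∀ᶠ i in l, MonotoneOn (f i) (Icc a b))
    (hlim : ∀ x ∈ Icc a b, Tendsto (fun i => f i x) l (𝓝 (g x)))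
    (hft : ∀ᶠ i in l, ∀ x ∈ Icc a b, f i x ∈ t) (hgt : ∀ x ∈ Icc a b, g x ∈ t)
    (hΦ : ∀ x ∈ Icc a b, ∀ u ∈ t, ∀ v ∈ t, |Φ x u - Φ x v| ≤ K * |u - v|)
    (hi : ∀ᶠ i in l, IntervalIntegrable (fun x => Φ x (f i x)) volume a b)
    (hg : IntervalIntegrable (fun x => Φ x (g x)) volume a b) :
    Tendsto (fun i => ∫ x in a..b, Φ x (f i x)) l (𝓝 (∫ x in a..b, Φ x (g x))) := by
  have hL := umo_comp_L1 hab hf hlim hft hgt hΦ
  rw [tendsto_iff_norm_sub_tendsto_zero]
  refine squeeze_zero' (Eventually.of_forall fun i => norm_nonneg _) ?_ hL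
  filter_upwards [hi] with i hii
  rw [← intervalIntegral.integral_sub hii hg]
  exact intervalIntegral.norm_integral_le_integral_norm hab

/-- `φ` Lipschitz on a set containing all the values: integrability is automatic -/
theorem umo_lipcomp_integral {a b : ℝ} (hab : a ≤ b) {f : ι → ℝ → ℝ} {g φ : ℝ → ℝ} {K : NNReal}
    {t : Set ℝ} (hf : ∀ᶠ i in l, MonotoneOn (f i) (Icc a b))
    (hlim : ∀ x ∈ Icc a b, Tendsto (fun i => f i x) l (𝓝 (g x)))
    (hft : ∀ᶠ i in l, ∀ x ∈ Icc a b, f i x ∈ t) (hgt : ∀ x ∈ Icc a b, g x ∈ t)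
    (hφ : LipschitzOnWith K φ t) :
    Tendsto (fun i => ∫ x in a..b, φ (f i x)) l (𝓝 (∫ x in a..b, φ (g x))) := by
  obtain ⟨ψ, hψ, hEq⟩ := hφ.extend_real
  have hint : ∀ u : ℝ → ℝ, IntervalIntegrable u volume a b →
      IntervalIntegrable (fun x => ψ (u x)) volume a b := by
    intro u hu
    rw [intervalIntegrable_iff_integrableOn_Ioc_of_le hab] at hu ⊢
    have hbound : Integrable (fun x => |ψ 0| + K * |u x|) (volume.restrict (Ioc a b)) :=
      (integrable_const _).add (hu.abs.const_mul _)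
    refine hbound.mono' (hψ.continuous.comp_aestronglyMeasurable hu.aestronglyMeasurable)
      (Eventually.of_forall fun x => ?_)
    have h1 := hψ.dist_le_mul (u x) 0
    rw [Real.dist_eq, Real.dist_eq, sub_zero] at h1
    rw [Real.norm_eq_abs]
    have h2 : |ψ (u x)| ≤ |ψ (u x) - ψ 0| + |ψ 0| := by
      have := abs_add_le (ψ (u x) - ψ 0) (ψ 0)
      simpa using this
    linarith
  rcases l.eq_or_neBot with rfl | hl
  · exact tendsto_bot
  have hg := umo_mono hf hlim
  have key := umo_comp_integral hab (Φ := fun _ u => ψ u) (K := K) (t := univ) hf hlim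
    (Eventually.of_forall fun _ _ _ => mem_univ _) (fun _ _ => mem_univ _)
    (fun x _ u _ v _ => by
      have := hψ.dist_le_mul u v
      simpa [Real.dist_eq] using this)
    (hf.mono fun i hi => hint _ (umo_ii hab hi)) (hint _ (umo_ii hab hg))
  have e0 : ∫ x in a..b, φ (g x) = ∫ x in a..b, ψ (g x) :=
    intervalIntegral.integral_congr fun x hx => by
      rw [uIcc_of_le hab] at hx
      exact hEq (hgt x hx)
  rw [e0]
  refine key.congr' ?_
  filter_upwards [hft] with i hi
  exact intervalIntegral.integral_congr fun x hx => by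
    rw [uIcc_of_le hab] at hx
    exact (hEq (hi x hx)).symm

/-! ## Polya: monotone + continuous limit ⟹ uniform;  converse bridge `L¹ ⟹ pointwise` -/

theorem umo_unif {a b : ℝ} (hab : a ≤ b) {f : ι → ℝ → ℝ} {g : ℝ → ℝ}
    (hf : ∀ᶠ i in l, MonotoneOn (f i) (Icc a b))
    (hlim : ∀ x ∈ Icc a b, Tendsto (fun i => f i x) l (𝓝 (g x)))
    (hg : ContinuousOn g (Icc a b)) : TendstoUniformlyOn f g l (Icc a b) := by
  rcases l.eq_or_neBot with rfl | hl
  · simp [TendstoUniformlyOn]
  have hgm := umo_mono hf hlim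
  rw [Metric.tendstoUniformlyOn_iff]
  intro ε hε
  have huc := isCompact_Icc.uniformContinuousOn_of_continuous hg
  rw [Metric.uniformContinuousOn_iff] at huc
  obtain ⟨δ, hδ, hgδ⟩ := huc (ε / 2) (half_pos hε)
  obtain ⟨N, hN⟩ := exists_nat_gt ((b - a) / δ)
  have hba : 0 ≤ b - a := sub_nonneg.2 hab
  have hN0 : 0 < N := by
    have : (0 : ℝ) < N := lt_of_le_of_lt (by positivity) hN
    exact_mod_cast this
  have hNr : (0 : ℝ) < N := by exact_mod_cast hN0
  have hmesh : (b - a) / N < δ := by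
    rw [div_lt_iff₀ hδ] at hN
    rw [div_lt_iff₀ hNr]
    linarith
  have hev : ∀ᶠ i in l, ∀ k ∈ Finset.range (N + 1),
      |f i (umoPt a b N k) - g (umoPt a b N k)| < ε / 2 := by
    rw [Filter.eventually_all_finset]
    intro k hk
    have hk' : k ≤ N := Nat.lt_succ_iff.1 (Finset.mem_range.1 hk)
    have := (hlim _ (umo_pt_mem hab hN0 hk'))
    rw [Metric.tendsto_nhds] at this
    filter_upwards [this (ε / 2) (half_pos hε)] with i hi
    rwa [Real.dist_eq] at hi
  filter_upwards [hf, hev] with i hi hei x hx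
  obtain ⟨k, hk, hxk⟩ := umo_pt_cover hN0 hx
  have hm0 := umo_pt_mem hab hN0 hk.le
  have hm1 := umo_pt_mem hab hN0 (Nat.succ_le_of_lt hk)
  have e0 := abs_lt.1 (hei k (Finset.mem_range.2 (by omega)))
  have e1 := abs_lt.1 (hei (k + 1) (Finset.mem_range.2 (by omega)))
  have hgg : g (umoPt a b N (k + 1)) - g (umoPt a b N k) < ε / 2 := by
    have := hgδ _ hm1 _ hm0 (by
      rw [Real.dist_eq, umo_pt_succ_sub, abs_of_nonneg (by positivity)]
      exact hmesh)
    rw [Real.dist_eq] at this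
    exact (abs_lt.1 this).2
  have f1 := hi hm0 hx hxk.1
  have f2 := hi hx hm1 hxk.2
  have g1 := hgm hm0 hx hxk.1
  have g2 := hgm hx hm1 hxk.2
  rw [Real.dist_eq, abs_lt]
  constructor <;> linarith

theorem umo_pt_of_L1 {a b : ℝ} {f : ι → ℝ → ℝ} {g : ℝ → ℝ}
    (hf : ∀ᶠ i in l, MonotoneOn (f i) (Icc a b)) (hg : MonotoneOn g (Icc a b))
    (hL : Tendsto (fun i => ∫ x in a..b, |f i x - g x|) l (𝓝 0))
    {x : ℝ} (hx : x ∈ Ioo a b) (hc : ContinuousAt g x) :
    Tendsto (fun i => f i x) l (𝓝 (g x)) := by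
  have hab : a ≤ b := (hx.1.trans hx.2).le
  rw [Metric.tendsto_nhds]
  intro ε hε
  rw [Metric.continuousAt_iff] at hc
  obtain ⟨δ, hδ, hgδ⟩ := hc (ε / 2) (half_pos hε)
  set η := min (δ / 2) (min ((b - x) / 2) ((x - a) / 2)) with hη
  have hη0 : 0 < η := lt_min (half_pos hδ) (lt_min (half_pos (sub_pos.2 hx.2)) (half_pos (sub_pos.2 hx.1)))
  have hη1 : η ≤ δ / 2 := min_le_left _ _
  have hη2 : η ≤ (b - x) / 2 := (min_le_right _ _).trans (min_le_left _ _)
  have hη3 : η ≤ (x - a) / 2 := (min_le_right _ _).trans (min_le_right _ _)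
  have hev := hL.eventually (gt_mem_nhds (show (0 : ℝ) < η * (ε / 2) by positivity))
  filter_upwards [hf, hev] with i hi hLi
  have hint : IntervalIntegrable (fun y => |f i y - g y|) volume a b :=
    ((umo_ii hab hi).sub (umo_ii hab hg)).abs
  have hnn : 0 ≤ᵐ[volume.restrict (Ioc a b)] fun y => |f i y - g y| :=
    Eventually.of_forall fun y => abs_nonneg _
  have hgx : ∀ y, |y - x| ≤ η → |g y - g x| < ε / 2 := by
    intro y hy
    have := hgδ (x := y) (by rw [Real.dist_eq]; linarith)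
    rwa [Real.dist_eq] at this
  rw [Real.dist_eq, abs_lt]
  constructor
  · -- lower bound: use the window [x - η, x]
    by_contra hcon
    rw [not_lt] at hcon
    have h1 : ∫ y in (x - η)..x, (ε / 2) ≤ ∫ y in (x - η)..x, |f i y - g y| := by
      refine intervalIntegral.integral_mono_on (by linarith) intervalIntegrable_const
        (hint.mono_set (by
          rw [uIcc_of_le (by linarith), uIcc_of_le hab]
          exact Icc_subset_Icc (by linarith) hx.2.le)) ?_
      intro y hy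
      have hym : y ∈ Icc a b := ⟨by linarith [hy.1], hy.2.trans hx.2.le⟩
      have f1 := hi hym ⟨hx.1.le, hx.2.le⟩ hy.2
      have g1 := abs_lt.1 (hgx y (by rw [abs_le]; constructor <;> linarith [hy.1, hy.2]))
      have : ε / 2 ≤ -(f i y - g y) := by linarith [g1.1, g1.2]
      exact this.trans (neg_le_abs _)
    have h2 : ∫ y in (x - η)..x, |f i y - g y| ≤ ∫ y in a..b, |f i y - g y| :=
      intervalIntegral.integral_mono_interval (by linarith) (by linarith) hx.2.le hnn hint
    rw [intervalIntegral.integral_const, smul_eq_mul] at h1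
    have : x - (x - η) = η := by ring
    rw [this] at h1
    linarith
  · by_contra hcon
    rw [not_lt] at hcon
    have h1 : ∫ y in x..(x + η), (ε / 2) ≤ ∫ y in x..(x + η), |f i y - g y| := by
      refine intervalIntegral.integral_mono_on (by linarith) intervalIntegrable_const
        (hint.mono_set (by
          rw [uIcc_of_le (by linarith), uIcc_of_le hab]
          exact Icc_subset_Icc hx.1.le (by linarith))) ?_
      intro y hy
      have hym : y ∈ Icc a b := ⟨hx.1.le.trans hy.1, by linarith [hy.2]⟩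
      have f1 := hi ⟨hx.1.le, hx.2.le⟩ hym hy.1
      have g1 := abs_lt.1 (hgx y (by rw [abs_le]; constructor <;> linarith [hy.1, hy.2]))
      have : ε / 2 ≤ f i y - g y := by linarith [g1.1, g1.2]
      exact this.trans (le_abs_self _)
    have h2 : ∫ y in x..(x + η), |f i y - g y| ≤ ∫ y in a..b, |f i y - g y| :=
      intervalIntegral.integral_mono_interval hx.1.le (by linarith) (by linarith) hnn hint
    rw [intervalIntegral.integral_const, smul_eq_mul] at h1
    have : x + η - x = η := by ring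
    rw [this] at h1
    linarith

theorem umo_unif_of_L1 {a b a' b' : ℝ} {f : ι → ℝ → ℝ} {g : ℝ → ℝ}
    (hf : ∀ᶠ i in l, MonotoneOn (f i) (Icc a b)) (hg : MonotoneOn g (Icc a b))
    (hL : Tendsto (fun i => ∫ x in a..b, |f i x - g x|) l (𝓝 0))
    (ha : a < a') (hab' : a' ≤ b') (hb : b' < b) (hc : ContinuousOn g (Ioo a b)) :
    TendstoUniformlyOn f g l (Icc a' b') := by
  have hsub : Icc a' b' ⊆ Icc a b := Icc_subset_Icc ha.le hb.le
  have hsub' : Icc a' b' ⊆ Ioo a b := fun x hx => ⟨ha.trans_le hx.1, hx.2.trans_lt hb⟩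
  refine umo_unif hab' (hf.mono fun i hi => hi.mono hsub) ?_ (hc.mono hsub')
  intro x hx
  exact umo_pt_of_L1 hf hg hL (hsub' hx) (hc.continuousAt (isOpen_Ioo.mem_nhds (hsub' hx)))

/-! ## existence of limits along an ultrafilter; Helly -/

theorem umo_exists_lim (U : Ultrafilter ι) {u : ι → ℝ} {C : ℝ} (h : ∀ᶠ i in U, |u i| ≤ C) :
    ∃ c : ℝ, |c| ≤ C ∧ Tendsto u U (𝓝 c) := by
  have hle : (U.map u : Filter ℝ) ≤ 𝓟 (Icc (-C) C) := by
    rw [le_principal_iff]
    change ∀ᶠ i in U, u i ∈ Icc (-C) C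
    exact h.mono fun i hi => abs_le.1 hi
  obtain ⟨c, hc, hU⟩ := isCompact_Icc.ultrafilter_le_nhds (U.map u) hle
  exact ⟨c, abs_le.2 hc, hU⟩

theorem umo_exists_lim_fun (U : Ultrafilter ι) {X : Type*} {s : Set X} {f : ι → X → ℝ} {C : X → ℝ}
    (h : ∀ x ∈ s, ∀ᶠ i in U, |f i x| ≤ C x) :
    ∃ g : X → ℝ, (∀ x ∈ s, |g x| ≤ C x) ∧ ∀ x ∈ s, Tendsto (fun i => f i x) U (𝓝 (g x)) := by
  classical
  have hex : ∀ x : X, ∃ c : ℝ, x ∈ s → (|c| ≤ C x ∧ Tendsto (fun i => f i x) U (𝓝 c)) := by
    intro x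
    by_cases hx : x ∈ s
    · obtain ⟨c, hc⟩ := umo_exists_lim U (h x hx)
      exact ⟨c, fun _ => hc⟩
    · exact ⟨0, fun h => absurd h hx⟩
  choose g hg using hex
  exact ⟨g, fun x hx => (hg x hx).1, fun x hx => (hg x hx).2⟩

/-- Helly along an ultrafilter: pointwise EVERYWHERE and in `L¹`. -/
theorem umo_helly_U (U : Ultrafilter ι) {a b : ℝ} (hab : a ≤ b) {f : ι → ℝ → ℝ} {C : ℝ}
    (hf : ∀ᶠ i in U, MonotoneOn (f i) (Icc a b)) (hb : ∀ᶠ i in U, ∀ x ∈ Icc a b, |f i x| ≤ C) :
    ∃ g : ℝ → ℝ, MonotoneOn g (Icc a b) ∧ (∀ x ∈ Icc a b, |g x| ≤ C) ∧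
      (∀ x ∈ Icc a b, Tendsto (fun i => f i x) U (𝓝 (g x))) ∧
      Tendsto (fun i => ∫ x in a..b, |f i x - g x|) U (𝓝 0) := by
  obtain ⟨g, hgb, hlim⟩ := umo_exists_lim_fun U (s := Icc a b) (f := f) (C := fun _ => C)
    (fun x hx => hb.mono fun i hi => hi x hx)
  exact ⟨g, umo_mono hf hlim, hgb, hlim, umo_L1 hab hf hlim⟩

/-- Helly for sequences, `L¹` form (compactness of bounded monotone functions in `L¹`). -/
theorem umo_helly_L1 {a b : ℝ} (hab : a ≤ b) {f : ℕ → ℝ → ℝ} {C : ℝ}
    (hf : ∀ n, MonotoneOn (f n) (Icc a b)) (hb : ∀ n, ∀ x ∈ Icc a b, |f n x| ≤ C) :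
    ∃ g : ℝ → ℝ, MonotoneOn g (Icc a b) ∧ (∀ x ∈ Icc a b, |g x| ≤ C) ∧
      ∃ φ : ℕ → ℕ, StrictMono φ ∧
        Tendsto (fun k => ∫ x in a..b, |f (φ k) x - g x|) atTop (𝓝 0) := by
  obtain ⟨g, hgm, hgb, -, hL⟩ := umo_helly_U (hyperfilter ℕ) hab (f := f) (C := C)
    (Eventually.of_forall hf) (Eventually.of_forall hb)
  refine ⟨g, hgm, hgb, ?_⟩
  have hfreq : ∀ n : ℕ, ∃ᶠ k in atTop, ∫ x in a..b, |f k x - g x| < 1 / ((n : ℝ) + 1) := by
    intro n
    have h1 : ∀ᶠ k in (hyperfilter ℕ : Filter ℕ), ∫ x in a..b, |f k x - g x| < 1 / ((n : ℝ) + 1) :=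
      hL.eventually (gt_mem_nhds (by positivity))
    exact (h1.frequently).filter_mono Nat.hyperfilter_le_atTop
  obtain ⟨φ, hφ, hP⟩ := extraction_forall_of_frequently hfreq
  refine ⟨φ, hφ, ?_⟩
  refine squeeze_zero (fun k => intervalIntegral.integral_nonneg hab fun x _ => abs_nonneg _)
    (fun k => (hP k).le) tendsto_one_div_add_atTop_nhds_zero_nat

/-! ## (2) equi-Lipschitz families -/

theorem umo_lip_lim {X Y : Type*} [PseudoMetricSpace X] [PseudoMetricSpace Y] [l.NeBot] {s : Set X}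
    {K : NNReal} {f : ι → X → Y} {g : X → Y} (hf : ∀ᶠ i in l, LipschitzOnWith K (f i) s)
    (hlim : ∀ x ∈ s, Tendsto (fun i => f i x) l (𝓝 (g x))) : LipschitzOnWith K g s := by
  rw [lipschitzOnWith_iff_dist_le_mul]
  intro x hx y hy
  have h1 : Tendsto (fun i => dist (f i x) (f i y)) l (𝓝 (dist (g x) (g y))) :=
    (hlim x hx).dist (hlim y hy)
  refine le_of_tendsto h1 (hf.mono fun i hi => ?_)
  exact (lipschitzOnWith_iff_dist_le_mul.1 hi) x hx y hy

theorem umo_lip_unif {X Y : Type*} [PseudoMetricSpace X] [PseudoMetricSpace Y] {s : Set X}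
    {K : NNReal} {f : ι → X → Y} {g : X → Y} (hs : TotallyBounded s)
    (hf : ∀ᶠ i in l, LipschitzOnWith K (f i) s)
    (hlim : ∀ x ∈ s, Tendsto (fun i => f i x) l (𝓝 (g x))) : TendstoUniformlyOn f g l s := by
  rcases l.eq_or_neBot with rfl | hl
  · simp [TendstoUniformlyOn]
  have hg := umo_lip_lim hf hlim
  rw [Metric.tendstoUniformlyOn_iff]
  intro ε hε
  set η : ℝ := ε / (3 * ((K : ℝ) + 1)) with hη
  have hK : (0 : ℝ) ≤ K := K.coe_nonneg
  have hη0 : 0 < η := by positivity
  have hKη : (K : ℝ) * η < ε / 3 := by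
    rw [hη]
    have : (K : ℝ) * (ε / (3 * ((K : ℝ) + 1))) = (ε / 3) * ((K : ℝ) / ((K : ℝ) + 1)) := by
      field_simp
    rw [this]
    have h1 : (K : ℝ) / ((K : ℝ) + 1) < 1 := by
      rw [div_lt_one (by positivity)]
      linarith
    have : 0 < ε / 3 := by positivity
    nlinarith
  obtain ⟨t, hts, htf, hcov⟩ := Metric.finite_approx_of_totallyBounded hs η hη0
  have hev : ∀ᶠ i in l, ∀ y ∈ t, dist (f i y) (g y) < ε / 3 := by
    rw [Filter.eventually_all_finite htf]
    intro y hy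
    have := hlim y (hts hy)
    rw [Metric.tendsto_nhds] at this
    exact this (ε / 3) (by positivity)
  filter_upwards [hf, hev] with i hi hei x hx
  obtain ⟨y, hy, hxy⟩ : ∃ y ∈ t, x ∈ Metric.ball y η := by
    have := hcov hx
    simpa using this
  have hd : dist x y < η := hxy
  have h1 := (lipschitzOnWith_iff_dist_le_mul.1 hg) x hx y (hts hy)
  have h2 := (lipschitzOnWith_iff_dist_le_mul.1 hi) y (hts hy) x hx
  have h3 := hei y hy
  rw [dist_comm y x] at h2
  have h4 : (K : ℝ) * dist x y ≤ K * η := mul_le_mul_of_nonneg_left hd.le hK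
  calc dist (g x) (f i x) ≤ dist (g x) (g y) + dist (g y) (f i y) + dist (f i y) (f i x) :=
        dist_triangle4 _ _ _ _
    _ < ε := by
        rw [dist_comm (g y) (f i y)]
        linarith

theorem umo_lip_exists (U : Ultrafilter ι) {X : Type*} [PseudoMetricSpace X] {K : NNReal}
    {f : ι → X → ℝ} {x₀ : X} {C : ℝ} (hf : ∀ᶠ i in U, LipschitzWith K (f i))
    (h0 : ∀ᶠ i in U, |f i x₀| ≤ C) :
    ∃ g : X → ℝ, LipschitzWith K g ∧ |g x₀| ≤ C ∧ (∀ x, Tendsto (fun i => f i x) U (𝓝 (g x))) ∧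
      ∀ s : Set X, TotallyBounded s → TendstoUniformlyOn f g U s := by
  have hK : (0 : ℝ) ≤ K := K.coe_nonneg
  obtain ⟨g, hgb, hlim⟩ := umo_exists_lim_fun U (s := univ) (f := f)
    (C := fun x => C + K * dist x x₀) (fun x _ => by
      filter_upwards [hf, h0] with i hi h0i
      have h1 := hi.dist_le_mul x x₀
      rw [Real.dist_eq] at h1
      have h2 : |f i x| ≤ |f i x - f i x₀| + |f i x₀| := by
        have := abs_add_le (f i x - f i x₀) (f i x₀)
        simpa using this
      linarith)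
  have hlim' : ∀ x, Tendsto (fun i => f i x) U (𝓝 (g x)) := fun x => hlim x (mem_univ x)
  have hL : LipschitzWith K g := by
    rw [← lipschitzOnWith_univ]
    exact umo_lip_lim (hf.mono fun i hi => hi.lipschitzOnWith) hlim
  refine ⟨g, hL, ?_, hlim', ?_⟩
  · simpa using hgb x₀ (mem_univ _)
  · intro s hs
    exact umo_lip_unif hs (hf.mono fun i hi => hi.lipschitzOnWith) fun x _ => hlim' x

/-- `C¹_loc`: derivatives equi-Lipschitz, both families converge pointwise. -/
theorem umo_C1 [l.NeBot] {s : Set ℝ} (hs : IsOpen s) {K : NNReal} {f f' : ι → ℝ → ℝ} {g g' : ℝ → ℝ}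
    (hd : ∀ᶠ i in l, ∀ x ∈ s, HasDerivAt (f i) (f' i x) x)
    (hL : ∀ᶠ i in l, LipschitzOnWith K (f' i) s)
    (hlim : ∀ x ∈ s, Tendsto (fun i => f i x) l (𝓝 (g x)))
    (hlim' : ∀ x ∈ s, Tendsto (fun i => f' i x) l (𝓝 (g' x))) :
    ∀ x ∈ s, HasDerivAt g (g' x) x := by
  intro x hx
  obtain ⟨r, hr, hball⟩ := Metric.isOpen_iff.1 hs x hx
  have htb : TotallyBounded (Metric.ball x r) :=
    (isCompact_closedBall x r).totallyBounded.subset Metric.ball_subset_closedBall
  have hu : TendstoUniformlyOn f' g' l (Metric.ball x r) :=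
    umo_lip_unif htb (hL.mono fun i hi => hi.mono hball) fun y hy => hlim' y (hball hy)
  exact hasDerivAt_of_tendstoUniformlyOn Metric.isOpen_ball hu
    (hd.mono fun i hi y hy => hi y (hball hy)) (fun y hy => hlim y (hball hy))
    (Metric.mem_ball_self hr)

/-! ## dominated convergence along an arbitrary filter: locally uniform convergence + domination -/

theorem umo_dct {X : Type*} [PseudoMetricSpace X] [ProperSpace X] [MeasurableSpace X]
    [OpensMeasurableSpace X] {μ : Measure X} [IsFiniteMeasureOnCompacts μ] {f : ι → X → ℝ} {g G : X → ℝ}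
    (hG : Integrable G μ) (hm : ∀ᶠ i in l, AEStronglyMeasurable (f i) μ)
    (hgm : AEStronglyMeasurable g μ)
    (hb : ∀ᶠ i in l, ∀ x, |f i x| ≤ G x) (hgb : ∀ x, |g x| ≤ G x)
    (hu : ∀ s : Set X, IsCompact s → TendstoUniformlyOn f g l s) :
    Tendsto (fun i => ∫ x, f i x ∂μ) l (𝓝 (∫ x, g x ∂μ)) := by
  rcases isEmpty_or_nonempty X with hX | ⟨⟨x₀⟩⟩
  · simp only [integral_of_isEmpty]
    exact tendsto_const_nhds
  rw [Metric.tendsto_nhds]
  intro ε hε
  -- the tail of `G`
  have hmono : Monotone fun n : ℕ => Metric.closedBall x₀ (n : ℝ) := fun m n hmn =>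
    Metric.closedBall_subset_closedBall (by exact_mod_cast hmn)
  have hUn : (⋃ n : ℕ, Metric.closedBall x₀ (n : ℝ)) = univ := by
    refine eq_univ_of_forall fun x => ?_
    obtain ⟨n, hn⟩ := exists_nat_ge (dist x x₀)
    exact mem_iUnion.2 ⟨n, hn⟩
  have htail := tendsto_setIntegral_of_monotone (μ := μ) (f := G)
    (fun n : ℕ => (Metric.isClosed_closedBall (x := x₀) (ε := (n : ℝ))).measurableSet) hmono
    (by rw [hUn]; exact hG.integrableOn)
  rw [hUn, setIntegral_univ, Metric.tendsto_nhds] at htail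
  obtain ⟨n, hn⟩ := (htail (ε / 4) (by positivity)).exists
  set B := Metric.closedBall x₀ (n : ℝ) with hB
  have hBm : MeasurableSet B := Metric.isClosed_closedBall.measurableSet
  have hBc : IsCompact B := isCompact_closedBall _ _
  have hBfin : μ B < ⊤ := hBc.measure_lt_top
  have hGc : ∫ x in Bᶜ, G x ∂μ < ε / 4 := by
    have h1 := integral_add_compl hBm hG
    rw [Real.dist_eq] at hn
    have := (abs_lt.1 hn).1
    linarith
  set m := μ.real B with hmdef
  have hm0 : 0 ≤ m := measureReal_nonneg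
  have hunif := Metric.tendstoUniformlyOn_iff.1 (hu B hBc) (ε / (2 * (m + 1))) (by positivity)
  filter_upwards [hm, hb, hunif] with i hmi hbi hui
  have hfi : Integrable (f i) μ := hG.mono' hmi (Eventually.of_forall fun x => by
    simpa using hbi x)
  have hgi : Integrable g μ := hG.mono' hgm (Eventually.of_forall fun x => by simpa using hgb x)
  have hdi : Integrable (fun x => |f i x - g x|) μ := (hfi.sub hgi).abs
  rw [Real.dist_eq, ← integral_sub hfi hgi]
  have h0 : |∫ x, (f i x - g x) ∂μ| ≤ ∫ x, |f i x - g x| ∂μ := by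
    simpa using norm_integral_le_integral_norm (μ := μ) (fun x => f i x - g x)
  have h1 := integral_add_compl hBm hdi
  have h2 : ∫ x in B, |f i x - g x| ∂μ ≤ ε / (2 * (m + 1)) * m := by
    have := norm_setIntegral_le_of_norm_le_const (μ := μ) (s := B)
      (f := fun x => |f i x - g x|) (C := ε / (2 * (m + 1))) hBfin (fun x hx => by
        have := hui x hx
        rw [Real.dist_eq, abs_sub_comm] at this
        simpa using this.le)
    exact (le_abs_self _).trans this
  have h3 : ∫ x in Bᶜ, |f i x - g x| ∂μ ≤ ∫ x in Bᶜ, 2 * G x ∂μ := by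
    refine setIntegral_mono hdi.integrableOn (hG.const_mul 2).integrableOn fun x => ?_
    have a1 := hbi x
    have a2 := hgb x
    have := abs_sub (f i x) (g x)
    simp only
    linarith
  rw [integral_const_mul] at h3
  have h4 : ε / (2 * (m + 1)) * m < ε / 2 := by
    have : ε / (2 * (m + 1)) * m = (ε / 2) * (m / (m + 1)) := by field_simp
    rw [this]
    have h5 : m / (m + 1) < 1 := by
      rw [div_lt_one (by positivity)]
      linarith
    have : 0 < ε / 2 := by positivity
    nlinarith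
  linarith

/-- equi-Lipschitz integrands against a finite measure with a first moment -/
theorem umo_lip_integral {X : Type*} [PseudoMetricSpace X] [ProperSpace X] [MeasurableSpace X]
    [BorelSpace X] {μ : Measure X} [IsFiniteMeasure μ] {x₀ : X}
    (hμ : Integrable (fun x => dist x x₀) μ) {K : NNReal} {f : ι → X → ℝ} {g : X → ℝ}
    (hf : ∀ᶠ i in l, LipschitzWith K (f i))
    (hlim : ∀ x, Tendsto (fun i => f i x) l (𝓝 (g x))) :
    Tendsto (fun i => ∫ x, f i x ∂μ) l (𝓝 (∫ x, g x ∂μ)) := by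
  rcases l.eq_or_neBot with rfl | hl
  · exact tendsto_bot
  have hK : (0 : ℝ) ≤ K := K.coe_nonneg
  have hgL : LipschitzWith K g := by
    rw [← lipschitzOnWith_univ]
    exact umo_lip_lim (hf.mono fun i hi => hi.lipschitzOnWith) fun x _ => hlim x
  have h0 : ∀ᶠ i in l, |f i x₀| ≤ |g x₀| + 1 := by
    have := (hlim x₀).abs
    exact (this.eventually (gt_mem_nhds (lt_add_one _))).mono fun i hi => hi.le
  have hbound : ∀ u : X → ℝ, LipschitzWith K u → |u x₀| ≤ |g x₀| + 1 →
      ∀ x, |u x| ≤ |g x₀| + 1 + K * dist x x₀ := by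
    intro u hu hu0 x
    have h1 := hu.dist_le_mul x x₀
    rw [Real.dist_eq] at h1
    have h2 : |u x| ≤ |u x - u x₀| + |u x₀| := by
      have := abs_add_le (u x - u x₀) (u x₀)
      simpa using this
    linarith
  refine umo_dct (G := fun x => |g x₀| + 1 + K * dist x x₀)
    ((integrable_const _).add (hμ.const_mul _))
    (hf.mono fun i hi => hi.continuous.aestronglyMeasurable) hgL.continuous.aestronglyMeasurable
    ?_ (hbound g hgL (by linarith)) ?_
  · filter_upwards [hf, h0] with i hi h0i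
    exact hbound _ hi h0i
  · intro s hs
    exact umo_lip_unif hs.totallyBounded (hf.mono fun i hi => hi.lipschitzOnWith) fun x _ => hlim x

/-! ## convex families (Griffiths) -/

theorem umo_convex_lim [l.NeBot] {s : Set ℝ} {f : ι → ℝ → ℝ} {g : ℝ → ℝ}
    (hf : ∀ᶠ i in l, ConvexOn ℝ s (f i))
    (hlim : ∀ x ∈ s, Tendsto (fun i => f i x) l (𝓝 (g x))) : ConvexOn ℝ s g := by
  obtain ⟨i₀, hi₀⟩ := hf.exists
  refine ⟨hi₀.1, ?_⟩
  intro x hx y hy p q hp hq hpq
  have hmem : p • x + q • y ∈ s := hi₀.1 hx hy hp hq hpq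
  refine le_of_tendsto_of_tendsto (hlim _ hmem)
    (((hlim x hx).const_smul p).add ((hlim y hy).const_smul q)) (hf.mono fun i hi => ?_)
  exact hi.2 hx hy hp hq hpq

theorem umo_griffiths {s : Set ℝ} {f : ι → ℝ → ℝ} {g : ℝ → ℝ} {d : ι → ℝ} {x D : ℝ} (hs : s ∈ 𝓝 x)
    (hf : ∀ᶠ i in l, ConvexOn ℝ s (f i))
    (hlim : ∀ y ∈ s, Tendsto (fun i => f i y) l (𝓝 (g y)))
    (hd : ∀ᶠ i in l, HasDerivAt (f i) (d i) x) (hg : HasDerivAt g D x) :
    Tendsto d l (𝓝 D) := by
  rw [Metric.tendsto_nhds]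
  intro ε hε
  -- slopes of the limit
  have hsl := hasDerivAt_iff_tendsto_slope.1 hg
  rw [Metric.tendsto_nhds] at hsl
  have hev := hsl (ε / 2) (half_pos hε)
  have hs' : ∀ᶠ y in 𝓝[≠] x, y ∈ s := mem_nhdsWithin_of_mem_nhds hs
  have hboth := hev.and hs'
  -- a point on the right and a point on the left
  have hR : ∃ y, x < y ∧ dist (slope g x y) D < ε / 2 ∧ y ∈ s := by
    have h1 : ∀ᶠ y in 𝓝[>] x, dist (slope g x y) D < ε / 2 ∧ y ∈ s :=
      hboth.filter_mono (nhdsWithin_mono _ fun y hy => ne_of_gt hy)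
    obtain ⟨y, hy, hxy⟩ := (h1.and self_mem_nhdsWithin).exists
    exact ⟨y, hxy, hy.1, hy.2⟩
  have hLft : ∃ y, y < x ∧ dist (slope g x y) D < ε / 2 ∧ y ∈ s := by
    have h1 : ∀ᶠ y in 𝓝[<] x, dist (slope g x y) D < ε / 2 ∧ y ∈ s :=
      hboth.filter_mono (nhdsWithin_mono _ fun y hy => ne_of_lt hy)
    obtain ⟨y, hy, hxy⟩ := (h1.and self_mem_nhdsWithin).exists
    exact ⟨y, hxy, hy.1, hy.2⟩
  obtain ⟨y, hxy, hyD, hys⟩ := hR
  obtain ⟨w, hwx, hwD, hws⟩ := hLft
  have hxs : x ∈ s := mem_of_mem_nhds hs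
  have hslope : ∀ v ∈ s, Tendsto (fun i => slope (f i) x v) l (𝓝 (slope g x v)) := by
    intro v hv
    simp only [slope_def_field]
    exact ((hlim v hv).sub (hlim x hxs)).div_const _
  have e1 := (Metric.tendsto_nhds.1 (hslope y hys)) (ε / 2) (half_pos hε)
  have e2 := (Metric.tendsto_nhds.1 (hslope w hws)) (ε / 2) (half_pos hε)
  filter_upwards [hf, hd, e1, e2] with i hi hdi h1 h2
  have u1 : d i ≤ slope (f i) x y := hi.le_slope_of_hasDerivAt hxs hys hxy hdi
  have u2 : slope (f i) w x ≤ d i := hi.slope_le_of_hasDerivAt hws hxs hwx hdi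
  rw [slope_comm] at u2
  rw [Real.dist_eq, abs_lt] at h1 h2 hyD hwD ⊢
  constructor <;> linarith [h1.1, h1.2, h2.1, h2.2, hyD.1, hyD.2, hwD.1, hwD.2]

/-! ## (4) generalized inverses -/

/-- `r` is A generalized inverse of `f` on `[a,b]` for the levels in `t` (any convention: left/right continuous). -/
def UmoInv (f r : ℝ → ℝ) (a b : ℝ) (t : Set ℝ) : Prop :=
  ∀ x ∈ Icc a b, ∀ y ∈ t, (f x < y → x ≤ r y) ∧ (y < f x → r y ≤ x)

theorem umo_inverse {a b a' b' : ℝ} {f r : ι → ℝ → ℝ} {g ρ : ℝ → ℝ} {t : Set ℝ}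
    (ha : a < a') (hb : b' < b)
    (hf : ∀ᶠ i in l, MonotoneOn (f i) (Icc a b))
    (hlim : ∀ x ∈ Icc a b, Tendsto (fun i => f i x) l (𝓝 (g x)))
    (hgc : ContinuousOn g (Icc a b)) (hgs : StrictMonoOn g (Icc a b))
    (hr : ∀ᶠ i in l, UmoInv (f i) (r i) a b t)
    (hρ : ∀ y ∈ t, ρ y ∈ Icc a' b' ∧ g (ρ y) = y) :
    TendstoUniformlyOn r ρ l t := by
  rcases t.eq_empty_or_nonempty with rfl | ⟨y₀, hy₀⟩
  · simp [TendstoUniformlyOn]
  have hab' : a' ≤ b' := (hρ y₀ hy₀).1.1.trans (hρ y₀ hy₀).1.2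
  have hab : a ≤ b := (ha.trans_le hab').le.trans hb.le
  have hU := umo_unif hab hf hlim hgc
  rw [Metric.tendstoUniformlyOn_iff] at hU ⊢
  intro ε hε
  set e := min (ε / 2) (min (a' - a) (b - b')) with he
  have he0 : 0 < e := lt_min (half_pos hε) (lt_min (sub_pos.2 ha) (sub_pos.2 hb))
  have he1 : e ≤ ε / 2 := min_le_left _ _
  have he2 : e ≤ a' - a := (min_le_right _ _).trans (min_le_left _ _)
  have he3 : e ≤ b - b' := (min_le_right _ _).trans (min_le_right _ _)
  -- modulus of strict monotonicity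
  have hne : (Icc a (b - e)).Nonempty := nonempty_Icc.2 (by linarith)
  have hcont : ContinuousOn (fun x => g (x + e) - g x) (Icc a (b - e)) := by
    refine ContinuousOn.sub ?_ (hgc.mono (Icc_subset_Icc le_rfl (by linarith)))
    refine hgc.comp (by fun_prop) ?_
    intro x hx
    exact ⟨by linarith [hx.1], by linarith [hx.2]⟩
  obtain ⟨x₁, hx₁, hmin⟩ := isCompact_Icc.exists_isMinOn hne hcont
  set δ := g (x₁ + e) - g x₁ with hδ
  have hδ0 : 0 < δ := by
    have : g x₁ < g (x₁ + e) := hgs ⟨hx₁.1, by linarith [hx₁.2]⟩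
      ⟨by linarith [hx₁.1], by linarith [hx₁.2]⟩ (by linarith)
    linarith
  have hmod : ∀ x ∈ Icc a (b - e), δ ≤ g (x + e) - g x := fun x hx => hmin hx
  filter_upwards [hU δ hδ0, hr] with i hi hri y hy
  obtain ⟨hρm, hρy⟩ := hρ y hy
  -- left point
  have hl : ρ y - e ∈ Icc a (b - e) := ⟨by linarith [hρm.1], by linarith [hρm.2]⟩
  have hl' : ρ y - e ∈ Icc a b := ⟨hl.1, by linarith [hl.2]⟩
  have m1 := hmod _ hl
  rw [sub_add_cancel, hρy] at m1
  have d1 := hi _ hl'
  rw [Real.dist_eq, abs_lt] at d1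
  have r1 : ρ y - e ≤ r i y := (hri _ hl' y hy).1 (by linarith [d1.1])
  -- right point
  have hrr : ρ y ∈ Icc a (b - e) := ⟨by linarith [hρm.1], by linarith [hρm.2]⟩
  have hr' : ρ y + e ∈ Icc a b := ⟨by linarith [hrr.1], by linarith [hrr.2]⟩
  have m2 := hmod _ hrr
  rw [hρy] at m2
  have d2 := hi _ hr'
  rw [Real.dist_eq, abs_lt] at d2
  have r2 : r i y ≤ ρ y + e := (hri _ hr' y hy).2 (by linarith [d2.2])
  rw [Real.dist_eq, abs_lt]
  constructor <;> linarith

/-! ## (3) Stieltjes integrals by parts -/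

theorem umo_parts {μ : Measure ℝ} [IsFiniteMeasure μ] {φ φ' : ℝ → ℝ} {a b : ℝ} (hab : a ≤ b)
    (hd : ∀ x, HasDerivAt φ (φ' x) x) (hc : Continuous φ') (hsupp : ∀ x, x ∉ Ioo a b → φ x = 0) :
    ∫ x, φ x ∂μ = - ∫ x in a..b, φ' x * μ.real (Iic x) := by
  have hφa : φ a = 0 := hsupp a (fun h => lt_irrefl _ h.1)
  have hφb : φ b = 0 := hsupp b (fun h => lt_irrefl _ h.2)
  have hFTC : ∀ c d : ℝ, ∫ x in c..d, φ' x = φ d - φ c := fun c d =>
    intervalIntegral.integral_eq_sub_of_hasDerivAt (fun x _ => hd x) (hc.intervalIntegrable c d)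
  have hkint : ∀ s c d : ℝ, IntervalIntegrable ((Ici s).indicator φ') volume c d := fun s c d =>
    ⟨(hc.intervalIntegrable c d).1.indicator measurableSet_Ici,
      (hc.intervalIntegrable c d).2.indicator measurableSet_Ici⟩
  -- the pointwise representation
  have hrep : ∀ s : ℝ, φ s = - ∫ x in Ioc a b, (Ici s).indicator φ' x := by
    intro s
    rw [← intervalIntegral.integral_of_le hab]
    rcases le_or_gt s a with hsa | hsa
    · have : ∫ x in a..b, (Ici s).indicator φ' x = ∫ x in a..b, φ' x :=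
        intervalIntegral.integral_congr fun x hx => by
          rw [uIcc_of_le hab] at hx
          exact indicator_of_mem (show x ∈ Ici s from hsa.trans hx.1) _
      rw [this, hFTC, hφa, hφb, hsupp s (fun h => not_lt.2 hsa h.1)]
      simp
    rcases lt_or_ge b s with hbs | hbs
    · have : ∫ x in a..b, (Ici s).indicator φ' x = ∫ x in a..b, (0 : ℝ) :=
        intervalIntegral.integral_congr fun x hx => by
          rw [uIcc_of_le hab] at hx
          exact indicator_of_notMem (show x ∉ Ici s from not_le.2 (hx.2.trans_lt hbs)) _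
      rw [this, hsupp s (fun h => lt_asymm hbs h.2)]
      simp
    · rw [← intervalIntegral.integral_add_adjacent_intervals (hkint s a s) (hkint s s b)]
      have h1 : ∫ x in a..s, (Ici s).indicator φ' x = ∫ x in a..s, (0 : ℝ) := by
        refine intervalIntegral.integral_congr_ae ?_
        have hne : ∀ᵐ x ∂(volume : Measure ℝ), x ≠ s := by
          simp [ae_iff]
        filter_upwards [hne] with x hx hxm
        rw [uIoc_of_le hsa.le] at hxm
        exact indicator_of_notMem (show x ∉ Ici s from not_le.2 (lt_of_le_of_ne hxm.2 hx)) _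
      have h2 : ∫ x in s..b, (Ici s).indicator φ' x = ∫ x in s..b, φ' x :=
        intervalIntegral.integral_congr fun x hx => by
          rw [uIcc_of_le hbs] at hx
          exact indicator_of_mem (show x ∈ Ici s from hx.1) _
      rw [h1, h2, hFTC, hφb]
      simp
  -- Fubini
  have hInt : Integrable (Function.uncurry fun s x => (Ici s).indicator φ' x)
      (μ.prod (volume.restrict (Ioc a b))) := by
    have hb : Integrable (fun p : ℝ × ℝ => |φ' p.2|) (μ.prod (volume.restrict (Ioc a b))) :=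
      Integrable.comp_snd (f := fun x => |φ' x|)
        ((intervalIntegrable_iff_integrableOn_Ioc_of_le hab).1 (hc.intervalIntegrable a b)).abs μ
    have hEq : (Function.uncurry fun s x => (Ici s).indicator φ' x) =
        {p : ℝ × ℝ | p.1 ≤ p.2}.indicator (fun p => φ' p.2) := by
      funext p
      by_cases h : p.1 ≤ p.2
      · simp [Function.uncurry, indicator, h]
      · simp [Function.uncurry, indicator, h]
    have hmeas : Measurable (Function.uncurry fun s x => (Ici s).indicator φ' x) := by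
      rw [hEq]
      exact (hc.measurable.comp measurable_snd).indicator
        (measurableSet_le measurable_fst measurable_snd)
    refine hb.mono' hmeas.aestronglyMeasurable (Eventually.of_forall fun p => ?_)
    rw [hEq, Real.norm_eq_abs]
    by_cases h : p ∈ {p : ℝ × ℝ | p.1 ≤ p.2}
    · rw [indicator_of_mem h]
    · rw [indicator_of_notMem h]
      simp
  calc ∫ s, φ s ∂μ = ∫ s, (- ∫ x in Ioc a b, (Ici s).indicator φ' x) ∂μ :=
        integral_congr_ae (Eventually.of_forall hrep)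
    _ = - ∫ s, (∫ x in Ioc a b, (Ici s).indicator φ' x) ∂μ := integral_neg _
    _ = - ∫ x in Ioc a b, (∫ s, (Ici s).indicator φ' x ∂μ) := by rw [integral_integral_swap hInt]
    _ = - ∫ x in a..b, φ' x * μ.real (Iic x) := by
        rw [intervalIntegral.integral_of_le hab]
        congr 1
        refine integral_congr_ae (Eventually.of_forall fun x => ?_)
        have : (fun s => (Ici s).indicator φ' x) = (Iic x).indicator (fun _ => φ' x) := by
          funext s
          by_cases h : s ≤ x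
          · simp [indicator, h]
          · simp [indicator, h]
        simp only [this]
        rw [integral_indicator measurableSet_Iic, setIntegral_const, smul_eq_mul, mul_comm]

theorem umo_stieltjes {μ : ι → Measure ℝ} {ν : Measure ℝ} [IsFiniteMeasure ν] {φ φ' : ℝ → ℝ} {a b : ℝ}
    (hab : a ≤ b) (hμ : ∀ᶠ i in l, IsFiniteMeasure (μ i))
    (hd : ∀ x, HasDerivAt φ (φ' x) x) (hc : Continuous φ') (hsupp : ∀ x, x ∉ Ioo a b → φ x = 0)
    (hlim : ∀ x ∈ Icc a b, Tendsto (fun i => (μ i).real (Iic x)) l (𝓝 (ν.real (Iic x)))) :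
    Tendsto (fun i => ∫ x, φ x ∂(μ i)) l (𝓝 (∫ x, φ x ∂ν)) := by
  obtain ⟨M, hM⟩ : ∃ M, ∀ x ∈ Icc a b, |φ' x| ≤ M := by
    obtain ⟨M, hM⟩ := isCompact_Icc.exists_bound_of_continuousOn (s := Icc a b) hc.continuousOn
    exact ⟨M, fun x hx => by simpa using hM x hx⟩
  have key := umo_integral_mul hab (f := fun i x => (μ i).real (Iic x))
    (g := fun x => ν.real (Iic x)) (φ := φ') (M := M)
    (hμ.mono fun i hi => by
      intro x _ y _ hxy
      have := hi
      exact measureReal_mono (Iic_subset_Iic.2 hxy))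
    hlim hc.aestronglyMeasurable hM
  rw [umo_parts hab hd hc hsupp]
  refine key.neg.congr' ?_
  filter_upwards [hμ] with i hi
  have := hi
  rw [umo_parts hab hd hc hsupp]

end Claimed.Agent.UMono
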