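import Claimed.Agent.R286.Tool.ULim

/-!
# Row 286, toolbox (helper114, prefix `tl_114_`): weak limits ALONG AN ULTRAFILTER

Vocabulary-free.  `U : Ultrafilter ι`.
## 5. weak compactness
* `tl_114_hilbert_weak` : bounded sequence in a real Hilbert space has a weak `U`-limit (Banach-Alaoglu + Riesz).
* `tl_114_L2_weak`      : `∫ (g n)² ≤ R²`  ⟹  `G ∈ L²`, `∫ G² ≤ R²`, `∫ g n φ → ∫ G φ` for all `φ ∈ L²`  (ANY measure).
* `tl_114_weakstar_fin`, `tl_114_weakstar` : **weak-* compactness of `L^∞`** (finite / sigma-finite measure): `|g n| ≤ M` a.e.  ⟹  a MEASURABLE `G`, `|G| ≤ M` EVERYWHERE,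
  `∫ g n φ → ∫ G φ` for all `φ ∈ L¹`.      `tl_114_weakstar_real` : on `ℝ`, with interval integrals.
* `tl_114_weak_le` : a.e. inequalities pass to weak limits (box constraints `lo ≤ g n ≤ hi`).
* `tl_114_weakstar_ge`, `tl_114_weakstar_le` : floor / cap constraints `k n ≤ g n` (`g n ≤ k n`) a.e. pass to the weak-* limit (moving `k n` allowed: `∫_s k n → ∫_s K`).
* `tl_114_weak_lsc_sq` : `∫ G² ≤ c` if `∫ (g n)² ≤ c`.      `tl_114_weakstar_mul_strong` : weak-* times strong `L¹`.      `tl_114_weakstar_dense`, `tl_114_weakstar_set`, `tl_114_weak_to_interval`.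
* `tl_114_lipschitz_box` : **the compactness theorem of a Lipschitz class on `[a,b]`**: `α n → A` uniformly, `deriv (α n) ⇀ G` weak-*, `A y - A x = ∫_x^y G`.
## 6. vague limits of Radon measures (locally compact T2 space)
* `tl_114_vague` : locally bounded measures have a vague `U`-limit `ν`, regular (Riesz-Markov-Kakutani).
* `tl_114_vague_open` (`c < ν V ⟹ c < m n V` eventually), `tl_114_vague_compact` (`ν K < c ⟹ m n K < c` eventually), `tl_114_vague_open_le`, `tl_114_vague_compact_ge`.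
## 7. frames
* `tl_114_frame` : "for all large `n`, all instances" from "no sequence of bad instances".
* `tl_114_diagonal`, `tl_114_diagonal_tendsto` : diagonal choice = ONE sequence of approximants, any filter `≤ atTop` (no further subsequence).
* `tl_114_L1_unique`, `tl_114_galois_lim` (distribution function / quantile), `tl_114_integrated_limit`.

**WARNING.**  Dominated convergence is FALSE along an ultrafilter: there are `U ≤ atTop` and sets `B n ⊆ [0,1]`, `|B n| → 0`, such that `1_{B n}(z) → 1` along `U`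
for EVERY `z` (enumerate the finite unions of rational intervals of small length: the sets `{n | z ∈ B n}` have the finite intersection property).
So `L¹ → 0` does NOT give a.e. convergence along `U`, and a pointwise `U`-limit need not be measurable.   Use STRUCTURE (monotone: `tl_114_mono_L1`;
equi-Lipschitz: `tl_114_lipschitz_unif`; weak-*) and `tl_114_L1_unique`, or go down to a sequence with `tl_114_extract_nat`.
-/

set_option autoImplicit false
open MeasureTheory Filter Topology Set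
open scoped NNReal ENNReal Interval InnerProductSpace CompactlySupported

namespace Claimed.Agent.R286

variable {ι : Type*}

/-! ## 5. weak compactness -/

/-- weak compactness of balls of a real Hilbert space, along an ultrafilter -/
theorem tl_114_hilbert_weak {E : Type*} [NormedAddCommGroup E] [InnerProductSpace ℝ E]
    [CompleteSpace E] (U : Ultrafilter ι) {γ : ι → E} {R : ℝ} (hR : ∀ᶠ n in U, ‖γ n‖ ≤ R) :
    ∃ G : E, ‖G‖ ≤ R ∧ ∀ φ : E, Tendsto (fun n => ⟪γ n, φ⟫_ℝ) U (𝓝 ⟪G, φ⟫_ℝ) := by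
  let T : ι → WeakDual ℝ E := fun n => StrongDual.toWeakDual (InnerProductSpace.toDual ℝ E (γ n))
  have hT : ∀ᶠ n in U,
      T n ∈ WeakDual.toStrongDual ⁻¹' Metric.closedBall (0 : StrongDual ℝ E) R := by
    filter_upwards [hR] with n hn
    simpa [T] using hn
  obtain ⟨Λ, hΛ, hlim⟩ := tl_114_lim_compact U (WeakDual.isCompact_closedBall 0 R) hT
  refine ⟨(InnerProductSpace.toDual ℝ E).symm (WeakDual.toStrongDual Λ), ?_, fun φ => ?_⟩
  · simpa using hΛ
  · have := ((WeakDual.eval_continuous φ).tendsto Λ).comp hlim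
    simpa [T, Function.comp_def] using this

variable {X : Type*} [MeasurableSpace X] {μ : Measure X}

theorem tl_114_inner_toLp {f h : X → ℝ} (hf : MemLp f 2 μ) (hh : MemLp h 2 μ) :
    ⟪hf.toLp f, hh.toLp h⟫_ℝ = ∫ x, f x * h x ∂μ := by
  rw [L2.inner_def]
  apply integral_congr_ae
  filter_upwards [hf.coeFn_toLp, hh.coeFn_toLp] with x h1 h2
  rw [h1, h2]
  simp [mul_comm]

/-- weak compactness in `L²(μ)`, function level, any measure -/
theorem tl_114_L2_weak (U : Ultrafilter ι) {g : ι → X → ℝ} {R : ℝ} (hR0 : 0 ≤ R)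
    (hm : ∀ᶠ n in U, MemLp (g n) 2 μ) (hR : ∀ᶠ n in U, ∫ x, (g n x) ^ 2 ∂μ ≤ R ^ 2) :
    ∃ G : X → ℝ, MemLp G 2 μ ∧ ∫ x, (G x) ^ 2 ∂μ ≤ R ^ 2 ∧ ∀ φ : X → ℝ, MemLp φ 2 μ →
      Tendsto (fun n => ∫ x, g n x * φ x ∂μ) U (𝓝 (∫ x, G x * φ x ∂μ)) := by
  classical
  let γ : ι → Lp ℝ 2 μ := fun n => if h : MemLp (g n) 2 μ then h.toLp (g n) else 0
  have hγ : ∀ n (h : MemLp (g n) 2 μ), γ n = h.toLp (g n) := fun n h => by simp [γ, h]
  have hnorm : ∀ᶠ n in U, ‖γ n‖ ≤ R := by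
    filter_upwards [hm, hR] with n h1 h2
    rw [hγ n h1]
    apply abs_le_of_sq_le_sq' _ hR0 |>.2
    rw [← real_inner_self_eq_norm_sq, tl_114_inner_toLp]
    simpa [sq] using h2
  obtain ⟨G0, hG0, hlim⟩ := tl_114_hilbert_weak U hnorm
  have hGm : MemLp (G0 : X → ℝ) 2 μ := Lp.memLp G0
  have hGe : hGm.toLp (G0 : X → ℝ) = G0 := Lp.toLp_coeFn G0 hGm
  refine ⟨G0, hGm, ?_, fun φ hφ => ?_⟩
  · have h1 : ∫ x, (G0 x) ^ 2 ∂μ = ‖G0‖ ^ 2 := by
      rw [← real_inner_self_eq_norm_sq]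
      conv_rhs => rw [← hGe]
      rw [tl_114_inner_toLp]
      simp [sq]
    rw [h1]
    exact pow_le_pow_left₀ (norm_nonneg _) hG0 2
  · have h1 := hlim (hφ.toLp φ)
    have h2 : ⟪G0, hφ.toLp φ⟫_ℝ = ∫ x, G0 x * φ x ∂μ := by
      conv_lhs => rw [← hGe]
      rw [tl_114_inner_toLp]
    rw [h2] at h1
    refine h1.congr' ?_
    filter_upwards [hm] with n hn
    rw [hγ n hn, tl_114_inner_toLp]

/-- a.e. inequalities pass to weak limits: it is enough to test on sets of finite measure -/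
theorem tl_114_weak_le [SigmaFinite μ] (L : Filter ι) [NeBot L] {g h : ι → X → ℝ} {G H : X → ℝ}
    (hGi : ∀ s, MeasurableSet s → μ s < ∞ → IntegrableOn G s μ)
    (hHi : ∀ s, MeasurableSet s → μ s < ∞ → IntegrableOn H s μ)
    (hg : ∀ s, MeasurableSet s → μ s < ∞ →
      Tendsto (fun n => ∫ x in s, g n x ∂μ) L (𝓝 (∫ x in s, G x ∂μ)))
    (hh : ∀ s, MeasurableSet s → μ s < ∞ →
      Tendsto (fun n => ∫ x in s, h n x ∂μ) L (𝓝 (∫ x in s, H x ∂μ)))
    (hle : ∀ s, MeasurableSet s → μ s < ∞ →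
      ∀ᶠ n in L, ∫ x in s, g n x ∂μ ≤ ∫ x in s, h n x ∂μ) :
    G ≤ᵐ[μ] H := by
  have : 0 ≤ᵐ[μ] fun x => H x - G x := by
    apply ae_nonneg_of_forall_setIntegral_nonneg_of_sigmaFinite
    · intro s hs hμs; exact (hHi s hs hμs).sub (hGi s hs hμs)
    · intro s hs hμs
      rw [integral_sub (hHi s hs hμs) (hGi s hs hμs), sub_nonneg]
      exact le_of_tendsto_of_tendsto (hg s hs hμs) (hh s hs hμs) (hle s hs hμs)
  filter_upwards [this] with x hx
  have : 0 ≤ H x - G x := hx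
  linarith

theorem tl_114_bdd_mul_le {u χ : X → ℝ} {M : ℝ} (hu : AEStronglyMeasurable u μ)
    (hb : ∀ᵐ x ∂μ, |u x| ≤ M) (hχ : Integrable χ μ) :
    Integrable (fun x => u x * χ x) μ ∧ |∫ x, u x * χ x ∂μ| ≤ max M 0 * ∫ x, |χ x| ∂μ := by
  refine ⟨hχ.bdd_mul hu (by simpa only [Real.norm_eq_abs] using hb), ?_⟩
  calc |∫ x, u x * χ x ∂μ| ≤ ∫ x, |u x * χ x| ∂μ := abs_integral_le_integral_abs
    _ ≤ ∫ x, max M 0 * |χ x| ∂μ := by
        apply integral_mono_of_nonneg (Eventually.of_forall fun x => abs_nonneg _)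
          (hχ.abs.const_mul _)
        filter_upwards [hb] with x hx
        rw [abs_mul]
        gcongr
        exact hx.trans (le_max_left _ _)
    _ = max M 0 * ∫ x, |χ x| ∂μ := integral_const_mul _ _

/-- density step: weak convergence against a class that is `L¹`-dense extends to all of `L¹` (any filter) -/
theorem tl_114_weakstar_dense (L : Filter ι) {g : ι → X → ℝ} {G : X → ℝ} {M : ℝ}
    (hm : ∀ᶠ n in L, AEStronglyMeasurable (g n) μ) (hb : ∀ᶠ n in L, ∀ᵐ x ∂μ, |g n x| ≤ M)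
    (hGm : AEStronglyMeasurable G μ) (hGb : ∀ᵐ x ∂μ, |G x| ≤ M) {φ : X → ℝ} (hφ : Integrable φ μ)
    (hD : ∀ ε > 0, ∃ ψ : X → ℝ, Integrable ψ μ ∧ ∫ x, |φ x - ψ x| ∂μ < ε ∧
      Tendsto (fun n => ∫ x, g n x * ψ x ∂μ) L (𝓝 (∫ x, G x * ψ x ∂μ))) :
    Tendsto (fun n => ∫ x, g n x * φ x ∂μ) L (𝓝 (∫ x, G x * φ x ∂μ)) := by
  rw [Metric.tendsto_nhds]
  intro ε hε
  set M' := max M 0 with hM'
  have hM0 : 0 ≤ M' := le_max_right _ _
  obtain ⟨ψ, hψi, hψε, hψl⟩ := hD (ε / (4 * (M' + 1))) (by positivity)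
  have h1 := (Metric.tendsto_nhds.1 hψl) (ε / 2) (by positivity)
  filter_upwards [hm, hb, h1] with n hmn hbn h1n
  have hd : Integrable (fun x => φ x - ψ x) μ := hφ.sub hψi
  have split : ∀ {u : X → ℝ}, AEStronglyMeasurable u μ → (∀ᵐ x ∂μ, |u x| ≤ M) →
      ∫ x, u x * φ x ∂μ = ∫ x, u x * ψ x ∂μ + ∫ x, u x * (φ x - ψ x) ∂μ := by
    intro u hu hub
    rw [← integral_add (tl_114_bdd_mul_le hu hub hψi).1 (tl_114_bdd_mul_le hu hub hd).1]
    congr 1; ext x; ring
  rw [Real.dist_eq] at h1n ⊢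
  rw [split hmn hbn, split hGm hGb]
  have a1 := (tl_114_bdd_mul_le hmn hbn hd).2
  have a2 := (tl_114_bdd_mul_le hGm hGb hd).2
  have a3 : M' * ∫ x, |φ x - ψ x| ∂μ < ε / 4 := by
    have e0 : 0 ≤ ∫ x, |φ x - ψ x| ∂μ := integral_nonneg fun x => abs_nonneg _
    have e1 : M' * ∫ x, |φ x - ψ x| ∂μ ≤ (M' + 1) * ∫ x, |φ x - ψ x| ∂μ := by nlinarith
    have e2 : (M' + 1) * ∫ x, |φ x - ψ x| ∂μ < (M' + 1) * (ε / (4 * (M' + 1))) := by gcongr
    have e3 : (M' + 1) * (ε / (4 * (M' + 1))) = ε / 4 := by field_simp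
    linarith
  rw [abs_lt] at h1n ⊢
  rw [abs_le] at a1 a2
  constructor <;> linarith [a1.1, a1.2, a2.1, a2.2, h1n.1, h1n.2]

/-- weak-* compactness of `L^∞`, finite measure (a.e. form) -/
theorem tl_114_weakstar_fin [IsFiniteMeasure μ] (U : Ultrafilter ι) {g : ι → X → ℝ} {M : ℝ}
    (hm : ∀ᶠ n in U, AEStronglyMeasurable (g n) μ) (hb : ∀ᶠ n in U, ∀ᵐ x ∂μ, |g n x| ≤ M) :
    ∃ G : X → ℝ, AEStronglyMeasurable G μ ∧ (∀ᵐ x ∂μ, |G x| ≤ M) ∧ ∀ φ : X → ℝ, Integrable φ μ →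
      Tendsto (fun n => ∫ x, g n x * φ x ∂μ) U (𝓝 (∫ x, G x * φ x ∂μ)) := by
  have hmem : ∀ᶠ n in U, MemLp (g n) 2 μ := by
    filter_upwards [hm, hb] with n h1 h2
    exact MemLp.of_bound h1 M (by simpa only [Real.norm_eq_abs] using h2)
  set R := Real.sqrt (M ^ 2 * μ.real univ) with hR
  have hRsq : R ^ 2 = M ^ 2 * μ.real univ := Real.sq_sqrt (by positivity)
  have hR' : ∀ᶠ n in U, ∫ x, (g n x) ^ 2 ∂μ ≤ R ^ 2 := by
    filter_upwards [hb] with n h2
    rw [hRsq]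
    calc ∫ x, (g n x) ^ 2 ∂μ ≤ ∫ _x, M ^ 2 ∂μ := by
          apply integral_mono_of_nonneg (Eventually.of_forall fun x => sq_nonneg _)
            (integrable_const _)
          filter_upwards [h2] with x hx
          rw [← sq_abs]; exact pow_le_pow_left₀ (abs_nonneg _) hx 2
      _ = M ^ 2 * μ.real univ := by simp [mul_comm]
  obtain ⟨G, hGm, -, hG⟩ := tl_114_L2_weak U (Real.sqrt_nonneg _) hmem hR'
  have hGi : Integrable G μ := hGm.integrable (by norm_num)
  have hset : ∀ s, MeasurableSet s →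
      Tendsto (fun n => ∫ x in s, g n x ∂μ) U (𝓝 (∫ x in s, G x ∂μ)) := by
    intro s hs
    have h1 := hG (s.indicator fun _ => (1 : ℝ))
      (memLp_indicator_const 2 hs 1 (Or.inr (measure_ne_top μ s)))
    have e : ∀ u : X → ℝ, ∫ x, u x * s.indicator (fun _ => (1 : ℝ)) x ∂μ = ∫ x in s, u x ∂μ := by
      intro u
      rw [← integral_indicator hs]
      congr 1; ext x
      by_cases hx : x ∈ s <;> simp [hx]
    simpa only [e] using h1
  have hGb : ∀ᵐ x ∂μ, |G x| ≤ M := by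
    have u1 : G ≤ᵐ[μ] fun _ => M :=
      tl_114_weak_le (U : Filter ι) (g := g) (h := fun _ _ => M)
        (fun s _ _ => hGi.integrableOn) (fun s _ _ => (integrable_const M).integrableOn)
        (fun s hs _ => hset s hs) (fun s _ _ => tendsto_const_nhds) (fun s hs _ => by
          filter_upwards [hmem, hb] with n h1 h2
          apply integral_mono_ae (h1.integrable (by norm_num)).integrableOn
            (integrable_const M).integrableOn
          filter_upwards [ae_restrict_of_ae h2] with x hx using (abs_le.1 hx).2)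
    have u2 : (fun _ => -M) ≤ᵐ[μ] G :=
      tl_114_weak_le (U : Filter ι) (g := fun _ _ => -M) (h := g)
        (fun s _ _ => (integrable_const (-M)).integrableOn) (fun s _ _ => hGi.integrableOn)
        (fun s _ _ => tendsto_const_nhds) (fun s hs _ => hset s hs) (fun s hs _ => by
          filter_upwards [hmem, hb] with n h1 h2
          apply integral_mono_ae (integrable_const (-M)).integrableOn
            (h1.integrable (by norm_num)).integrableOn
          filter_upwards [ae_restrict_of_ae h2] with x hx using (abs_le.1 hx).1)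
    filter_upwards [u1, u2] with x h1 h2 using abs_le.2 ⟨h2, h1⟩
  refine ⟨G, hGm.1, hGb, fun φ hφ => ?_⟩
  apply tl_114_weakstar_dense (U : Filter ι) hm hb hGm.1 hGb hφ
  intro ε hε
  obtain ⟨ψ, K, -, hψi, hψK, -, hψε⟩ := tl_114_trunc hφ hε
  exact ⟨ψ, hψi, hψε, hG ψ (MemLp.of_bound hψi.1 K (Eventually.of_forall fun x => by
    simpa only [Real.norm_eq_abs] using hψK x))⟩

/-- **weak-* compactness of `L^∞(μ)` along an ultrafilter**, `μ` sigma-finite.
The limit is measurable and bounded by `M` EVERYWHERE. -/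
theorem tl_114_weakstar [SigmaFinite μ] (U : Ultrafilter ι) {g : ι → X → ℝ} {M : ℝ} (hM : 0 ≤ M)
    (hm : ∀ᶠ n in U, AEStronglyMeasurable (g n) μ) (hb : ∀ᶠ n in U, ∀ᵐ x ∂μ, |g n x| ≤ M) :
    ∃ G : X → ℝ, Measurable G ∧ (∀ x, |G x| ≤ M) ∧ ∀ φ : X → ℝ, Integrable φ μ →
      Tendsto (fun n => ∫ x, g n x * φ x ∂μ) U (𝓝 (∫ x, G x * φ x ∂μ)) := by
  obtain ⟨w, hw0, hwm, hwi⟩ :=
    exists_pos_lintegral_lt_of_sigmaFinite μ (one_ne_zero : (1 : ℝ≥0∞) ≠ 0)
  set ν := μ.withDensity (fun x => (w x : ℝ≥0∞)) with hν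
  have hfin : IsFiniteMeasure ν := isFiniteMeasure_withDensity hwi.ne_top
  have hνμ : ν ≪ μ := withDensity_absolutelyContinuous μ _
  have hm' : ∀ᶠ n in U, AEStronglyMeasurable (g n) ν := hm.mono fun n h => h.mono_ac hνμ
  have hb' : ∀ᶠ n in U, ∀ᵐ x ∂ν, |g n x| ≤ M := hb.mono fun n h => hνμ.ae_le h
  obtain ⟨G0, hG0m, hG0b, hG0⟩ := tl_114_weakstar_fin (μ := ν) U hm' hb'
  set G : X → ℝ := fun x => max (-M) (min M (hG0m.mk G0 x)) with hG
  have hGmeas : Measurable G := by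
    have := hG0m.stronglyMeasurable_mk.measurable
    fun_prop
  have hGe : G =ᵐ[ν] G0 := by
    filter_upwards [hG0m.ae_eq_mk, hG0b] with x h1 h2
    rw [hG]
    simp only
    rw [← h1]
    exact (tl_114_clamp hM).2.2.2 h2
  refine ⟨G, hGmeas, fun x => (tl_114_clamp hM).1, fun φ hφ => ?_⟩
  set ψ : X → ℝ := fun x => ((w x : ℝ))⁻¹ * φ x with hψ
  have hwne : ∀ x, (w x : ℝ) ≠ 0 := fun x => by
    have := hw0 x
    exact_mod_cast this.ne'
  have hψi : Integrable ψ ν := by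
    rw [hν, integrable_withDensity_iff_integrable_smul hwm]
    refine hφ.congr (Eventually.of_forall fun x => ?_)
    simp only [hψ, NNReal.smul_def, smul_eq_mul]
    rw [mul_inv_cancel_left₀ (hwne x)]
  have tr : ∀ u : X → ℝ, ∫ x, u x * ψ x ∂ν = ∫ x, u x * φ x ∂μ := by
    intro u
    rw [hν, integral_withDensity_eq_integral_smul hwm]
    congr 1; ext x
    simp only [hψ, NNReal.smul_def, smul_eq_mul]
    field_simp [hwne x]
  have h1 := hG0 ψ hψi
  have h2 : ∫ x, G0 x * ψ x ∂ν = ∫ x, G x * ψ x ∂ν := by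
    apply integral_congr_ae
    filter_upwards [hGe] with x hx
    rw [hx]
  rw [h2] at h1
  simpa only [tr] using h1

/-- set integrals from the weak-* convergence -/
theorem tl_114_weakstar_set (L : Filter ι) {g : ι → X → ℝ} {G : X → ℝ}
    (hw : ∀ φ : X → ℝ, Integrable φ μ →
      Tendsto (fun n => ∫ x, g n x * φ x ∂μ) L (𝓝 (∫ x, G x * φ x ∂μ)))
    {s : Set X} (hs : MeasurableSet s) (hμs : μ s < ∞) :
    Tendsto (fun n => ∫ x in s, g n x ∂μ) L (𝓝 (∫ x in s, G x ∂μ)) := by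
  have h1 := hw (s.indicator fun _ => (1 : ℝ))
    ((integrable_indicator_iff hs).2 (integrableOn_const hμs.ne))
  have e : ∀ u : X → ℝ, ∫ x, u x * s.indicator (fun _ => (1 : ℝ)) x ∂μ = ∫ x in s, u x ∂μ := by
    intro u
    rw [← integral_indicator hs]
    congr 1; ext x
    by_cases hx : x ∈ s <;> simp [hx]
  simpa only [e] using h1

theorem tl_114_bdd_integrableOn {u : X → ℝ} {M : ℝ} (hu : AEStronglyMeasurable u μ)
    (hb : ∀ᵐ x ∂μ, |u x| ≤ M) {s : Set X} (hμs : μ s < ∞) : IntegrableOn u s μ := by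
  have : IsFiniteMeasure (μ.restrict s) := ⟨by rwa [Measure.restrict_apply_univ]⟩
  exact Integrable.of_bound hu.restrict M (ae_restrict_of_ae (by simpa only [Real.norm_eq_abs] using hb))

/-- **floor constraints pass to the weak-* limit**: `k n ≤ g n` a.e., `∫_s k n → ∫_s K`  ⟹  `K ≤ G` a.e. -/
theorem tl_114_weakstar_ge [SigmaFinite μ] (L : Filter ι) [NeBot L] {g k : ι → X → ℝ}
    {G K : X → ℝ} {M : ℝ}
    (hm : ∀ᶠ n in L, AEStronglyMeasurable (g n) μ) (hb : ∀ᶠ n in L, ∀ᵐ x ∂μ, |g n x| ≤ M)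
    (hGm : AEStronglyMeasurable G μ) (hGb : ∀ᵐ x ∂μ, |G x| ≤ M)
    (hw : ∀ φ : X → ℝ, Integrable φ μ →
      Tendsto (fun n => ∫ x, g n x * φ x ∂μ) L (𝓝 (∫ x, G x * φ x ∂μ)))
    (hki : ∀ s, MeasurableSet s → μ s < ∞ → ∀ᶠ n in L, IntegrableOn (k n) s μ)
    (hKi : ∀ s, MeasurableSet s → μ s < ∞ → IntegrableOn K s μ)
    (hk : ∀ s, MeasurableSet s → μ s < ∞ →
      Tendsto (fun n => ∫ x in s, k n x ∂μ) L (𝓝 (∫ x in s, K x ∂μ)))
    (hle : ∀ᶠ n in L, ∀ᵐ x ∂μ, k n x ≤ g n x) : K ≤ᵐ[μ] G :=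
  tl_114_weak_le L hKi (fun _ _ hμs => tl_114_bdd_integrableOn hGm hGb hμs) hk
    (fun _ hs hμs => tl_114_weakstar_set L hw hs hμs) (fun s hs hμs => by
      filter_upwards [hm, hb, hki s hs hμs, hle] with n h1 h2 h3 h4
      exact integral_mono_ae h3 (tl_114_bdd_integrableOn h1 h2 hμs) (ae_restrict_of_ae h4))

/-- **cap constraints pass to the weak-* limit**: `g n ≤ k n` a.e., `∫_s k n → ∫_s K`  ⟹  `G ≤ K` a.e. -/
theorem tl_114_weakstar_le [SigmaFinite μ] (L : Filter ι) [NeBot L] {g k : ι → X → ℝ}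
    {G K : X → ℝ} {M : ℝ}
    (hm : ∀ᶠ n in L, AEStronglyMeasurable (g n) μ) (hb : ∀ᶠ n in L, ∀ᵐ x ∂μ, |g n x| ≤ M)
    (hGm : AEStronglyMeasurable G μ) (hGb : ∀ᵐ x ∂μ, |G x| ≤ M)
    (hw : ∀ φ : X → ℝ, Integrable φ μ →
      Tendsto (fun n => ∫ x, g n x * φ x ∂μ) L (𝓝 (∫ x, G x * φ x ∂μ)))
    (hki : ∀ s, MeasurableSet s → μ s < ∞ → ∀ᶠ n in L, IntegrableOn (k n) s μ)
    (hKi : ∀ s, MeasurableSet s → μ s < ∞ → IntegrableOn K s μ)
    (hk : ∀ s, MeasurableSet s → μ s < ∞ →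
      Tendsto (fun n => ∫ x in s, k n x ∂μ) L (𝓝 (∫ x in s, K x ∂μ)))
    (hle : ∀ᶠ n in L, ∀ᵐ x ∂μ, g n x ≤ k n x) : G ≤ᵐ[μ] K :=
  tl_114_weak_le L (fun _ _ hμs => tl_114_bdd_integrableOn hGm hGb hμs) hKi
    (fun _ hs hμs => tl_114_weakstar_set L hw hs hμs) hk (fun s hs hμs => by
      filter_upwards [hm, hb, hki s hs hμs, hle] with n h1 h2 h3 h4
      exact integral_mono_ae (tl_114_bdd_integrableOn h1 h2 hμs) h3 (ae_restrict_of_ae h4))

/-- lower semicontinuity of `∫ (·)²` under weak convergence (only the pairing with the limit itself is used) -/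
theorem tl_114_weak_lsc_sq (L : Filter ι) [NeBot L] {g : ι → X → ℝ} {G : X → ℝ} {c : ℝ}
    (hG : MemLp G 2 μ) (hm : ∀ᶠ n in L, MemLp (g n) 2 μ)
    (hw : Tendsto (fun n => ∫ x, g n x * G x ∂μ) L (𝓝 (∫ x, G x * G x ∂μ)))
    (hc : ∀ᶠ n in L, ∫ x, (g n x) ^ 2 ∂μ ≤ c) : ∫ x, (G x) ^ 2 ∂μ ≤ c := by
  have hGG : Integrable (fun x => G x * G x) μ := hG.integrable_mul hG
  have e0 : ∫ x, G x * G x ∂μ = ∫ x, (G x) ^ 2 ∂μ := by simp only [sq]
  have h1 : Tendsto (fun n => 2 * (∫ x, g n x * G x ∂μ) - ∫ x, (G x) ^ 2 ∂μ) L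
      (𝓝 (2 * (∫ x, G x * G x ∂μ) - ∫ x, (G x) ^ 2 ∂μ)) := (hw.const_mul 2).sub_const _
  have h2 : 2 * (∫ x, G x * G x ∂μ) - ∫ x, (G x) ^ 2 ∂μ ≤ c := by
    apply le_of_tendsto h1
    filter_upwards [hm, hc] with n hn hcn
    have i1 : Integrable (fun x => g n x * g n x) μ := hn.integrable_mul hn
    have i2 : Integrable (fun x => g n x * G x) μ := hn.integrable_mul hG
    have h3 : 0 ≤ ∫ x, (g n x - G x) ^ 2 ∂μ := integral_nonneg fun x => sq_nonneg _
    have h4 : ∫ x, (g n x - G x) ^ 2 ∂μ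
        = (∫ x, g n x * g n x ∂μ) - 2 * (∫ x, g n x * G x ∂μ) + ∫ x, G x * G x ∂μ := by
      have i3 : Integrable (fun x => g n x * g n x - 2 * (g n x * G x)) μ := i1.sub (i2.const_mul 2)
      rw [← integral_const_mul, ← integral_sub i1 (i2.const_mul 2), ← integral_add i3 hGG]
      congr 1; ext x; ring
    have h5 : ∫ x, g n x * g n x ∂μ = ∫ x, (g n x) ^ 2 ∂μ := by simp only [sq]
    rw [← e0]
    linarith
  rw [e0] at h2
  linarith

/-- weak-* times strong `L¹` -/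
theorem tl_114_weakstar_mul_strong (L : Filter ι) {g φn : ι → X → ℝ} {G φ : X → ℝ} {M : ℝ}
    (hm : ∀ᶠ n in L, AEStronglyMeasurable (g n) μ) (hb : ∀ᶠ n in L, ∀ᵐ x ∂μ, |g n x| ≤ M)
    (hφn : ∀ᶠ n in L, Integrable (φn n) μ) (hφ : Integrable φ μ)
    (hw : Tendsto (fun n => ∫ x, g n x * φ x ∂μ) L (𝓝 (∫ x, G x * φ x ∂μ)))
    (hs : Tendsto (fun n => ∫ x, |φn n x - φ x| ∂μ) L (𝓝 0)) :
    Tendsto (fun n => ∫ x, g n x * φn n x ∂μ) L (𝓝 (∫ x, G x * φ x ∂μ)) := by
  have h0 : Tendsto (fun n => ∫ x, g n x * (φn n x - φ x) ∂μ) L (𝓝 0) := by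
    have h1 : Tendsto (fun n => max M 0 * ∫ x, |φn n x - φ x| ∂μ) L (𝓝 0) := by
      simpa using hs.const_mul (max M 0)
    apply squeeze_zero_norm' _ h1
    filter_upwards [hm, hb, hφn] with n a1 a2 a3
    rw [Real.norm_eq_abs]
    have a4 : Integrable (fun x => φn n x - φ x) μ := a3.sub hφ
    exact (tl_114_bdd_mul_le a1 a2 a4).2
  have h2 := hw.add h0
  rw [add_zero] at h2
  refine h2.congr' ?_
  filter_upwards [hm, hb, hφn] with n a1 a2 a3
  have a4 : Integrable (fun x => φn n x - φ x) μ := a3.sub hφ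
  rw [← integral_add (tl_114_bdd_mul_le a1 a2 hφ).1 (tl_114_bdd_mul_le a1 a2 a4).1]
  congr 1; ext x; ring

/-- from `L¹(ℝ)` tests to interval integrals -/
theorem tl_114_weak_to_interval (L : Filter ι) {g : ι → ℝ → ℝ} {G : ℝ → ℝ}
    (hw : ∀ φ : ℝ → ℝ, Integrable φ →
      Tendsto (fun n => ∫ x, g n x * φ x) L (𝓝 (∫ x, G x * φ x)))
    {a b : ℝ} {φ : ℝ → ℝ} (hφ : IntervalIntegrable φ volume a b) :
    Tendsto (fun n => ∫ x in a..b, g n x * φ x) L (𝓝 (∫ x in a..b, G x * φ x)) := by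
  have key : ∀ {a b : ℝ}, a ≤ b → IntervalIntegrable φ volume a b →
      Tendsto (fun n => ∫ x in a..b, g n x * φ x) L (𝓝 (∫ x in a..b, G x * φ x)) := by
    intro a b hab hφ
    have h1 := hw ((Ioc a b).indicator φ) ((integrable_indicator_iff measurableSet_Ioc).2
      ((intervalIntegrable_iff_integrableOn_Ioc_of_le hab).1 hφ))
    have e : ∀ u : ℝ → ℝ, ∫ x, u x * (Ioc a b).indicator φ x = ∫ x in a..b, u x * φ x := by
      intro u
      rw [intervalIntegral.integral_of_le hab, ← integral_indicator measurableSet_Ioc]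
      congr 1; ext x
      by_cases hx : x ∈ Ioc a b <;> simp [hx]
    simpa only [e] using h1
  rcases le_total a b with hab | hab
  · exact key hab hφ
  · simp only [intervalIntegral.integral_symm b a]
    exact (key hab hφ.symm).neg

/-- **weak-* compactness on `ℝ`** with interval integrals -/
theorem tl_114_weakstar_real (U : Ultrafilter ι) {g : ι → ℝ → ℝ} {M : ℝ} (hM : 0 ≤ M)
    (hm : ∀ᶠ n in U, AEStronglyMeasurable (g n) volume) (hb : ∀ᶠ n in U, ∀ᵐ x, |g n x| ≤ M) :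
    ∃ G : ℝ → ℝ, Measurable G ∧ (∀ x, |G x| ≤ M) ∧
      (∀ φ : ℝ → ℝ, Integrable φ → Tendsto (fun n => ∫ x, g n x * φ x) U (𝓝 (∫ x, G x * φ x))) ∧
      (∀ (a b : ℝ) (φ : ℝ → ℝ), IntervalIntegrable φ volume a b →
        Tendsto (fun n => ∫ x in a..b, g n x * φ x) U (𝓝 (∫ x in a..b, G x * φ x))) ∧
      ∀ a b : ℝ, Tendsto (fun n => ∫ x in a..b, g n x) U (𝓝 (∫ x in a..b, G x)) := by
  obtain ⟨G, h1, h2, h3⟩ := tl_114_weakstar (μ := volume) U hM hm hb
  refine ⟨G, h1, h2, h3, fun a b φ hφ => tl_114_weak_to_interval (U : Filter ι) h3 hφ,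
    fun a b => ?_⟩
  simpa using tl_114_weak_to_interval (U : Filter ι) h3 (a := a) (b := b) (φ := fun _ => 1)
    intervalIntegrable_const

/-- **compactness of a Lipschitz class on `[a,b]`, with the densities**: `α n → A` uniformly, `(α n)' ⇀ G` weak-*,
`A y - A x = ∫_x^y G`.   Box constraints on `(α n)'` pass to `G` by `tl_114_weakstar_ge / _le` (with `μ = volume.restrict (Ioc a b)`). -/
theorem tl_114_lipschitz_box (U : Ultrafilter ι) {α : ι → ℝ → ℝ} {a b : ℝ} (hab : a ≤ b) {C : ℝ≥0}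
    (hL : ∀ᶠ n in U, LipschitzOnWith C (α n) (Icc a b)) {M : ℝ} (hb : ∀ᶠ n in U, |α n a| ≤ M) :
    ∃ A G : ℝ → ℝ, LipschitzOnWith C A (Icc a b) ∧ Measurable G ∧ (∀ x, |G x| ≤ C) ∧
      (∀ x ∈ Icc a b, Tendsto (fun n => α n x) U (𝓝 (A x))) ∧
      TendstoUniformlyOn α A U (Icc a b) ∧
      (∀ x ∈ Icc a b, ∀ y ∈ Icc a b, A y - A x = ∫ t in x..y, G t) ∧
      (∀ φ : ℝ → ℝ, Integrable φ (volume.restrict (Ioc a b)) →
        Tendsto (fun n => ∫ t, deriv (α n) t * φ t ∂(volume.restrict (Ioc a b))) U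
          (𝓝 (∫ t, G t * φ t ∂(volume.restrict (Ioc a b))))) ∧
      (∀ φ : ℝ → ℝ, IntervalIntegrable φ volume a b →
        Tendsto (fun n => ∫ t in a..b, deriv (α n) t * φ t) U (𝓝 (∫ t in a..b, G t * φ t))) := by
  obtain ⟨A, hAL, hAp, hAu⟩ := tl_114_ascoli U hL (left_mem_Icc.2 hab) hb
  set μ := (volume : Measure ℝ).restrict (Ioc a b) with hμ
  have hm : ∀ᶠ n in U, AEStronglyMeasurable (deriv (α n)) μ :=
    Eventually.of_forall fun n => (measurable_deriv (α n)).aestronglyMeasurable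
  have hbd : ∀ᶠ n in U, ∀ᵐ x ∂μ, |deriv (α n) x| ≤ (C : ℝ) := by
    filter_upwards [hL] with n hn
    rw [hμ, ← Measure.restrict_congr_set (Ioo_ae_eq_Ioc (μ := volume) (a := a) (b := b))]
    filter_upwards [ae_restrict_mem measurableSet_Ioo] with x hx
    rw [← Real.norm_eq_abs]
    exact norm_deriv_le_of_lipschitzOn (Icc_mem_nhds hx.1 hx.2) hn
  obtain ⟨G, hGm, hGb, hG⟩ := tl_114_weakstar (μ := μ) U C.2 hm hbd
  have hxy : ∀ x ∈ Icc a b, ∀ y ∈ Icc a b, x ≤ y → A y - A x = ∫ t in x..y, G t := by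
    intro x hx y hy hle
    have h1 := tl_114_weakstar_set (U : Filter ι) hG (s := Ioc x y) measurableSet_Ioc
      (lt_of_le_of_lt (Measure.restrict_apply_le _ _) (by simp))
    have e : ∀ u : ℝ → ℝ, ∫ t in Ioc x y, u t ∂μ = ∫ t in x..y, u t := by
      intro u
      rw [hμ, Measure.restrict_restrict measurableSet_Ioc,
        inter_eq_left.2 (Ioc_subset_Ioc hx.1 hy.2), intervalIntegral.integral_of_le hle]
    simp only [e] at h1
    have h2 : Tendsto (fun n => α n y - α n x) U (𝓝 (A y - A x)) := (hAp y hy).sub (hAp x hx)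
    refine tendsto_nhds_unique h2 (h1.congr' ?_)
    filter_upwards [hL] with n hn
    apply AbsolutelyContinuousOnInterval.integral_deriv_eq_sub
    apply LipschitzOnWith.absolutelyContinuousOnInterval (K := C)
    rw [uIcc_of_le hle]
    exact hn.mono (Icc_subset_Icc hx.1 hy.2)
  refine ⟨A, G, hAL, hGm, hGb, hAp, hAu _ Subset.rfl isCompact_Icc.totallyBounded, ?_, hG, ?_⟩
  · intro x hx y hy
    rcases le_total x y with h | h
    · exact hxy x hx y hy h
    · rw [intervalIntegral.integral_symm, ← hxy y hy x hx h]; ring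
  · intro φ hφ
    have := hG φ ((intervalIntegrable_iff_integrableOn_Ioc_of_le hab).1 hφ)
    simpa only [intervalIntegral.integral_of_le hab] using this

/-! ## 6. vague limits of Radon measures -/

section vague

variable {Y : Type*} [TopologicalSpace Y] [MeasurableSpace Y] [BorelSpace Y]

/-- a compactly supported continuous function is integrable as soon as its support has finite mass -/
theorem tl_114_cc_integrable (φ : C_c(Y, ℝ)) {m : Measure Y} (h : m (tsupport φ) < ∞) :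
    Integrable φ m := by
  rw [← integrableOn_iff_integrable_of_support_subset (subset_tsupport φ)]
  obtain ⟨B, hB⟩ := φ.hasCompactSupport.exists_bound_of_continuous φ.continuous
  exact Measure.integrableOn_of_bounded h.ne φ.continuous.aestronglyMeasurable
    (Eventually.of_forall hB)

omit [BorelSpace Y] in
theorem tl_114_cc_abs_integral_le (φ : C_c(Y, ℝ)) {B : ℝ} (hB0 : 0 ≤ B) (hB : ∀ x, ‖φ x‖ ≤ B)
    {m : Measure Y} {C : ℝ≥0} (h : m (tsupport φ) ≤ C) : |∫ x, φ x ∂m| ≤ B * C := by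
  have h1 : ∫ x in tsupport φ, φ x ∂m = ∫ x, φ x ∂m :=
    setIntegral_eq_integral_of_forall_compl_eq_zero fun x hx => image_eq_zero_of_notMem_tsupport hx
  rw [← h1, ← Real.norm_eq_abs]
  have h2 := norm_setIntegral_le_of_norm_le_const (μ := m) (s := tsupport φ) (f := φ) (C := B)
    (lt_of_le_of_lt h ENNReal.coe_lt_top) (fun x _ => hB x)
  refine h2.trans ?_
  gcongr
  exact ENNReal.toReal_le_coe_of_le_coe h

omit [BorelSpace Y] in
/-- `m K ≤ ∫ φ dm ≤ m V` for a bump `1_K ≤ φ ≤ 1_V` -/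
theorem tl_114_bump_le (φ : C_c(Y, ℝ)) (h01 : ∀ x, φ x ∈ Icc (0 : ℝ) 1) {m : Measure Y}
    {V : Set Y} (hV : MeasurableSet V) (hφV : ∀ x, x ∉ V → φ x = 0) :
    ENNReal.ofReal (∫ x, φ x ∂m) ≤ m V := by
  by_cases hi : Integrable φ m
  · rw [ofReal_integral_eq_lintegral_ofReal hi (Eventually.of_forall fun x => (h01 x).1),
      ← lintegral_indicator_one hV]
    apply lintegral_mono
    intro x
    by_cases hx : x ∈ V
    · simp only [indicator_of_mem hx, Pi.one_apply]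
      exact ENNReal.ofReal_le_one.2 (h01 x).2
    · simp [hφV x hx]
  · rw [integral_undef hi]; simp

omit [BorelSpace Y] in
theorem tl_114_le_bump (φ : C_c(Y, ℝ)) (h01 : ∀ x, φ x ∈ Icc (0 : ℝ) 1) {m : Measure Y}
    (hi : Integrable φ m) {K : Set Y} (hK : MeasurableSet K) (hφK : ∀ x ∈ K, φ x = 1) :
    m K ≤ ENNReal.ofReal (∫ x, φ x ∂m) := by
  rw [ofReal_integral_eq_lintegral_ofReal hi (Eventually.of_forall fun x => (h01 x).1),
    ← lintegral_indicator_one hK]
  apply lintegral_mono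
  intro x
  by_cases hx : x ∈ K
  · simp [hφK x hx, hx]
  · simp [hx]

variable [T2Space Y] [LocallyCompactSpace Y]

omit [MeasurableSpace Y] [BorelSpace Y] in
/-- Urysohn bump in `C_c` -/
theorem tl_114_exists_bump {K V : Set Y} (hK : IsCompact K) (hV : IsOpen V) (hKV : K ⊆ V) :
    ∃ φ : C_c(Y, ℝ), (∀ x, φ x ∈ Icc (0 : ℝ) 1) ∧ (∀ x ∈ K, φ x = 1) ∧ ∀ x, x ∉ V → φ x = 0 := by
  obtain ⟨f, h1, h0, hc, h01⟩ := exists_continuous_one_zero_of_isCompact hK hV.isClosed_compl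
    (disjoint_compl_right_iff_subset.2 hKV)
  exact ⟨⟨f, hc⟩, h01, fun x hx => h1 hx, fun x hx => h0 hx⟩

/-- **vague compactness along an ultrafilter**: locally bounded measures have a vague `U`-limit, a regular measure (Riesz-Markov-Kakutani) -/
theorem tl_114_vague (U : Ultrafilter ι) {m : ι → Measure Y}
    (hb : ∀ K : Set Y, IsCompact K → ∃ C : ℝ≥0, ∀ᶠ n in U, m n K ≤ C) :
    ∃ ν : Measure Y, ν.Regular ∧
      ∀ φ : C_c(Y, ℝ), Tendsto (fun n => ∫ x, φ x ∂(m n)) U (𝓝 (∫ x, φ x ∂ν)) := by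
  have hint : ∀ φ : C_c(Y, ℝ), ∀ᶠ n in U, Integrable φ (m n) := by
    intro φ
    obtain ⟨C, hC⟩ := hb _ φ.hasCompactSupport
    filter_upwards [hC] with n hn
    exact tl_114_cc_integrable φ (lt_of_le_of_lt hn ENNReal.coe_lt_top)
  have L : ∀ φ : C_c(Y, ℝ), ∃ l, Tendsto (fun n => ∫ x, φ x ∂(m n)) U (𝓝 l) := by
    intro φ
    obtain ⟨C, hC⟩ := hb _ φ.hasCompactSupport
    obtain ⟨B, hB⟩ := φ.hasCompactSupport.exists_bound_of_continuous φ.continuous
    obtain ⟨l, -, hl⟩ := tl_114_lim_abs U (a := fun n => ∫ x, φ x ∂(m n)) (M := max B 0 * C)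
      (hC.mono fun n hn => tl_114_cc_abs_integral_le φ (le_max_right _ _)
        (fun x => (hB x).trans (le_max_left _ _)) hn)
    exact ⟨l, hl⟩
  choose Λ hΛ using L
  let Λ' : C_c(Y, ℝ) →ₚ[ℝ] ℝ :=
  { toFun := Λ
    map_add' g g' := by
      have : Tendsto (fun n => ∫ x, (g + g') x ∂(m n)) U (𝓝 (Λ g + Λ g')) := by
        refine ((hΛ g).add (hΛ g')).congr' ?_
        filter_upwards [hint g, hint g'] with n h1 h2
        rw [← integral_add h1 h2]
        rfl
      exact tendsto_nhds_unique (hΛ (g + g')) this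
    map_smul' c g := by
      have : Tendsto (fun n => ∫ x, (c • g) x ∂(m n)) U (𝓝 (c • Λ g)) := by
        refine ((hΛ g).const_smul c).congr' (Eventually.of_forall fun n => ?_)
        rw [← integral_smul]
        rfl
      exact tendsto_nhds_unique (hΛ (c • g)) this
    monotone' g g' hgg' := by
      apply le_of_tendsto_of_tendsto (hΛ g) (hΛ g')
      filter_upwards [hint g, hint g'] with n h1 h2
      exact integral_mono h1 h2 hgg' }
  refine ⟨RealRMK.rieszMeasure Λ', inferInstance, fun φ => ?_⟩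
  rw [RealRMK.integral_rieszMeasure]
  exact hΛ φ

/-- lower semicontinuity on open sets (any filter) -/
theorem tl_114_vague_open (L : Filter ι) {m : ι → Measure Y} {ν : Measure Y} [ν.Regular]
    (hv : ∀ φ : C_c(Y, ℝ), Tendsto (fun n => ∫ x, φ x ∂(m n)) L (𝓝 (∫ x, φ x ∂ν)))
    {V : Set Y} (hV : IsOpen V) {c : ℝ≥0∞} (hc : c < ν V) : ∀ᶠ n in L, c < m n V := by
  obtain ⟨K, hKV, hK, hcK⟩ := hV.exists_lt_isCompact hc
  obtain ⟨φ, h01, h1, h0⟩ := tl_114_exists_bump hK hV hKV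
  have hi : Integrable φ ν := tl_114_cc_integrable φ φ.hasCompactSupport.measure_lt_top
  have h2 : c < ENNReal.ofReal (∫ x, φ x ∂ν) :=
    hcK.trans_le (tl_114_le_bump φ h01 hi hK.measurableSet h1)
  have h3 : Tendsto (fun n => ENNReal.ofReal (∫ x, φ x ∂(m n))) L
      (𝓝 (ENNReal.ofReal (∫ x, φ x ∂ν))) := ENNReal.tendsto_ofReal (hv φ)
  filter_upwards [(tendsto_order.1 h3).1 c h2] with n hn
  exact hn.trans_le (tl_114_bump_le φ h01 hV.measurableSet h0)

/-- upper semicontinuity on compact sets (any filter) -/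
theorem tl_114_vague_compact (L : Filter ι) {m : ι → Measure Y} {ν : Measure Y} [ν.Regular]
    (hb : ∀ K : Set Y, IsCompact K → ∀ᶠ n in L, m n K < ∞)
    (hv : ∀ φ : C_c(Y, ℝ), Tendsto (fun n => ∫ x, φ x ∂(m n)) L (𝓝 (∫ x, φ x ∂ν)))
    {K : Set Y} (hK : IsCompact K) {c : ℝ≥0∞} (hc : ν K < c) : ∀ᶠ n in L, m n K < c := by
  obtain ⟨V, hKV, hV, hVc⟩ := K.exists_isOpen_lt_of_lt c hc
  obtain ⟨φ, h01, h1, h0⟩ := tl_114_exists_bump hK hV hKV
  have h2 : ENNReal.ofReal (∫ x, φ x ∂ν) < c :=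
    (tl_114_bump_le φ h01 hV.measurableSet h0).trans_lt hVc
  have h3 : Tendsto (fun n => ENNReal.ofReal (∫ x, φ x ∂(m n))) L
      (𝓝 (ENNReal.ofReal (∫ x, φ x ∂ν))) := ENNReal.tendsto_ofReal (hv φ)
  filter_upwards [(tendsto_order.1 h3).2 c h2, hb _ φ.hasCompactSupport] with n hn hf
  exact (tl_114_le_bump φ h01 (tl_114_cc_integrable φ hf) hK.measurableSet h1).trans_lt hn

theorem tl_114_vague_open_le (L : Filter ι) [NeBot L] {m : ι → Measure Y} {ν : Measure Y}
    [ν.Regular]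
    (hv : ∀ φ : C_c(Y, ℝ), Tendsto (fun n => ∫ x, φ x ∂(m n)) L (𝓝 (∫ x, φ x ∂ν)))
    {V : Set Y} (hV : IsOpen V) {c : ℝ≥0∞} (hc : ∀ᶠ n in L, m n V ≤ c) : ν V ≤ c := by
  by_contra h
  obtain ⟨n, h1, h2⟩ := ((tl_114_vague_open L hv hV (not_le.1 h)).and hc).exists
  exact absurd h2 (not_le.2 h1)

theorem tl_114_vague_compact_ge (L : Filter ι) [NeBot L] {m : ι → Measure Y} {ν : Measure Y}
    [ν.Regular] (hb : ∀ K : Set Y, IsCompact K → ∀ᶠ n in L, m n K < ∞)
    (hv : ∀ φ : C_c(Y, ℝ), Tendsto (fun n => ∫ x, φ x ∂(m n)) L (𝓝 (∫ x, φ x ∂ν)))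
    {K : Set Y} (hK : IsCompact K) {c : ℝ≥0∞} (hc : ∀ᶠ n in L, c ≤ m n K) : c ≤ ν K := by
  by_contra h
  obtain ⟨n, h1, h2⟩ := ((tl_114_vague_compact L hb hv hK (not_le.1 h)).and hc).exists
  exact absurd h2 (not_le.2 h1)

end vague

/-! ## 7. frames: sequences of instances, diagonal choice, uniqueness of `L¹` limits, inverse functions -/

/-- **the contradiction frame**: a statement "for all large `n`, for all instances of size `n`" follows if no SEQUENCE of bad instances exists.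
Then fix `U := hyperfilter ℕ` (`Nat.hyperfilter_le_atTop`) on the index `k` of the sequence. -/
theorem tl_114_frame {I : ℕ → Type*} {Bad : ∀ n, I n → Prop}
    (h : ∀ (N : ℕ → ℕ) (x : ∀ k, I (N k)), StrictMono N → (∀ k, Bad (N k) (x k)) → False) :
    ∀ᶠ n in atTop, ∀ i : I n, ¬ Bad n i := by
  by_contra hc
  have hf : ∃ᶠ n in atTop, ∃ i : I n, Bad n i := by
    refine (not_eventually.1 hc).mono fun n hn => ?_
    push Not at hn
    exact hn
  obtain ⟨N, hN, hx⟩ := extraction_of_frequently_atTop hf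
  choose x hx using hx
  exact h N x hN hx

/-- **diagonal choice (countable saturation)**: if for every precision `k` a `k`-good point exists for `L`-most `n`, there is ONE sequence
that is `k`-good for `L`-most `n`, for every `k`.    Any filter `L ≤ atTop` on `ℕ`. -/
theorem tl_114_diagonal (L : Filter ℕ) (hL : L ≤ atTop) {Z : Type*} [Nonempty Z]
    {Q : ℕ → ℕ → Z → Prop} (hmono : ∀ k n z, Q (k + 1) n z → Q k n z)
    (h : ∀ k, ∀ᶠ n in L, ∃ z, Q k n z) : ∃ z : ℕ → Z, ∀ k, ∀ᶠ n in L, Q k n (z n) := by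
  classical
  have hmono' : ∀ {k k' : ℕ}, k ≤ k' → ∀ n z, Q k' n z → Q k n z := by
    intro k k' hkk' n z
    induction hkk' with
    | refl => exact id
    | step _ ih => exact fun hq => ih (hmono _ n z hq)
  have key : ∀ n, ∃ z : Z, ∀ k ≤ n, (∃ z', Q k n z') → Q k n z := by
    intro n
    by_cases hS : ∃ k ≤ n, ∃ z', Q k n z'
    · let S := (Finset.range (n + 1)).filter (fun k => ∃ z', Q k n z')
      have hmem : ∀ k ≤ n, (∃ z', Q k n z') → k ∈ S := fun k hk hz =>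
        Finset.mem_filter.2 ⟨Finset.mem_range.2 (by omega), hz⟩
      have hSne : S.Nonempty := by
        obtain ⟨k, hk, hz⟩ := hS
        exact ⟨k, hmem k hk hz⟩
      obtain ⟨z, hz⟩ := (Finset.mem_filter.1 (S.max'_mem hSne)).2
      exact ⟨z, fun k hk hk' => hmono' (S.le_max' k (hmem k hk hk')) n z hz⟩
    · exact ⟨Classical.arbitrary Z, fun k hk hk' => absurd ⟨k, hk, hk'⟩ hS⟩
  choose z hz using key
  refine ⟨z, fun k => ?_⟩
  filter_upwards [h k, hL (eventually_ge_atTop k)] with n hn hkn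
  exact hz n k hkn hn

/-- metric form: approximants `z n → a` with `P n (z n)` -/
theorem tl_114_diagonal_tendsto (L : Filter ℕ) (hL : L ≤ atTop) {Z : Type*} [PseudoMetricSpace Z]
    {a : Z} {P : ℕ → Z → Prop} (h : ∀ ε > 0, ∀ᶠ n in L, ∃ z, dist z a < ε ∧ P n z) :
    ∃ z : ℕ → Z, Tendsto z L (𝓝 a) ∧ ∀ᶠ n in L, P n (z n) := by
  have : Nonempty Z := ⟨a⟩
  obtain ⟨z, hz⟩ := tl_114_diagonal L hL
    (Q := fun k n z => dist z a < 1 / ((k : ℝ) + 1) ∧ P n z)
    (fun k n z hq => ⟨hq.1.trans_le (by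
      apply one_div_le_one_div_of_le (by positivity)
      push_cast; linarith), hq.2⟩)
    (fun k => h _ (by positivity))
  refine ⟨z, ?_, (hz 0).mono fun n hn => hn.2⟩
  rw [Metric.tendsto_nhds]
  intro ε hε
  obtain ⟨k, hk⟩ := exists_nat_one_div_lt hε
  filter_upwards [hz k] with n hn using hn.1.trans hk

/-- uniqueness of `L¹` limits: `f n → h` and `f n → 0` in `L¹`  ⟹  `h = 0` a.e. -/
theorem tl_114_L1_unique {X : Type*} [MeasurableSpace X] {μ : Measure X} (L : Filter ι) [NeBot L]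
    {f : ι → X → ℝ} {h : X → ℝ} (hf : ∀ᶠ n in L, Integrable (f n) μ) (hh : Integrable h μ)
    (h1 : Tendsto (fun n => ∫ x, |f n x - h x| ∂μ) L (𝓝 0))
    (h2 : Tendsto (fun n => ∫ x, |f n x| ∂μ) L (𝓝 0)) : h =ᵐ[μ] 0 := by
  have h3 : ∫ x, |h x| ∂μ ≤ 0 := by
    have := h1.add h2
    rw [add_zero] at this
    apply ge_of_tendsto this
    filter_upwards [hf] with n hn
    have hd : Integrable (fun x => |f n x - h x|) μ := (hn.sub hh).abs
    rw [← integral_add hd hn.abs]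
    apply integral_mono hh.abs (hd.add hn.abs)
    intro x
    have := abs_sub_abs_le_abs_sub (h x) (f n x)
    rw [abs_sub_comm] at this
    simp only [Pi.add_apply]
    linarith
  have h4 : ∫ x, |h x| ∂μ = 0 := le_antisymm h3 (integral_nonneg fun x => abs_nonneg _)
  rw [integral_eq_zero_iff_of_nonneg (fun x => abs_nonneg _) hh.abs] at h4
  filter_upwards [h4] with x hx
  simpa using hx

/-- limits of a pair (distribution function, quantile function): the Galois relation survives in its two strict forms -/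
theorem tl_114_galois_lim (L : Filter ι) [NeBot L] {α r : ι → ℝ → ℝ} {A R : ℝ → ℝ} {u t : ℝ}
    (hgc : ∀ᶠ n in L, (r n u ≤ t ↔ u ≤ α n t))
    (hα : Tendsto (fun n => α n t) L (𝓝 (A t))) (hr : Tendsto (fun n => r n u) L (𝓝 (R u))) :
    (R u < t → u ≤ A t) ∧ (u < A t → R u ≤ t) := by
  constructor
  · intro h
    apply ge_of_tendsto hα
    filter_upwards [hgc, (tendsto_order.1 hr).2 t h] with n h1 h2
    exact h1.1 h2.le
  · intro h
    apply le_of_tendsto hr
    filter_upwards [hgc, (tendsto_order.1 hα).1 u h] with n h1 h2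
    exact h1.2 h2.le

/-- passing to the limit in an integrated identity `p n y - p n x = ∫_x^y h n` -/
theorem tl_114_integrated_limit (L : Filter ι) [NeBot L] {p h : ι → ℝ → ℝ} {P H : ℝ → ℝ} {x y : ℝ}
    (hx : Tendsto (fun n => p n x) L (𝓝 (P x))) (hy : Tendsto (fun n => p n y) L (𝓝 (P y)))
    (hid : ∀ᶠ n in L, p n y - p n x = ∫ t in x..y, h n t)
    (hh : Tendsto (fun n => ∫ t in x..y, h n t) L (𝓝 (∫ t in x..y, H t))) :
    P y - P x = ∫ t in x..y, H t :=
  tendsto_nhds_unique (hy.sub hx) (hh.congr' (hid.mono fun _ hn => hn.symm))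

end Claimed.Agent.R286
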